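import Crest.Agent.R314E.Defs

/-! Row 314, part E, task ABL: Abel summation over the radii. -/

set_option autoImplicit false

namespace Crest.Agent.R314E

open Finset Crest.Agent.KS
open scoped Classical

namespace ABL

theorem shift_up (N j a : ℕ) (hj : j ≤ N) (L : ℕ → ℝ) (hL : ∀ i, i ≤ 2 * N → 0 ≤ L i) :
    ∑ i ∈ Icc 1 N, (if a + j < i then ((i : ℝ) - j) * L i else 0) ≤
      ∑ l ∈ Icc 1 N, if a < l then (l : ℝ) * L (l + j) else 0 := by
  rw [← Finset.sum_filter, ← Finset.sum_filter]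
  have h : ∑ l ∈ (Icc 1 N).filter (fun l => a < l), (l : ℝ) * L (l + j) =
      ∑ i ∈ Icc (a + j + 1) (N + j), ((i : ℝ) - j) * L i := by
    refine Finset.sum_nbij' (fun l => l + j) (fun i => i - j) ?_ ?_ ?_ ?_ ?_
    · intro l hl
      simp only [mem_filter, mem_Icc] at hl ⊢
      omega
    · intro i hi
      simp only [mem_filter, mem_Icc] at hi ⊢
      omega
    · intro l _
      simp
    · intro i hi
      simp only [mem_Icc] at hi
      omega
    · intro l _
      push_cast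
      ring
  rw [h]
  refine Finset.sum_le_sum_of_subset_of_nonneg ?_ ?_
  · intro i hi
    simp only [mem_filter, mem_Icc] at hi ⊢
    omega
  · intro i hi _
    simp only [mem_Icc] at hi
    have : (j : ℝ) ≤ i := by exact_mod_cast (by omega : j ≤ i)
    exact mul_nonneg (by linarith) (hL i (by omega))

theorem shift_down (N j : ℕ) (L : ℕ → ℝ) (hL : ∀ i, i ≤ 2 * N → 0 ≤ L i) :
    ∑ l ∈ Icc 1 N, (if j < l then (l : ℝ) * L (l - j) else 0) ≤
      ∑ i ∈ Icc 1 N, ((i : ℝ) + j) * L i := by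
  rw [← Finset.sum_filter]
  have h : ∑ l ∈ (Icc 1 N).filter (fun l => j < l), (l : ℝ) * L (l - j) =
      ∑ i ∈ Icc 1 (N - j), ((i : ℝ) + j) * L i := by
    refine Finset.sum_nbij' (fun l => l - j) (fun i => i + j) ?_ ?_ ?_ ?_ ?_
    · intro l hl
      simp only [mem_filter, mem_Icc] at hl ⊢
      omega
    · intro i hi
      simp only [mem_filter, mem_Icc] at hi ⊢
      omega
    · intro l hl
      simp only [mem_filter, mem_Icc] at hl
      omega
    · intro i _
      simp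
    · intro l hl
      simp only [mem_filter, mem_Icc] at hl
      rw [Nat.cast_sub hl.2.le]
      ring
  rw [h]
  refine Finset.sum_le_sum_of_subset_of_nonneg ?_ ?_
  · intro i hi
    simp only [mem_Icc] at hi ⊢
    omega
  · intro i hi _
    simp only [mem_Icc] at hi
    exact mul_nonneg (by positivity) (hL i (by omega))

theorem sum_small (N j : ℕ) : ∑ l ∈ Icc 1 N, (if j < l then 0 else (l : ℝ)) ≤ j * (j + 1) / 2 := by
  have h : ∀ n : ℕ, ∑ l ∈ Icc 1 n, (l : ℝ) = n * (n + 1) / 2 := by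
    intro n
    induction n with
    | zero => simp
    | succ n ih =>
      rw [Finset.sum_Icc_succ_top (by omega), ih]
      push_cast
      ring
  rw [← h j]
  have : ∑ l ∈ Icc 1 N, (if j < l then 0 else (l : ℝ)) =
      ∑ l ∈ (Icc 1 N).filter (fun l => ¬ j < l), (l : ℝ) := by
    rw [Finset.sum_filter]
    refine Finset.sum_congr rfl fun l _ => ?_
    by_cases h : j < l <;> simp [h]
  rw [this]
  refine Finset.sum_le_sum_of_subset_of_nonneg ?_ fun i _ _ => by positivity
  intro i hi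
  simp only [mem_filter, mem_Icc] at hi ⊢
  omega

theorem one (N j : ℕ) (hj : j ≤ N) (L : ℕ → ℝ) (hL : ∀ i, i ≤ 2 * N → 0 ≤ L i) :
    ∑ l ∈ Icc 1 N, (l : ℝ) * (L l - L (l + j)) ≤ j * ∑ i ∈ Icc 1 N, L i := by
  have h1 := shift_up N j 0 hj L hL
  have h2 : ∑ l ∈ Icc 1 N, (if 0 < l then (l : ℝ) * L (l + j) else 0) =
      ∑ l ∈ Icc 1 N, (l : ℝ) * L (l + j) :=
    Finset.sum_congr rfl fun l hl => if_pos (mem_Icc.1 hl).1
  have h3 : ∑ l ∈ Icc 1 N, (l : ℝ) * L l ≤ ∑ i ∈ Icc 1 N,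
      ((if 0 + j < i then ((i : ℝ) - j) * L i else 0) + j * L i) := by
    refine Finset.sum_le_sum fun i hi => ?_
    have hi' := mem_Icc.1 hi
    have h0 := hL i (by omega)
    split_ifs with h
    · linarith
    · have : (i : ℝ) ≤ j := by exact_mod_cast (by omega : i ≤ j)
      nlinarith
  rw [Finset.sum_add_distrib, ← Finset.mul_sum] at h3
  simp only [mul_sub, Finset.sum_sub_distrib]
  linarith

theorem two (N j : ℕ) (hj : j ≤ N) (L : ℕ → ℝ) (hL : ∀ i, i ≤ 2 * N → 0 ≤ L i) :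
    ∑ l ∈ Icc 1 N, (l : ℝ) * (if j < l then L (l - j) - L (l + j) else 1) ≤
      j * (j + 1) / 2 + 3 * j * ∑ i ∈ Icc 1 N, L i := by
  have h1 := shift_up N j j hj L hL
  have h2 := shift_down N j L hL
  have h3 := sum_small N j
  have h4 : ∑ i ∈ Icc 1 N, ((i : ℝ) + j) * L i ≤ ∑ i ∈ Icc 1 N,
      ((if j + j < i then ((i : ℝ) - j) * L i else 0) + 3 * j * L i) := by
    refine Finset.sum_le_sum fun i hi => ?_
    have hi' := mem_Icc.1 hi
    have h0 := hL i (by omega)
    have hj0 : (0 : ℝ) ≤ j := Nat.cast_nonneg j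
    split_ifs with h
    · nlinarith [mul_nonneg hj0 h0]
    · have : (i : ℝ) ≤ j + j := by exact_mod_cast (by omega : i ≤ j + j)
      nlinarith
  rw [Finset.sum_add_distrib, ← Finset.mul_sum] at h4
  have h5 : ∑ l ∈ Icc 1 N, (l : ℝ) * (if j < l then L (l - j) - L (l + j) else 1) =
      ∑ l ∈ Icc 1 N, (if j < l then (l : ℝ) * L (l - j) else 0) -
        ∑ l ∈ Icc 1 N, (if j < l then (l : ℝ) * L (l + j) else 0) +
        ∑ l ∈ Icc 1 N, (if j < l then 0 else (l : ℝ)) := by
    rw [← Finset.sum_sub_distrib, ← Finset.sum_add_distrib]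
    refine Finset.sum_congr rfl fun l _ => ?_
    split_ifs <;> ring
  linarith

theorem cut_le {X : Type} (d : X → X → ℝ) (μ : X → ℝ) (hμ : ∀ z, 0 < μ z) (x y : X) (R R' : ℝ)
    (h : ∀ z, d x z ≤ R → d y z ≤ R') (z : X) : cut d μ x R z ≤ cut d μ y R' z := by
  unfold cut
  by_cases h1 : d x z ≤ R
  · rw [if_pos h1, if_pos (h z h1)]
  · rw [if_neg h1]
    split_ifs
    · exact (hμ z).le
    · exact le_rfl

theorem cut_nonneg {X : Type} (d : X → X → ℝ) (μ : X → ℝ) (hμ : ∀ z, 0 < μ z) (x : X) (R : ℝ)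
    (z : X) : 0 ≤ cut d μ x R z := by
  unfold cut
  split_ifs
  · exact (hμ z).le
  · exact le_rfl

end ABL

theorem ABL_proof (hJac : JacStmt) (hBas : BasStmt) : AblStmt := by
  intro X _ d N hd hG μ r x hμ
  obtain ⟨hN, hgrid⟩ := hG
  obtain ⟨-, hb, -⟩ := hBas X d N hd hN
  have hN1 : (1 : ℝ) ≤ N := by exact_mod_cast hN
  have hN0 : (0 : ℝ) < N := by linarith
  have hrad : ∀ i, i ≤ 2 * N → 0 ≤ rad N i ∧ rad N i ≤ 3 := by
    intro i hi
    have h1 : (i : ℝ) ≤ 2 * N := by exact_mod_cast hi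
    have h2 : (i : ℝ) / N ≤ 2 := by rw [div_le_iff₀ hN0]; exact h1
    have h3 : 0 ≤ (i : ℝ) / N := by positivity
    unfold rad
    constructor <;> linarith
  have hW : ∀ y i, i ≤ 2 * N → 0 < W d μ y (rad N i) ∧ W d μ y (rad N i) ≤ 1 := fun y i hi =>
    (hb μ hμ y).1 _ (hrad i hi).1 (hrad i hi).2
  set L : ℕ → ℝ := fun i => -Real.log (W d μ r (rad N i)) with hLdef
  have hL : ∀ i, i ≤ 2 * N → 0 ≤ L i := fun i hi =>
    neg_nonneg.2 (Real.log_nonpos (hW r i hi).1.le (hW r i hi).2)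
  set S := ∑ i ∈ Icc 1 N, L i with hS
  have hS0 : 0 ≤ S := Finset.sum_nonneg fun i hi => hL i (by have := mem_Icc.1 hi; omega)
  have hgb : gb d N μ r = S / N := rfl
  have hgb0 : 0 ≤ gb d N μ r := by rw [hgb]; positivity
  have hphi : phi d N μ r = ∑ l ∈ Icc 1 N, fw N l * L l := rfl
  have hc : 0 < 2 / ((N : ℝ) * (N + 1)) := by positivity
  have hfw : ∀ l, fw N l = 2 / ((N : ℝ) * (N + 1)) * l := by
    intro l
    unfold fw
    ring
  have h2 : phi d N μ r ≤ 2 * gb d N μ r := by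
    rw [hphi, hgb, hS, mul_div_assoc', Finset.mul_sum, Finset.sum_div]
    refine Finset.sum_le_sum fun l hl => ?_
    have hl' := mem_Icc.1 hl
    have h1 : (l : ℝ) ≤ N := by exact_mod_cast hl'.2
    have h3 : fw N l ≤ 2 / N := by
      unfold fw
      rw [div_le_div_iff₀ (by positivity) hN0]
      nlinarith
    calc fw N l * L l ≤ 2 / N * L l := mul_le_mul_of_nonneg_right h3 (hL l (by omega))
      _ = _ := by ring
  refine ⟨hgb0, h2, ?_⟩
  by_cases hx : x = r
  · subst hx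
    rw [hd.self, (hb μ hμ x).2.2.1]
    simp
  by_cases ht : 1 / 2 < d r x
  · have h3 : 1 / 2 ≤ min (d r x) 1 := le_min ht.le (by norm_num)
    have h4 := (hb μ hμ x).2.1
    have h5 := ((hb μ hμ x).2.2.2.2 μ hμ r).2.1
    constructor
    · nlinarith
    · nlinarith [mul_nonneg (by linarith : 0 ≤ min (d r x) 1) hgb0]
  push Not at ht
  rw [min_eq_left (by linarith)]
  set t := d r x with htdef
  have ht1 : 1 ≤ t * N := by
    have := hgrid r x (Ne.symm hx)
    rwa [div_le_iff₀ hN0] at this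
  have ht0 : 0 < t := by nlinarith
  set j := ⌈t * N⌉₊ with hjdef
  have hj1 : t * N ≤ j := Nat.le_ceil _
  have hj2 : (j : ℝ) ≤ 2 * t * N := by
    have := Nat.ceil_lt_add_one (by linarith : 0 ≤ t * N)
    linarith
  have hj3 : (j : ℝ) ≤ N := by nlinarith
  have hj : j ≤ N := by exact_mod_cast hj3
  have htj : t ≤ (j : ℝ) / N := by rw [le_div_iff₀ hN0]; exact hj1
  have hup : ∀ l, rad N (l + j) = rad N l + (j : ℝ) / N := by
    intro l
    unfold rad
    push_cast
    ring
  have hxr : ∀ l z, d x z ≤ rad N l → d r z ≤ rad N (l + j) := by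
    intro l z hz
    rw [hup]
    linarith [hd.tri r x z]
  have hrr : ∀ l z, d r z ≤ rad N l → d r z ≤ rad N (l + j) := by
    intro l z hz
    rw [hup]
    linarith
  have hrx : ∀ l z, d r z ≤ rad N l → d x z ≤ rad N (l + j) := by
    intro l z hz
    rw [hup]
    linarith [hd.tri x r z, hd.symm x r]
  have hfin : ∀ a : ℝ, 0 ≤ a → 2 / ((N : ℝ) * (N + 1)) * (a * j * S) ≤ 4 * a * t * (S / N) := by
    intro a ha
    have h3 : 2 / ((N : ℝ) * (N + 1)) * j ≤ 4 * t / N := by
      rw [div_mul_eq_mul_div, div_le_div_iff₀ (by positivity) hN0]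
      nlinarith
    calc _ = (2 / ((N : ℝ) * (N + 1)) * j) * (a * S) := by ring
      _ ≤ (4 * t / N) * (a * S) := mul_le_mul_of_nonneg_right h3 (mul_nonneg ha hS0)
      _ = _ := by ring
  constructor
  · have h3 : phi d N μ r - phi d N μ x ≤
        2 / ((N : ℝ) * (N + 1)) * ∑ l ∈ Icc 1 N, (l : ℝ) * (L l - L (l + j)) := by
      rw [hphi, Finset.mul_sum]
      unfold phi
      rw [← Finset.sum_sub_distrib]
      refine Finset.sum_le_sum fun l hl => ?_
      have hl' := mem_Icc.1 hl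
      have h4 : Real.log (W d μ x (rad N l)) ≤ Real.log (W d μ r (rad N (l + j))) :=
        Real.log_le_log (hW x l (by omega)).1
          (Finset.sum_le_sum fun z _ => ABL.cut_le d μ hμ.1 x r _ _ (hxr l) z)
      rw [hfw, ← mul_sub, mul_assoc]
      refine mul_le_mul_of_nonneg_left (mul_le_mul_of_nonneg_left ?_ (Nat.cast_nonneg l)) hc.le
      simp only [hLdef]
      linarith
    have h4 := mul_le_mul_of_nonneg_left (ABL.one N j hj L hL) hc.le
    have h5 := hfin 1 zero_le_one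
    rw [hgb]
    rw [one_mul, mul_one] at h5
    linarith
  · have h3 : cL d N μ x μ r ≤ 2 / ((N : ℝ) * (N + 1)) *
        ∑ l ∈ Icc 1 N, (l : ℝ) * (if j < l then L (l - j) - L (l + j) else 1) := by
      rw [Finset.mul_sum]
      unfold cL
      refine Finset.sum_le_sum fun l hl => ?_
      have hl' := mem_Icc.1 hl
      rw [hfw, mul_assoc]
      refine mul_le_mul_of_nonneg_left (mul_le_mul_of_nonneg_left ?_ (Nat.cast_nonneg l)) hc.le
      obtain ⟨-, j1, -, -, -, -, j2⟩ := hJac X (cut d μ x (rad N l)) (cut d μ r (rad N l))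
        (cut d μ r (rad N l)) (ABL.cut_nonneg d μ hμ.1 _ _) (ABL.cut_nonneg d μ hμ.1 _ _)
        (ABL.cut_nonneg d μ hμ.1 _ _)
      split_ifs with h
      · have hl2 : l - j + j = l := by omega
        have := j2 (cut d μ r (rad N (l - j))) (cut d μ r (rad N (l + j))) (fun z =>
          ⟨ABL.cut_nonneg d μ hμ.1 _ _ z,
            ABL.cut_le d μ hμ.1 _ _ _ _ (fun y hy => hl2 ▸ hrx (l - j) y hy) z,
            ABL.cut_le d μ hμ.1 _ _ _ _ (fun y hy => hl2 ▸ hrr (l - j) y hy) z,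
            ABL.cut_le d μ hμ.1 _ _ _ _ (hxr l) z, ABL.cut_le d μ hμ.1 _ _ _ _ (hrr l) z⟩)
          (hW r (l - j) (by omega)).1
        simp only [hLdef]
        unfold W
        linarith
      · exact j1
    have h4 := mul_le_mul_of_nonneg_left (ABL.two N j hj L hL) hc.le
    have h5 := hfin 3 (by norm_num)
    have h6 : 2 / ((N : ℝ) * (N + 1)) * (j * (j + 1) / 2) ≤ 2 * t := by
      rw [div_mul_eq_mul_div, div_le_iff₀ (by positivity)]
      have hj0 : (0 : ℝ) ≤ j := Nat.cast_nonneg j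
      nlinarith [mul_le_mul hj2 (by linarith : (j : ℝ) + 1 ≤ N + 1) (by linarith) (by positivity)]
    rw [hgb]
    rw [mul_add (2 / ((N : ℝ) * (N + 1))), ← hS] at h4
    linarith

end Crest.Agent.R314E
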