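import Crest.Agent.R314E.Defs

/-! Row 314, part E, task AVG. -/

set_option autoImplicit false

namespace Crest.Agent.R314E

open Finset Crest.Agent.KS
open scoped Classical

namespace AVG

theorem sum_inv_sqrt (N : ℕ) : ∑ l ∈ Icc 1 N, 1 / √(l : ℝ) ≤ 2 * √(N : ℝ) := by
  induction N with
  | zero => simp
  | succ n ih =>
    rw [Finset.sum_Icc_succ_top (by omega)]
    have h0 : (0 : ℝ) ≤ n := Nat.cast_nonneg n
    have h1 : 0 < √((n + 1 : ℕ) : ℝ) := Real.sqrt_pos.2 (by push_cast; linarith)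
    have h2 : √((n + 1 : ℕ) : ℝ) ^ 2 = n + 1 := by
      rw [Real.sq_sqrt (by positivity)]; push_cast; ring
    have h3 : √(n : ℝ) ^ 2 = n := Real.sq_sqrt h0
    have h4 : 1 / √((n + 1 : ℕ) : ℝ) ≤ 2 * √((n + 1 : ℕ) : ℝ) - 2 * √(n : ℝ) := by
      rw [div_le_iff₀ h1]
      nlinarith [sq_nonneg (√((n + 1 : ℕ) : ℝ) - √(n : ℝ))]
    linarith

theorem sum_fw (N h : ℕ) :
    ∑ l ∈ Icc 1 h, fw N l = (h : ℝ) * (h + 1) / ((N : ℝ) * (N + 1)) := by
  induction h with
  | zero => simp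
  | succ n ih =>
    rw [Finset.sum_Icc_succ_top (by omega), ih]
    unfold fw
    push_cast
    ring

variable {X : Type} [Fintype X]

theorem W_le (d : X → X → ℝ) (μ : X → ℝ) (hμ : ∀ z, 0 ≤ μ z) (x y : X) (R R' : ℝ)
    (h : ∀ z, d x z ≤ R → d y z ≤ R') : W d μ x R ≤ W d μ y R' := by
  unfold W cut
  refine Finset.sum_le_sum fun z _ => ?_
  by_cases h1 : d x z ≤ R
  · rw [if_pos h1, if_pos (h z h1)]
  · rw [if_neg h1]
    split_ifs
    · exact hμ z
    · exact le_rfl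

theorem le_W (d : X → X → ℝ) (hd : IsM d) (μ : X → ℝ) (hμ : ∀ z, 0 ≤ μ z) (x : X) (R : ℝ)
    (hR : 0 ≤ R) : μ x ≤ W d μ x R := by
  unfold W
  have h1 : cut d μ x R x = μ x := by
    unfold cut; rw [if_pos (by rw [hd.self]; exact hR)]
  rw [← h1]
  refine Finset.single_le_sum (f := fun z => cut d μ x R z) (fun z _ => ?_) (Finset.mem_univ x)
  unfold cut
  split_ifs
  · exact hμ z
  · exact le_rfl

omit [Fintype X] in
theorem d_nonneg (d : X → X → ℝ) (hd : IsM d) (x y : X) : 0 ≤ d x y := by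
  have := hd.tri x y x
  rw [hd.self, hd.symm y x] at this
  linarith

/-- Markov -/
theorem post_le (k : ℕ) (d : X → X → ℝ) (hd : IsM d) (m0 ν : X → ℝ) (hD : Dat k m0 ν) (r : X)
    (ρ : ℝ) (h0 : 0 < ρ) (h1 : ρ ≤ 1) (h2 : 2 * D1 d ν r ≤ ρ) :
    W d (post m0 r) r ρ ≤ 2 * W d (fun x => m0 x + ν x) r ρ := by
  have hA : W d (post m0 r) r ρ = W d m0 r ρ + 1 := by
    unfold W cut post
    have : ∀ z, (if d r z ≤ ρ then m0 z + (if z = r then 1 else 0) else 0) =
        (if d r z ≤ ρ then m0 z else 0) + (if z = r then (1 : ℝ) else 0) := by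
      intro z
      by_cases hz : z = r
      · have : d r z ≤ ρ := by rw [hz, hd.self]; exact h0.le
        rw [if_pos this, if_pos this]
      · rw [if_neg hz, add_zero, add_zero]
    rw [Finset.sum_congr rfl fun z _ => this z, Finset.sum_add_distrib]
    simp
  have hB : W d (fun x => m0 x + ν x) r ρ = W d m0 r ρ + W d ν r ρ := by
    unfold W cut
    rw [← Finset.sum_add_distrib]
    refine Finset.sum_congr rfl fun z _ => ?_
    split_ifs <;> simp
  have hC : 0 ≤ W d m0 r ρ := by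
    unfold W cut
    refine Finset.sum_nonneg fun z _ => ?_
    split_ifs
    · exact hD.m0_nonneg z
    · exact le_rfl
  have hE : ρ * (1 - W d ν r ρ) ≤ D1 d ν r := by
    rw [← hD.ν_sum]
    unfold W cut D1
    rw [← Finset.sum_sub_distrib, Finset.mul_sum]
    refine Finset.sum_le_sum fun z _ => ?_
    have hν := hD.ν_nonneg z
    by_cases hz : d r z ≤ ρ
    · rw [if_pos hz, sub_self, mul_zero]
      exact mul_nonneg hν (le_min (d_nonneg d hd r z) zero_le_one)
    · rw [if_neg hz, sub_zero, mul_comm]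
      exact mul_le_mul_of_nonneg_left (le_min (le_of_lt (not_le.1 hz)) h1) hν
  have hF : 1 / 2 ≤ W d ν r ρ := by
    by_contra h
    have h := not_le.1 h
    nlinarith
  rw [hA, hB]
  linarith

/-- the lower bound for the stability functional -/
theorem Qs_ge (d : X → X → ℝ) (N : ℕ) (hd : IsM d) (hG : Grid d N) (m μ g : X → ℝ) (r : X)
    (hm : ∀ x, 0 ≤ m x) (hμ : ∀ z, 0 < μ z)
    (hg : ∀ x, 0 ≤ g x ∧ g x ≤ 1 ∧ g r ≤ g x + 8 * d r x) (l : ℕ) (hl1 : 1 ≤ l) (hlN : l ≤ N) :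
    g r ^ 2 / 4 * (((l : ℝ) / N) ^ 2 / 8) / W d μ r (rad N l) * W d m r ((l : ℝ) / N * g r / 16) ≤
      Qs d N (fun x => m x * g x ^ 2) μ r := by
  have hN : (1 : ℝ) ≤ N := by exact_mod_cast hG.1
  have hN0 : (0 : ℝ) < N := by linarith
  have hl : (1 : ℝ) ≤ l := by exact_mod_cast hl1
  have hlN' : (l : ℝ) ≤ N := by exact_mod_cast hlN
  have hτ0 : 0 < (l : ℝ) / N := by positivity
  have hτ1 : (l : ℝ) / N ≤ 1 := by rw [div_le_one hN0]; exact hlN'
  have hγ0 := (hg r).1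
  have hγ1 := (hg r).2.1
  have hfw : ∀ l', 0 ≤ fw N l' := fun l' => by unfold fw; positivity
  have hWpos : ∀ x l', 0 < W d μ x (rad N l') := fun x l' =>
    lt_of_lt_of_le (hμ x) (le_W d hd μ (fun z => (hμ z).le) x _ (by unfold rad; positivity))
  set w := W d μ r (rad N l) with hw
  have hw0 : 0 < w := hWpos r l
  set ρ := (l : ℝ) / N * g r / 16 with hρ
  have hρ1 : ρ ≤ (l : ℝ) / N / 16 := by
    have : (l : ℝ) / N * g r ≤ (l : ℝ) / N := mul_le_of_le_one_right hτ0.le hγ1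
    rw [hρ]; linarith
  have hρ2 : ρ ≤ g r / 16 := by
    have : (l : ℝ) / N * g r ≤ g r := mul_le_of_le_one_left hγ0 hτ1
    rw [hρ]; linarith
  unfold Qs
  conv_lhs => unfold W cut
  rw [Finset.mul_sum]
  refine Finset.sum_le_sum fun x _ => ?_
  have hS0 : 0 ≤ ∑ l' ∈ Icc 1 N, fw N l' / W d μ x (rad N l') :=
    Finset.sum_nonneg fun l' _ => div_nonneg (hfw l') (hWpos x l').le
  by_cases hx : d r x ≤ ρ
  · rw [if_pos hx, if_pos (by linarith)]
    have hgx : g r / 2 ≤ g x := by have := (hg x).2.2; linarith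
    have hgx2 : g r ^ 2 / 4 ≤ g x ^ 2 := by nlinarith
    set h := (l + 1) / 2 with hh
    have hhl : h ≤ l := by omega
    have hball : ∀ l' ∈ Icc 1 h, W d μ x (rad N l') ≤ w := by
      intro l' hl'
      have hl'h := (Finset.mem_Icc.1 hl').2
      refine W_le d μ (fun z => (hμ z).le) x r _ _ fun z hz => ?_
      have ht := hd.tri r x z
      unfold rad at hz ⊢
      by_cases hl2 : 2 ≤ l
      · have h1 : 16 * l' + l ≤ 16 * l := by omega
        have h2 : (16 : ℝ) * l' + l ≤ 16 * l := by exact_mod_cast h1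
        have h3 : (l' : ℝ) / N + (l : ℝ) / N / 16 ≤ (l : ℝ) / N := by
          have : (l' : ℝ) / N + (l : ℝ) / N / 16 = (16 * l' + l) / (16 * N) := by
            field_simp
          rw [this, div_le_div_iff₀ (by positivity) hN0]
          nlinarith
        linarith
      · have h1 : l = 1 := by omega
        have h2 : l' = 1 := by have := (Finset.mem_Icc.1 hl').1; omega
        have h3 : r = x := by
          by_contra hne
          have h4 := hG.2 r x hne
          have h5 : ((l : ℝ)) / N = 1 / N := by rw [h1]; simp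
          have h6 : 0 < 1 / (N : ℝ) := by positivity
          rw [h5] at hρ1
          linarith
        rw [h3, h1, ← h2]
        exact hz
    have hS : ((l : ℝ) / N) ^ 2 / 8 / w ≤ ∑ l' ∈ Icc 1 N, fw N l' / W d μ x (rad N l') := by
      have h1 : ∑ l' ∈ Icc 1 h, fw N l' / W d μ x (rad N l') ≤
          ∑ l' ∈ Icc 1 N, fw N l' / W d μ x (rad N l') :=
        Finset.sum_le_sum_of_subset_of_nonneg (Finset.Icc_subset_Icc_right (by omega))
          fun l' _ _ => div_nonneg (hfw l') (hWpos x l').le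
      have h2 : ∑ l' ∈ Icc 1 h, fw N l' / w ≤ ∑ l' ∈ Icc 1 h, fw N l' / W d μ x (rad N l') :=
        Finset.sum_le_sum fun l' hl' =>
          div_le_div_of_nonneg_left (hfw l') (hWpos x l') (hball l' hl')
      rw [← Finset.sum_div, sum_fw] at h2
      have h3 : ((l : ℝ) / N) ^ 2 / 8 ≤ (h : ℝ) * (h + 1) / ((N : ℝ) * (N + 1)) := by
        have h4 : l ≤ 2 * h := by omega
        have h5 : (l : ℝ) ≤ 2 * h := by exact_mod_cast h4
        have h6 : (0 : ℝ) ≤ h := Nat.cast_nonneg h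
        have h7 : (l : ℝ) ^ 2 ≤ 4 * (h * (h + 1)) := by nlinarith
        have h8 : (N : ℝ) * (N + 1) ≤ 2 * N ^ 2 := by nlinarith
        rw [div_pow, div_div, div_le_div_iff₀ (by positivity) (by positivity)]
        have h9 : (l : ℝ) ^ 2 * (N * (N + 1)) ≤ (4 * (h * (h + 1))) * (2 * N ^ 2) :=
          mul_le_mul h7 h8 (by positivity) (by positivity)
        nlinarith
      have h4 := div_le_div_of_nonneg_right h3 hw0.le
      linarith
    have hc : 0 ≤ ((l : ℝ) / N) ^ 2 / 8 / w := by positivity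
    calc g r ^ 2 / 4 * (((l : ℝ) / N) ^ 2 / 8) / w * m x
        = m x * (g r ^ 2 / 4 * (((l : ℝ) / N) ^ 2 / 8 / w)) := by ring
      _ ≤ m x * (g x ^ 2 * ∑ l' ∈ Icc 1 N, fw N l' / W d μ x (rad N l')) :=
          mul_le_mul_of_nonneg_left (mul_le_mul hgx2 hS hc (sq_nonneg _)) (hm x)
      _ = m x * g x ^ 2 * ∑ l' ∈ Icc 1 N, fw N l' / W d μ x (rad N l') := by ring
  · rw [if_neg hx, mul_zero]
    split_ifs
    · exact mul_nonneg (mul_nonneg (hm x) (sq_nonneg _)) hS0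
    · exact le_rfl

/-- the real-number part of a good level -/
theorem good_real (γ τ w P A I : ℝ) (hγ0 : 0 < γ) (hγ1 : γ ≤ 1) (hτ0 : 0 < τ) (hτ1 : τ ≤ 1)
    (hw : 0 < w) (hP : 0 < P) (hA : 0 < A) (hI0 : 0 ≤ I)
    (h1 : γ ^ 2 / 4 * (τ ^ 2 / 8) / w * (P / 2) ≤ 6 * A)
    (h2 : √(τ * γ / 16) * Real.log (A / P) ≤ I) :
    γ * (-Real.log w) ≤ (390 + 4 * I) * (1 / √τ) := by
  have hs0 : 0 < √τ := Real.sqrt_pos.2 hτ0
  have hs1 : √τ ≤ 1 := Real.sqrt_le_one.2 hτ1
  have hs2 : √τ ^ 2 = τ := Real.sq_sqrt hτ0.le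
  have hu0 : 0 < √γ := Real.sqrt_pos.2 hγ0
  have hu1 : √γ ≤ 1 := Real.sqrt_le_one.2 hγ1
  have hu2 : √γ ^ 2 = γ := Real.sq_sqrt hγ0.le
  have hi1 : 1 ≤ 1 / √τ := by rw [le_div_iff₀ hs0]; linarith
  have h3 : w⁻¹ ≤ 384 * (A / P) * (γ⁻¹) ^ 2 * (τ⁻¹) ^ 2 := by
    have e1 : 384 * (A / P) * (γ⁻¹) ^ 2 * (τ⁻¹) ^ 2 = (6 * A) * (64 / (P * γ ^ 2 * τ ^ 2)) := by
      field_simp; ring
    have e2 : w⁻¹ = (γ ^ 2 / 4 * (τ ^ 2 / 8) / w * (P / 2)) * (64 / (P * γ ^ 2 * τ ^ 2)) := by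
      field_simp; ring
    rw [e1, e2]
    exact mul_le_mul_of_nonneg_right h1 (by positivity)
  have h4 : -Real.log w ≤
      Real.log 384 + Real.log (A / P) + 2 * Real.log γ⁻¹ + 2 * Real.log τ⁻¹ := by
    have := Real.log_le_log (by positivity) h3
    rw [Real.log_inv, Real.log_mul (by positivity) (by positivity),
      Real.log_mul (by positivity) (by positivity), Real.log_mul (by positivity) (by positivity),
      Real.log_pow, Real.log_pow] at this
    push_cast at this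
    exact this
  have h5 : Real.log 384 ≤ 384 := by
    have := Real.log_le_sub_one_of_pos (show (0 : ℝ) < 384 by norm_num); linarith
  have h5' : 0 ≤ Real.log 384 := Real.log_nonneg (by norm_num)
  have h6 : γ * Real.log γ⁻¹ ≤ 1 := by
    have := Real.log_le_sub_one_of_pos (inv_pos.2 hγ0)
    have h := mul_le_mul_of_nonneg_left this hγ0.le
    rw [mul_sub, mul_inv_cancel₀ hγ0.ne'] at h
    linarith
  have h7 : Real.log τ⁻¹ ≤ 2 * (1 / √τ) := by
    have e : τ⁻¹ = (1 / √τ) ^ 2 := by rw [div_pow, hs2, one_pow, one_div]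
    rw [e, Real.log_pow]
    have := Real.log_le_sub_one_of_pos (show 0 < 1 / √τ by positivity)
    push_cast
    linarith
  have h7' : 0 ≤ Real.log τ⁻¹ := Real.log_nonneg (one_le_inv_iff₀.2 ⟨hτ0, hτ1⟩)
  have h8 : γ * Real.log (A / P) ≤ 4 * I * (1 / √τ) := by
    have e : √(τ * γ / 16) = √τ * √γ / 4 := by
      rw [Real.sqrt_div (by positivity), Real.sqrt_mul hτ0.le]
      congr 1
      rw [show (16 : ℝ) = 4 ^ 2 by norm_num, Real.sqrt_sq (by norm_num)]
    rw [e] at h2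
    have e2 : γ * Real.log (A / P) =
        (√τ * √γ / 4 * Real.log (A / P)) * (4 * √γ * (1 / √τ)) := by
      field_simp
      rw [hu2]
      ring
    rw [e2]
    have h9 := mul_le_mul_of_nonneg_right h2 (show 0 ≤ 4 * √γ * (1 / √τ) by positivity)
    have h10 : I * (4 * √γ * (1 / √τ)) ≤ I * (4 * 1 * (1 / √τ)) :=
      mul_le_mul_of_nonneg_left (by gcongr) hI0
    linarith
  have h11 := mul_le_mul_of_nonneg_left h4 hγ0.le
  have h12 : γ * Real.log 384 ≤ 384 := by nlinarith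
  have h13 : γ * Real.log τ⁻¹ ≤ 2 * (1 / √τ) := by nlinarith
  nlinarith

end AVG

theorem AVG_proof (hBas : BasStmt) : AvgStmt := by
  refine ⟨812, by norm_num, ?_⟩
  intro k hk X _ d N hd hG m0 ν r g μ I hD hT hg hD1 hμr hQ hI
  obtain ⟨-, hB, -⟩ := hBas X d N hd hG.1
  have hN : (1 : ℝ) ≤ N := by exact_mod_cast hG.1
  have hN0 : (0 : ℝ) < N := by linarith
  have hk' : (2 : ℝ) ≤ k := by exact_mod_cast hk
  have hpost : ∀ x, 0 ≤ post m0 r x := fun x => by
    unfold post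
    have := hD.m0_nonneg x
    split_ifs <;> linarith
  have hP : ∀ ρ, 0 ≤ ρ → 0 < W d (post m0 r) r ρ := fun ρ hρ => by
    have h1 := AVG.le_W d hd _ hpost r ρ hρ
    have h2 : post m0 r r = m0 r + 1 := by unfold post; rw [if_pos rfl]
    have := hD.m0_nonneg r
    linarith
  have hA : 0 < Am d m0 r := hP 30 (by norm_num)
  have hI0 : 0 ≤ I := by
    have := hI 30 (by norm_num) le_rfl
    have e : Am d m0 r / W d (post m0 r) r 30 = 1 := div_self hA.ne'
    rw [e, Real.log_one, mul_zero] at this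
    exact this
  have hlk : 0 ≤ Real.log ((k : ℝ) + 1) := Real.log_nonneg (by linarith)
  have hDl : 0 ≤ D1 d ν r * Real.log ((k : ℝ) + 1) := mul_nonneg hD1.le hlk
  rcases (hg r).1.eq_or_lt with hγ | hγ
  · rw [← hγ, zero_mul]; positivity
  set γ := g r with hγdef
  set D := D1 d ν r with hDdef
  set Λ := Real.log ((k : ℝ) / D) with hΛ
  have hμ1 : μ r ≤ 1 := le_trans (AVG.le_W d hd μ (fun z => (hT.1 z).le) r 3 (by norm_num)) (hT.2 r)
  have hDk : 0 < D / k := by positivity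
  have hΛ0 : 0 ≤ Λ := by
    refine Real.log_nonneg ?_
    rw [le_div_iff₀ hD1, one_mul]
    have := le_trans hμr hμ1
    rwa [div_le_one (by linarith)] at this
  have hDΛ : D * Λ ≤ D * Real.log ((k : ℝ) + 1) + 1 := by
    have h1 : Λ = Real.log k + Real.log D⁻¹ := by
      rw [hΛ, div_eq_mul_inv, Real.log_mul (by linarith) (by positivity)]
    have h2 : Real.log (k : ℝ) ≤ Real.log ((k : ℝ) + 1) :=
      Real.log_le_log (by linarith) (by linarith)
    have h3 := Real.log_le_sub_one_of_pos (inv_pos.2 hD1)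
    have h4 := mul_le_mul_of_nonneg_left h3 hD1.le
    rw [mul_sub, mul_inv_cancel₀ hD1.ne'] at h4
    have h5 := mul_le_mul_of_nonneg_left h2 hD1.le
    rw [h1, mul_add]
    linarith
  set B := 32 * D * N / γ with hBdef
  have hB0 : 0 ≤ B := by positivity
  have hpt : ∀ l ∈ Icc 1 N, γ * (-Real.log (W d μ r (rad N l))) ≤
      (390 + 4 * I) * √(N : ℝ) * (1 / √(l : ℝ)) + if (l : ℝ) ≤ B then γ * Λ else 0 := by
    intro l hl
    obtain ⟨hl1, hlN⟩ := Finset.mem_Icc.1 hl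
    have hl1' : (1 : ℝ) ≤ l := by exact_mod_cast hl1
    have hlN' : (l : ℝ) ≤ N := by exact_mod_cast hlN
    have hτ0 : 0 < (l : ℝ) / N := by positivity
    have hτ1 : (l : ℝ) / N ≤ 1 := by rw [div_le_one hN0]; exact hlN'
    have hr0 : 0 ≤ rad N l := by unfold rad; positivity
    have hμW := AVG.le_W d hd μ (fun z => (hT.1 z).le) r _ hr0
    have hW0 : 0 < W d μ r (rad N l) := lt_of_lt_of_le (hT.1 r) hμW
    have hc0 : 0 ≤ (390 + 4 * I) * √(N : ℝ) * (1 / √(l : ℝ)) := by positivity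
    by_cases hb : (l : ℝ) ≤ B
    · rw [if_pos hb]
      have h1 : -Real.log (W d μ r (rad N l)) ≤ Λ := by
        have h2 := Real.log_le_log hDk (le_trans hμr hμW)
        have h3 : Λ = -Real.log (D / k) := by
          rw [hΛ, ← Real.log_inv, inv_div]
        linarith
      have := mul_le_mul_of_nonneg_left h1 hγ.le
      linarith
    · rw [if_neg hb, add_zero]
      have hρ0 : 0 < (l : ℝ) / N * γ / 16 := by positivity
      have hρ1 : (l : ℝ) / N * γ / 16 ≤ 1 := by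
        have : (l : ℝ) / N * γ ≤ 1 := mul_le_one₀ hτ1 hγ.le (hg r).2.1
        linarith
      have hρ2 : 2 * D ≤ (l : ℝ) / N * γ / 16 := by
        have h1 := (not_le.1 hb).le
        rw [hBdef, div_le_iff₀ hγ] at h1
        have e : (l : ℝ) / N * γ / 16 = (l * γ) / (16 * N) := by field_simp
        rw [e, le_div_iff₀ (by positivity)]
        linarith
      have h1 := AVG.Qs_ge d N hd hG (fun x => m0 x + ν x) μ g r
        (fun x => add_nonneg (hD.m0_nonneg x) (hD.ν_nonneg x)) hT.1 hg l hl1 hlN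
      have h2 := AVG.post_le k d hd m0 ν hD r _ hρ0 hρ1 hρ2
      have h3 : γ ^ 2 / 4 * (((l : ℝ) / N) ^ 2 / 8) / W d μ r (rad N l) *
          (W d (post m0 r) r ((l : ℝ) / N * γ / 16) / 2) ≤ 6 * Am d m0 r := by
        refine le_trans (mul_le_mul_of_nonneg_left ?_ (by positivity)) (le_trans h1 hQ)
        linarith
      have h4 := AVG.good_real γ ((l : ℝ) / N) _ _ _ I hγ (hg r).2.1 hτ0 hτ1 hW0 (hP _ hρ0.le) hA hI0
        h3 (hI _ hρ0 (by linarith))
      have e : 1 / √((l : ℝ) / N) = √(N : ℝ) * (1 / √(l : ℝ)) := by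
        rw [Real.sqrt_div (by positivity), one_div_div, mul_one_div]
      rw [e, ← mul_assoc] at h4
      exact h4
  have hsum := Finset.sum_le_sum hpt
  rw [Finset.sum_add_distrib, ← Finset.mul_sum, ← Finset.mul_sum] at hsum
  have h1 : (390 + 4 * I) * √(N : ℝ) * ∑ l ∈ Icc 1 N, 1 / √(l : ℝ) ≤ (390 + 4 * I) * (2 * N) := by
    have h2 := mul_le_mul_of_nonneg_left (AVG.sum_inv_sqrt N)
      (show 0 ≤ (390 + 4 * I) * √(N : ℝ) by positivity)
    have h3 : √(N : ℝ) * √(N : ℝ) = N := Real.mul_self_sqrt hN0.le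
    calc _ ≤ (390 + 4 * I) * √(N : ℝ) * (2 * √(N : ℝ)) := h2
      _ = (390 + 4 * I) * (2 * (√(N : ℝ) * √(N : ℝ))) := by ring
      _ = _ := by rw [h3]
  have h2 : ∑ l ∈ Icc 1 N, (if (l : ℝ) ≤ B then γ * Λ else 0) ≤ 32 * N * (D * Λ) := by
    rw [← Finset.sum_filter, Finset.sum_const, nsmul_eq_mul]
    have h3 : ((Icc 1 N).filter fun l : ℕ => (l : ℝ) ≤ B) ⊆ Icc 1 ⌊B⌋₊ := by
      intro l hl
      obtain ⟨hl1, hl2⟩ := Finset.mem_filter.1 hl
      exact Finset.mem_Icc.2 ⟨(Finset.mem_Icc.1 hl1).1, Nat.le_floor hl2⟩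
    have h4 := Finset.card_le_card h3
    rw [Nat.card_Icc, Nat.add_sub_cancel] at h4
    have h5 : ((((Icc 1 N).filter fun l : ℕ => (l : ℝ) ≤ B).card : ℕ) : ℝ) ≤ B :=
      le_trans (by exact_mod_cast h4) (Nat.floor_le hB0)
    have h6 := mul_le_mul_of_nonneg_right h5 (mul_nonneg hγ.le hΛ0)
    have e : B * (γ * Λ) = 32 * N * (D * Λ) := by rw [hBdef]; field_simp
    linarith
  unfold gb
  rw [← mul_div_assoc, div_le_iff₀ hN0]
  have h3 : 32 * N * (D * Λ) ≤ 32 * N * (D * Real.log ((k : ℝ) + 1) + 1) :=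
    mul_le_mul_of_nonneg_left hDΛ (by positivity)
  have h4 : 0 ≤ I * N := by positivity
  have h5 : 0 ≤ D * Real.log ((k : ℝ) + 1) * N := by positivity
  nlinarith

end Crest.Agent.R314E
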