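import Crest.Agent.R314E.Defs

/-! Row 314, part E: BAS. -/

set_option autoImplicit false

namespace Crest.Agent.R314E

open Finset Crest.Agent.KS
open scoped Classical

namespace BAS

variable {X : Type} [Fintype X]

theorem sum_Icc_id (N : ℕ) : ∑ l ∈ Icc 1 N, (l : ℝ) = (N : ℝ) * (N + 1) / 2 := by
  induction N with
  | zero => simp
  | succ n ih =>
    rw [Finset.sum_Icc_succ_top (by omega), ih]
    push_cast
    ring

theorem fw_sum {N : ℕ} (hN : 1 ≤ N) : ∑ l ∈ Icc 1 N, fw N l = 1 := by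
  have h : (0 : ℝ) < N := by exact_mod_cast hN
  unfold fw
  rw [← Finset.sum_div, ← Finset.mul_sum, sum_Icc_id]
  field_simp

theorem fw_nonneg (N l : ℕ) : 0 ≤ fw N l := by
  unfold fw
  positivity

theorem rad_bd {N l : ℕ} (hN : 1 ≤ N) (hl : l ∈ Icc 1 N) : 1 ≤ rad N l ∧ rad N l ≤ 2 := by
  have h : (0 : ℝ) < N := by exact_mod_cast hN
  have h2 : (l : ℝ) ≤ N := by exact_mod_cast (Finset.mem_Icc.1 hl).2
  have h3 : (l : ℝ) / N ≤ 1 := (div_le_one h).2 h2
  have h4 : (0 : ℝ) ≤ (l : ℝ) / N := by positivity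
  unfold rad
  constructor <;> linarith

omit [Fintype X] in
theorem cut_nonneg (d : X → X → ℝ) {μ : X → ℝ} (hμ : ∀ z, 0 < μ z) (x : X) (R : ℝ) (z : X) :
    0 ≤ cut d μ x R z := by
  unfold cut
  split_ifs
  · exact (hμ z).le
  · exact le_rfl

theorem le_W (d : X → X → ℝ) {μ : X → ℝ} (hμ : ∀ z, 0 < μ z) (x z : X) (R : ℝ) (h : d x z ≤ R) :
    μ z ≤ W d μ x R := by
  have := Finset.single_le_sum (f := fun z => cut d μ x R z) (fun y _ => cut_nonneg d hμ x R y)
    (Finset.mem_univ z)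
  have h2 : cut d μ x R z = μ z := if_pos h
  simp only [h2] at this
  exact this

theorem W_mono (d : X → X → ℝ) {μ : X → ℝ} (hμ : ∀ z, 0 < μ z) (x : X) {R R' : ℝ} (h : R ≤ R') :
    W d μ x R ≤ W d μ x R' := by
  refine Finset.sum_le_sum fun z _ => ?_
  unfold cut
  split_ifs with h1 h2
  · exact le_rfl
  · exact absurd (h1.trans h) h2
  · exact (hμ z).le
  · exact le_rfl

theorem W_bd {d : X → X → ℝ} (hd : IsM d) {μ : X → ℝ} (hμ : Tok d μ) (x : X) (R : ℝ)
    (h0 : 0 ≤ R) (h3 : R ≤ 3) : 0 < W d μ x R ∧ W d μ x R ≤ 1 :=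
  ⟨lt_of_lt_of_le (hμ.1 x) (le_W d hμ.1 x x R (by rw [hd.self]; exact h0)),
    (W_mono d hμ.1 x h3).trans (hμ.2 x)⟩

theorem phi_nonneg {d : X → X → ℝ} (hd : IsM d) {N : ℕ} (hN : 1 ≤ N) {μ : X → ℝ} (hμ : Tok d μ)
    (x : X) : 0 ≤ phi d N μ x := by
  refine Finset.sum_nonneg fun l hl => mul_nonneg (fw_nonneg N l) ?_
  obtain ⟨h1, h2⟩ := rad_bd hN hl
  obtain ⟨h3, h4⟩ := W_bd hd hμ x (rad N l) (by linarith) (by linarith)
  have := Real.log_nonpos h3.le h4
  linarith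

theorem phi_le {d : X → X → ℝ} (hd : IsM d) {N : ℕ} (hN : 1 ≤ N) {μ : X → ℝ} (hμ : Tok d μ)
    (x z : X) (e : ℝ) (hz : d z x ≤ 1) (he : 0 < e) (hez : e ≤ μ z) :
    phi d N μ x ≤ -Real.log e := by
  calc phi d N μ x ≤ ∑ l ∈ Icc 1 N, fw N l * (-Real.log e) := by
        refine Finset.sum_le_sum fun l hl => mul_le_mul_of_nonneg_left ?_ (fw_nonneg N l)
        obtain ⟨h1, -⟩ := rad_bd hN hl
        have h2 := le_W d hμ.1 x z (rad N l) (by rw [hd.symm]; linarith)
        have := Real.log_le_log he (hez.trans h2)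
        linarith
    _ = -Real.log e := by rw [← Finset.sum_mul, fw_sum hN, one_mul]

theorem cL_self (d : X → X → ℝ) (N : ℕ) (μ : X → ℝ) (x : X) : cL d N μ x μ x = 0 := by
  refine Finset.sum_eq_zero fun l _ => ?_
  simp [jac]

theorem cL_bd (hJac : JacStmt) (d : X → X → ℝ) {N : ℕ} (hN : 1 ≤ N) {μ μ' : X → ℝ}
    (hμ : Tok d μ) (hμ' : Tok d μ') (x x' : X) :
    0 ≤ cL d N μ x μ' x' ∧ cL d N μ x μ' x' ≤ 1 := by
  have h := fun l => hJac X (cut d μ x (rad N l)) (cut d μ' x' (rad N l)) (cut d μ' x' (rad N l))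
    (cut_nonneg d hμ.1 _ _) (cut_nonneg d hμ'.1 _ _) (cut_nonneg d hμ'.1 _ _)
  refine ⟨Finset.sum_nonneg fun l _ => mul_nonneg (fw_nonneg N l) (h l).1, ?_⟩
  calc cL d N μ x μ' x' ≤ ∑ l ∈ Icc 1 N, fw N l :=
        Finset.sum_le_sum fun l _ => mul_le_of_le_one_right (fw_nonneg N l) (h l).2.1
    _ = 1 := fw_sum hN

theorem cL_tri (hJac : JacStmt) (d : X → X → ℝ) (N : ℕ) {μ μ' μ'' : X → ℝ}
    (hμ : Tok d μ) (hμ' : Tok d μ') (hμ'' : Tok d μ'') (x x' x'' : X) :
    cL d N μ x μ'' x'' ≤ cL d N μ x μ' x' + cL d N μ' x' μ'' x'' := by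
  unfold cL
  rw [← Finset.sum_add_distrib]
  refine Finset.sum_le_sum fun l _ => ?_
  rw [← mul_add]
  exact mul_le_mul_of_nonneg_left (hJac X _ _ _ (cut_nonneg d hμ.1 _ _) (cut_nonneg d hμ'.1 _ _)
    (cut_nonneg d hμ''.1 _ _)).2.2.2.1 (fw_nonneg N l)

theorem cm_le (c : Option X → X → ℝ) (x : X) (h : Option X) : cm c x ≤ c h x :=
  Finset.inf'_le (fun h => c h x) (Finset.mem_univ h)

theorem cm_ex (c : Option X → X → ℝ) (x : X) : ∃ h, cm c x = c h x := by
  obtain ⟨h, -, hh⟩ := Finset.exists_mem_eq_inf' (univ_nonempty (α := Option X)) (fun h => c h x)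
  exact ⟨h, hh⟩

omit [Fintype X] in
theorem c_nonneg {d : X → X → ℝ} (hd : IsM d) {c : Option X → X → ℝ} (hc : Cen d c) (h : Option X)
    (x : X) : 0 ≤ c h x := by
  have := (hc.1 h x x).2
  rw [hd.self] at this
  linarith

theorem far {d : X → X → ℝ} {c : Option X → X → ℝ} (hc : Cen d c) (x : X) :
    ∃ h₁, ∀ h, h ≠ h₁ → 10 ≤ c h x := by
  obtain ⟨h₁, h1⟩ := cm_ex c x
  refine ⟨h₁, fun h hh => ?_⟩
  have h2 := hc.2 h h₁ x hh
  have h3 := cm_le c x h
  linarith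

theorem val_far {t : ℝ} (h : 10 ≤ t) : val t = 1 / 2 := by
  unfold val
  rw [min_eq_right (by linarith), max_eq_right (by norm_num)]

theorem val_bd (t : ℝ) : 1 / 4 ≤ val t ∧ val t ≤ 1 / 2 :=
  ⟨le_max_left _ _, max_le (by norm_num) (min_le_right _ _)⟩

theorem cH_le {d : X → X → ℝ} {c c' : Option X → X → ℝ} (hc : Cen d c) (hc' : Cen d c')
    (x x' : X) (e : ℝ) (he : ∀ h, |val (c h x) - val (c' h x')| ≤ e) : cH c x c' x' ≤ 8 * e := by
  obtain ⟨h₁, h1⟩ := far hc x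
  obtain ⟨h₂, h2⟩ := far hc' x'
  have he0 : 0 ≤ e := (abs_nonneg _).trans (he none)
  have h3 : ∑ h, |val (c h x) - val (c' h x')| ≤
      ∑ h : Option X, ((if h = h₁ then e else 0) + (if h = h₂ then e else 0)) := by
    refine Finset.sum_le_sum fun h _ => ?_
    have := he h
    split_ifs with ha hb hb
    · linarith
    · linarith
    · linarith
    · rw [val_far (h1 h ha), val_far (h2 h hb)]
      simp
  rw [Finset.sum_add_distrib, Finset.sum_ite_eq', Finset.sum_ite_eq'] at h3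
  simp only [Finset.mem_univ, if_true] at h3
  unfold cH
  linarith

theorem cH_nonneg (c c' : Option X → X → ℝ) (x x' : X) : 0 ≤ cH c x c' x' :=
  mul_nonneg (by norm_num) (Finset.sum_nonneg fun _ _ => abs_nonneg _)

theorem cH_tri (c c' c'' : Option X → X → ℝ) (x x' x'' : X) :
    cH c x c'' x'' ≤ cH c x c' x' + cH c' x' c'' x'' := by
  unfold cH
  rw [← mul_add, ← Finset.sum_add_distrib]
  exact mul_le_mul_of_nonneg_left (Finset.sum_le_sum fun h _ => abs_sub_le _ _ _) (by norm_num)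

theorem dead {d : X → X → ℝ} {c : Option X → X → ℝ} (hc : Cen d c) : ∃ h, ∀ x, 10 ≤ c h x := by
  by_contra hcon
  have h1 : ∀ h, ∃ x, c h x < 10 := by
    intro h
    by_contra h2
    exact hcon ⟨h, fun x => not_lt.1 fun h3 => h2 ⟨x, h3⟩⟩
  choose f hf using h1
  have hinj : Function.Injective f := by
    intro h h' hh
    by_contra hne
    have h2 := hc.2 h h' (f h) hne
    have h3 := hf h
    have h4 := hf h'
    rw [← hh] at h4
    linarith
  have := Fintype.card_le_of_injective f hinj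
  rw [Fintype.card_option] at this
  omega

theorem clamp_lip (lo hi s t : ℝ) : |max lo (min s hi) - max lo (min t hi)| ≤ |s - t| := by
  calc |max lo (min s hi) - max lo (min t hi)| = |max (min s hi) lo - max (min t hi) lo| := by
        rw [max_comm lo, max_comm lo]
    _ ≤ |min s hi - min t hi| := abs_max_sub_max_le_abs _ _ _
    _ ≤ max |s - t| |hi - hi| := abs_min_sub_min_le_max _ _ _ _
    _ = |s - t| := by simp

theorem ramp_lip (s t : ℝ) : |ramp s - ramp t| ≤ 8 * |s - t| := by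
  unfold ramp
  rw [min_comm 1, min_comm 1]
  refine (clamp_lip _ _ _ _).trans (le_of_eq ?_)
  rw [show 8 * s - 1 - (8 * t - 1) = 8 * (s - t) by ring, abs_mul]
  norm_num

theorem ramp_one {t : ℝ} (h : 1 / 4 ≤ t) : ramp t = 1 := by
  unfold ramp
  rw [min_eq_left (by linarith), max_eq_right (by norm_num)]

theorem Gq_facts (s t : ℝ) (hs : 0 ≤ s) : -128 ≤ Gq s ∧ Gq s ≤ 0 ∧ (s ≤ t → Gq s ≤ Gq t) ∧
    (0 ≤ t → Gq s - Gq t ≤ 65536 * s * max (s - t) 0 ∧ Gq s - Gq t ≤ 4096 * max (s - t) 0) := by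
  have ha0 : 0 ≤ min s (1 / 16) := le_min hs (by norm_num)
  have ha1 : min s (1 / 16) ≤ 1 / 16 := min_le_right _ _
  have ha2 : min s (1 / 16) ≤ s := min_le_left _ _
  unfold Gq
  refine ⟨by nlinarith, by nlinarith, fun h => ?_, fun ht => ?_⟩
  · have := min_le_min_right (1 / 16) h
    nlinarith
  · have hb0 : 0 ≤ min t (1 / 16) := le_min ht (by norm_num)
    have hm0 : 0 ≤ max (s - t) 0 := le_max_right _ _
    rcases le_total (min s (1 / 16)) (min t (1 / 16)) with h | h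
    · have h1 : min s (1 / 16) ^ 2 ≤ min t (1 / 16) ^ 2 := by nlinarith
      have h2 := mul_nonneg hs hm0
      constructor <;> nlinarith
    · have h1 : min s (1 / 16) - min t (1 / 16) ≤ max (s - t) 0 := by
        rcases le_total t (1 / 16) with h2 | h2
        · rw [min_eq_left h2]
          have := le_max_left (s - t) 0
          linarith
        · rw [min_eq_right h2]
          linarith
      have h3 : 0 ≤ min s (1 / 16) - min t (1 / 16) := by linarith
      generalize min s (1 / 16) = a at *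
      generalize min t (1 / 16) = b at *
      generalize max (s - t) 0 = m at *
      have h4 : a ^ 2 - b ^ 2 ≤ (a + b) * m := by nlinarith
      constructor <;> nlinarith

theorem ite_le_chi (c : Option X → X → ℝ) (x : X) (Q : Prop) [Decidable (1 / 4 ≤ cm c x ∧ Q)]
    [Decidable Q] (u v w : ℝ) (hv : 0 ≤ v) (hw : 0 ≤ w) (h : u ≤ v + w) :
    (if 1 / 4 ≤ cm c x ∧ Q then u else 0) ≤ chi c x * v + if Q then w else 0 := by
  have h0 : 0 ≤ chi c x * v := mul_nonneg (sq_nonneg _) hv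
  split_ifs with h1 h2 h2
  · unfold chi
    rw [ramp_one h1.1]
    linarith
  · exact absurd h1.2 h2
  · linarith
  · linarith

theorem net_le (hJac : JacStmt) (d : X → X → ℝ) {N : ℕ} (hN : 1 ≤ N) (m0 ν : X → ℝ) (r : X)
    (c : Option X → X → ℝ) (μ : X → ℝ) (c' : Option X → X → ℝ) (μ' : X → ℝ)
    (hm : ∀ x, 0 ≤ m0 x) (hν : ∀ x, 0 ≤ ν x) (hμ : Tok d μ) (hμ' : Tok d μ') :
    net d N m0 ν r c μ c' μ' ≤ P1 d N (fun x => (m0 x + ν x) * chi c x) μ μ' +
      P2 d N (fun x => m0 x + ν x) c c' μ' + P3 d N ν r c' μ' := by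
  unfold net P1 P2 P3
  rw [← Finset.sum_add_distrib, ← Finset.sum_add_distrib, ← Finset.sum_add_distrib]
  refine Finset.sum_le_sum fun x _ => ?_
  have h1 : cost d N c μ x c' μ' x ≤ chi c x * cL d N μ x μ' x + cH c x c' x := by
    have := ite_le_chi c x (1 / 4 ≤ cm c' x) (cL d N μ x μ' x) (cL d N μ x μ' x) 0
      (cL_bd hJac d hN hμ hμ' x x).1 le_rfl (by linarith)
    unfold cost
    simp only [ite_self] at this
    linarith
  have h2 : cost d N c μ x c' μ' r ≤ chi c x * cL d N μ x μ' x + cH c x c' x + cH c' x c' r +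
      if 1 / 4 ≤ cm c' r then cL d N μ' x μ' r else 0 := by
    have := ite_le_chi c x (1 / 4 ≤ cm c' r) (cL d N μ x μ' r) (cL d N μ x μ' x) (cL d N μ' x μ' r)
      (cL_bd hJac d hN hμ hμ' x x).1 (cL_bd hJac d hN hμ' hμ' x r).1
      (cL_tri hJac d N hμ hμ' hμ' x x r)
    have h3 := cH_tri c c' c' x x r
    unfold cost
    linarith
  have h4 := mul_le_mul_of_nonneg_left h1 (hm x)
  have h5 := mul_le_mul_of_nonneg_left h2 (hν x)
  unfold Th
  nlinarith

end BAS

theorem BAS_proof (hJac : JacStmt) : BasStmt := by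
  intro X _ d N hd hN
  refine ⟨⟨BAS.fw_sum hN, BAS.fw_nonneg N⟩, fun μ hμ x => ⟨BAS.W_bd hd hμ x,
    BAS.phi_nonneg hd hN hμ x, BAS.cL_self d N μ x, BAS.phi_le hd hN hμ x, fun μ' hμ' x' =>
      ⟨(BAS.cL_bd hJac d hN hμ hμ' x x').1, (BAS.cL_bd hJac d hN hμ hμ' x x').2,
        fun μ'' hμ'' x'' => BAS.cL_tri hJac d N hμ hμ' hμ'' x x' x''⟩⟩,
    fun c hc x => ⟨?_, BAS.cm_le c x, BAS.cm_ex c x, fun h hh => ?_, fun y => ?_, fun c' hc' x' =>
      ⟨BAS.cH_nonneg c c' x x', ?_, BAS.cH_le hc hc' x x'⟩⟩,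
    fun c hc => BAS.dead hc, fun s t => ⟨BAS.ramp_lip s t, BAS.clamp_lip _ _ s t, le_max_left _ _,
      max_le zero_le_one (min_le_left _ _), fun h => ?_, BAS.Gq_facts s t⟩,
    fun m0 ν r c μ c' μ' hm hν _ hμ _ hμ' => BAS.net_le hJac d hN m0 ν r c μ c' μ' hm hν hμ hμ'⟩
  · obtain ⟨h, hh⟩ := BAS.cm_ex c x
    rw [hh]
    exact BAS.c_nonneg hd hc h x
  · obtain ⟨h₁, h1⟩ := BAS.cm_ex c x
    by_cases h2 : h = h₁
    · rw [h1, h2]
    · have h3 := hc.2 h h₁ x h2
      have h4 := BAS.cm_le c x h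
      linarith
  · obtain ⟨h, hh⟩ := BAS.cm_ex c y
    have h1 := BAS.cm_le c x h
    have h2 := (hc.1 h x y).1
    linarith
  · have := BAS.cH_le hc hc' x x' (1 / 4) fun h => by
      have h1 := BAS.val_bd (c h x)
      have h2 := BAS.val_bd (c' h x')
      rw [abs_le]
      constructor <;> linarith [h1.1, h1.2, h2.1, h2.2]
    linarith
  · exact max_le_max le_rfl (min_le_min le_rfl (by linarith))

end Crest.Agent.R314E
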