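import Crest.Agent.R314E.Defs

/-! Row 314, part E, task CR (creation of a centre). -/

set_option autoImplicit false

namespace Crest.Agent.R314E

open Finset Crest.Agent.KS
open scoped Classical

namespace CR

variable {X : Type}

theorem d_nonneg {d : X → X → ℝ} (hd : IsM d) (x y : X) : 0 ≤ d x y := by
  have h1 := hd.tri x y x
  rw [hd.self, hd.symm y x] at h1
  linarith

theorem kat_nonneg {d : X → X → ℝ} (hd : IsM d) {f : X → ℝ} (hf : Kat d f) (x : X) : 0 ≤ f x := by
  have h1 := (hf x x).2
  rw [hd.self] at h1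
  linarith

/-- the new centres -/
noncomputable def nc (d : X → X → ℝ) (r : X) (c : Option X → X → ℝ) (h₀ : Option X) :
    Option X → X → ℝ :=
  fun h x => if h = h₀ then d r x else if c h r < 20 then c h x + 20 else c h x

theorem nc_self (d : X → X → ℝ) (r : X) (c : Option X → X → ℝ) (h₀ : Option X) (x : X) :
    nc d r c h₀ h₀ x = d r x := by simp [nc]

theorem nc_up (d : X → X → ℝ) (r : X) (c : Option X → X → ℝ) {h₀ h : Option X} (h1 : h ≠ h₀)
    (h2 : c h r < 20) (x : X) : nc d r c h₀ h x = c h x + 20 := by simp [nc, h1, h2]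

theorem nc_eq (d : X → X → ℝ) (r : X) (c : Option X → X → ℝ) {h₀ h : Option X} (h1 : h ≠ h₀)
    (h2 : ¬ c h r < 20) (x : X) : nc d r c h₀ h x = c h x := by simp [nc, h1, h2]

theorem nc_ge (d : X → X → ℝ) (r : X) (c : Option X → X → ℝ) {h₀ h : Option X} (h1 : h ≠ h₀)
    (x : X) : c h x ≤ nc d r c h₀ h x := by
  by_cases h2 : c h r < 20
  · rw [nc_up d r c h1 h2]; linarith
  · rw [nc_eq d r c h1 h2]

theorem nc_cen {d : X → X → ℝ} (hd : IsM d) (r : X) {c : Option X → X → ℝ} (hc : Cen d c)
    (h₀ : Option X) : Cen d (nc d r c h₀) := by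
  have key : ∀ h x, h ≠ h₀ → 20 ≤ d r x + nc d r c h₀ h x := by
    intro h x h1
    by_cases h2 : c h r < 20
    · rw [nc_up d r c h1 h2]
      have := kat_nonneg hd (hc.1 h) x
      have := d_nonneg hd r x
      linarith
    · rw [nc_eq d r c h1 h2]
      have := (hc.1 h r x).1
      linarith [not_lt.1 h2]
  refine ⟨fun h x y => ?_, fun h h' x hne => ?_⟩
  · by_cases h1 : h = h₀
    · subst h1
      rw [nc_self, nc_self]
      have a1 := hd.tri r y x
      have a2 := hd.tri x r y
      rw [hd.symm y x] at a1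
      rw [hd.symm x r] at a2
      exact ⟨a1, a2⟩
    · by_cases h2 : c h r < 20
      · rw [nc_up d r c h1 h2, nc_up d r c h1 h2]
        have := hc.1 h x y
        constructor <;> linarith [this.1, this.2]
      · rw [nc_eq d r c h1 h2, nc_eq d r c h1 h2]
        exact hc.1 h x y
  · by_cases h1 : h = h₀
    · subst h1
      rw [nc_self]
      exact key h' x (Ne.symm hne)
    · by_cases h2 : h' = h₀
      · subst h2
        rw [nc_self]
        have := key h x h1
        linarith
      · have a1 := nc_ge d r c h1 x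
        have a2 := nc_ge d r c h2 x
        have := hc.2 h h' x hne
        linarith

theorem val_big {t : ℝ} (ht : 1 ≤ t) : val t = 1 / 2 := by
  unfold val
  rw [min_eq_right (by linarith), max_eq_right (by norm_num)]

theorem ramp_big {t : ℝ} (ht : 1 / 4 ≤ t) : ramp t = 1 := by
  unfold ramp
  rw [min_eq_left (by linarith), max_eq_right (by norm_num)]

theorem ramp_small {t : ℝ} (ht : t ≤ 1 / 8) : ramp t = 0 := by
  unfold ramp
  exact max_eq_left ((min_le_right _ _).trans (by linarith))

theorem Gq_big {t : ℝ} (ht : 1 ≤ t) : Gq t = 0 := by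
  unfold Gq
  rw [min_eq_right (by linarith)]
  ring

theorem Gq_a : Gq (1 / 128) = -126 := by
  unfold Gq
  rw [min_eq_left (by norm_num)]
  norm_num

theorem Gq_b : Gq (3 / 128) = -110 := by
  unfold Gq
  rw [min_eq_left (by norm_num)]
  norm_num

theorem Gq_zero : Gq 0 = -128 := by
  unfold Gq
  rw [min_eq_left (by norm_num)]
  norm_num

end CR

open CR in
theorem CR_proof (hBas : BasStmt) (hLiz : LizStmt) : CrStmt := by
  intro k X _ d N hd hN m0 ν r c μ hD hc hμ hD1 hYr hr
  obtain ⟨-, hT, hC, hdead, hR, hnet⟩ := hBas X d N hd hN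
  obtain ⟨h₀, hh₀⟩ := hdead c hc
  set c' := nc d r c h₀ with hc'def
  have hc' : Cen d c' := nc_cen hd r hc h₀
  have hd0 := d_nonneg hd
  have hc0 : ∀ h x, 0 ≤ c h x := fun h x => kat_nonneg hd (hc.1 h) x
  -- the points `z_h`
  let zf : Option X → X := fun h => if hh : ∃ z, c h z < 1 / 4 then hh.choose else r
  have hzf : ∀ h, (∃ z, c h z < 1 / 4) → c h (zf h) < 1 / 4 := by
    intro h hh
    simp only [zf, dif_pos hh]
    exact hh.choose_spec
  let Z : Finset X := (univ.filter fun h => c h r < 20 ∧ ∃ z, c h z < 1 / 4).image zf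
  have hZ : ∀ z ∈ Z, ∃ h, c h r < 20 ∧ c h z < 1 / 4 ∧ zf h = z := by
    intro z hz
    obtain ⟨h, hh, rfl⟩ := Finset.mem_image.1 hz
    have := (Finset.mem_filter.1 hh).2
    exact ⟨h, this.1, hzf h this.2, rfl⟩
  have hZsep : ∀ z ∈ Z, ∀ z' ∈ Z, z ≠ z' → 18 ≤ d z z' := by
    intro z hz z' hz' hne
    obtain ⟨h, -, a2, a3⟩ := hZ z hz
    obtain ⟨h', -, b2, b3⟩ := hZ z' hz'
    have hhh : h ≠ h' := by
      rintro rfl
      exact hne (a3.symm.trans b3)
    have e1 := hc.2 h h' z' hhh
    have e2 := (hc.1 h z' z).1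
    rw [hd.symm z' z] at e2
    linarith
  have hm : ∀ x, 0 ≤ m0 x + ν x := fun x => add_nonneg (hD.m0_nonneg x) (hD.ν_nonneg x)
  have hchi : ∀ (b : Option X → X → ℝ) x, 0 ≤ chi b x ∧ chi b x ≤ 1 := by
    intro b x
    obtain ⟨-, -, a1, a2, -⟩ := hR (cm b x) 0
    unfold chi
    exact ⟨sq_nonneg _, by nlinarith⟩
  obtain ⟨μ', hμ', hP1, hZμ, hZW⟩ := hLiz X d N hd hN (fun x => (m0 x + ν x) * chi c x) μ Z (1 / 2)
    (fun x => mul_nonneg (hm x) (hchi c x).1) hμ (by norm_num) le_rfl hZsep
  refine ⟨c', μ', hc', hμ', ?_, ?_⟩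
  · intro h x x' a1 a2 y
    have h1 : h ≠ h₀ := by
      rintro rfl
      linarith [hh₀ x']
    have h2 : ¬ c h r < 20 := by
      intro h2
      rw [hc'def, nc_up d r c h1 h2] at a2
      linarith [hc0 h x]
    rw [hc'def, nc_eq d r c h1 h2, sub_self, abs_zero, ite_self]
  -- the mass of the big ball
  set M0 : ℝ := ∑ x, if d r x ≤ 30 then m0 x else 0 with hM0
  have hM00 : 0 ≤ M0 := Finset.sum_nonneg fun x _ => by
    split_ifs
    · exact hD.m0_nonneg x
    · exact le_rfl
  have hAm : Am d m0 r = M0 + 1 := by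
    unfold Am W cut post
    have : ∀ z, (if d r z ≤ 30 then m0 z + (if z = r then (1 : ℝ) else 0) else 0) =
        (if d r z ≤ 30 then m0 z else 0) + (if z = r then (1 : ℝ) else 0) := by
      intro z
      by_cases hz : z = r
      · subst hz
        simp [hd.self]
      · simp [hz]
    rw [Finset.sum_congr rfl fun z _ => this z, Finset.sum_add_distrib]
    simp [hM0]
  set S0 : ℝ := ∑ x, if d r x ≤ 30 then m0 x * d r x else 0 with hS0
  have hS0le : S0 ≤ (M0 + 1) / 8192 := by
    unfold Yr at hYr
    rw [hAm, div_le_iff₀ (by linarith)] at hYr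
    linarith
  -- part 1
  have hp1 : P1 d N (fun x => (m0 x + ν x) * chi c x) μ μ' ≤ 5 / 2 * (M0 + 1) := by
    have : (∑ x, if ∃ z ∈ Z, d z x ≤ 8 then (m0 x + ν x) * chi c x else 0) ≤
        ∑ x, ((if d r x ≤ 30 then m0 x else 0) + ν x) := by
      refine Finset.sum_le_sum fun x _ => ?_
      by_cases hx : ∃ z ∈ Z, d z x ≤ 8
      · rw [if_pos hx]
        obtain ⟨z, hz, hzx⟩ := hx
        obtain ⟨h, a1, a2, -⟩ := hZ z hz
        have e1 := (hc.1 h r z).2
        have e2 := hd.tri r z x
        rw [if_pos (by linarith)]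
        exact mul_le_of_le_one_right (hm x) (hchi c x).2
      · rw [if_neg hx]
        have := hD.ν_nonneg x
        have := hD.m0_nonneg x
        split_ifs <;> linarith
    rw [Finset.sum_add_distrib, hD.ν_sum] at this
    linarith
  -- part 2, pointwise
  have hfar : ∀ x, 30 < d r x → cH c x c' x + Th d N c' μ' x - Th d N c μ' x ≤ 0 := by
    intro x hx
    have hup : ∀ h, c h r < 20 → 10 ≤ c h x := by
      intro h h2
      have := (hc.1 h r x).2
      linarith
    have e1 : cH c x c' x ≤ 8 * 0 := by
      apply ((hC c hc x).2.2.2.2.2 c' hc' x).2.2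
      intro h
      by_cases h1 : h = h₀
      · subst h1
        rw [hc'def, nc_self, val_big (by linarith [hh₀ x]), val_big (by linarith)]
        simp
      · by_cases h2 : c h r < 20
        · rw [hc'def, nc_up d r c h1 h2, val_big (by linarith [hup h h2]),
            val_big (by linarith [hup h h2])]
          simp
        · rw [hc'def, nc_eq d r c h1 h2]
          simp
    have e2 : Th d N c' μ' x = Th d N c μ' x := by
      obtain ⟨h, hh⟩ := (hC c hc x).2.2.1
      by_cases hlt : c h x < 1
      · have h1 : h ≠ h₀ := by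
          rintro rfl
          linarith [hh₀ x]
        have h2 : ¬ c h r < 20 := fun h2 => by linarith [hup h h2]
        have e3 : c' h x = c h x := by rw [hc'def, nc_eq d r c h1 h2]
        have e4 : cm c' x = cm c x := by
          rw [(hC c' hc' x).2.2.2.1 h (by linarith), e3, hh]
        unfold Th chi
        rw [e4]
      · have e3 : 1 ≤ cm c x := by rw [hh]; exact not_lt.1 hlt
        have e4 : 1 ≤ cm c' x := by
          obtain ⟨h', hh'⟩ := (hC c' hc' x).2.2.1
          rw [hh']
          by_cases h1 : h' = h₀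
          · subst h1
            rw [hc'def, nc_self]
            linarith
          · have a1 := nc_ge d r c h1 x
            have a2 := (hC c hc x).2.1 h'
            rw [hc'def]
            linarith
        unfold Th chi
        rw [Gq_big e3, Gq_big e4, ramp_big (by linarith), ramp_big (by linarith)]
    linarith
  have hphi : ∀ x, 0 ≤ phi d N μ' x := fun x => (hT μ' hμ' x).2.1
  have hcH : ∀ (b : Option X → X → ℝ), Cen d b → ∀ x y, cH b x c' y ≤ 2 := fun b hb x y =>
    ((hC b hb x).2.2.2.2.2 c' hc' y).2.1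
  have hG : ∀ (b : Option X → X → ℝ), Cen d b → ∀ x, -128 ≤ Gq (cm b x) ∧ Gq (cm b x) ≤ 0 := by
    intro b hb x
    obtain ⟨-, -, -, -, -, a⟩ := hR (cm b x) 0
    have := a (hC b hb x).1
    exact ⟨this.1, this.2.1⟩
  have hall : ∀ x, cH c x c' x + Th d N c' μ' x - Th d N c μ' x ≤ 132 := by
    intro x
    have e1 := hcH c hc x x
    have e2 := (hG c hc x).1
    have e3 := (hG c' hc' x).2
    have e4 : (chi c' x - chi c x) * phi d N μ' x ≤ 1 := by
      by_cases hle : chi c' x ≤ chi c x
      · have := mul_nonneg (sub_nonneg.2 hle) (hphi x)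
        nlinarith
      · have hlt : chi c x < chi c' x := not_le.1 hle
        obtain ⟨h, hh⟩ := (hC c hc x).2.2.1
        have a1 : c h x < 1 / 4 := by
          by_contra hn
          have : chi c x = 1 := by
            unfold chi
            rw [hh, ramp_big (not_lt.1 hn)]
            norm_num
          linarith [(hchi c' x).2]
        have h1 : h ≠ h₀ := by
          rintro rfl
          linarith [hh₀ x]
        have h2 : c h r < 20 := by
          by_contra h2
          have e3 : c' h x = c h x := by rw [hc'def, nc_eq d r c h1 h2]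
          have e4 : cm c' x = cm c x := by
            rw [(hC c' hc' x).2.2.2.1 h (by linarith), e3, hh]
          unfold chi at hlt
          rw [e4] at hlt
          exact lt_irrefl _ hlt
        have hz : zf h ∈ Z :=
          Finset.mem_image.2 ⟨h, Finset.mem_filter.2 ⟨Finset.mem_univ _, h2, x, a1⟩, rfl⟩
        have a2 := hzf h ⟨x, a1⟩
        have a3 := (hc.1 h (zf h) x).2
        have a4 := (hT μ' hμ' x).2.2.2.1 (zf h) (1 / 2) (by linarith) (by norm_num) (hZμ _ hz).1
        have a5 : -Real.log (1 / 2) ≤ 1 := by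
          rw [one_div, Real.log_inv, neg_neg]
          have := Real.log_le_sub_one_of_pos (show (0 : ℝ) < 2 by norm_num)
          linarith
        have a6 : chi c' x - chi c x ≤ 1 := by linarith [(hchi c' x).2, (hchi c x).1]
        have := mul_le_mul a6 (a4.trans a5) (hphi x) zero_le_one
        linarith
    unfold Th
    nlinarith
  have hnear : ∀ x, d r x ≤ 1 / 128 → cH c x c' x + Th d N c' μ' x - Th d N c μ' x ≤ -14 := by
    intro x hx
    have e1 := hcH c hc x x
    have a1 : cm c' x ≤ 1 / 128 := by
      have := (hC c' hc' x).2.1 h₀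
      rw [hc'def, nc_self] at this
      rw [hc'def]
      linarith
    have a2 : 3 / 128 ≤ cm c x := by
      obtain ⟨h, hh⟩ := (hC c hc x).2.2.1
      have b1 := (hc.1 h r x).1
      have b2 := hr h
      rw [hh]
      linarith
    have a3 : Gq (cm c' x) ≤ -126 := by
      obtain ⟨-, -, -, -, -, a⟩ := hR (cm c' x) (1 / 128)
      have := (a (hC c' hc' x).1).2.2.1 a1
      rwa [Gq_a] at this
    have a4 : -110 ≤ Gq (cm c x) := by
      obtain ⟨-, -, -, -, -, a⟩ := hR (3 / 128) (cm c x)
      have := (a (by norm_num)).2.2.1 a2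
      rwa [Gq_b] at this
    have a5 : chi c' x = 0 := by
      unfold chi
      rw [ramp_small (by linarith)]
      norm_num
    have a6 := mul_nonneg (hchi c x).1 (hphi x)
    unfold Th
    rw [a5]
    nlinarith
  have hp2 : P2 d N (fun x => m0 x + ν x) c c' μ' ≤
      -14 * M0 + 18688 * S0 + (-14 + 18688 * D1 d ν r) := by
    unfold P2 D1
    have : ∀ x, (m0 x + ν x) * (cH c x c' x + Th d N c' μ' x - Th d N c μ' x) ≤
        (-14 * (if d r x ≤ 30 then m0 x else 0) + 18688 * (if d r x ≤ 30 then m0 x * d r x else 0)) +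
          (-14 * ν x + 18688 * (ν x * min (d r x) 1)) := by
      intro x
      set F := cH c x c' x + Th d N c' μ' x - Th d N c μ' x with hF
      have b0 := hD.m0_nonneg x
      have b1 := hD.ν_nonneg x
      have b2 : F ≤ -14 + 18688 * min (d r x) 1 := by
        by_cases hx : d r x ≤ 1 / 128
        · have := hnear x hx
          have : 0 ≤ min (d r x) 1 := le_min (hd0 r x) zero_le_one
          linarith
        · have := hall x
          have : 1 / 128 ≤ min (d r x) 1 := le_min (not_le.1 hx).le (by norm_num)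
          linarith
      have b3 := mul_le_mul_of_nonneg_left b2 b1
      have b4 : m0 x * F ≤ -14 * (if d r x ≤ 30 then m0 x else 0) +
          18688 * (if d r x ≤ 30 then m0 x * d r x else 0) := by
        by_cases hx : d r x ≤ 30
        · rw [if_pos hx, if_pos hx]
          have : F ≤ -14 + 18688 * d r x := by linarith [min_le_left (d r x) 1]
          have := mul_le_mul_of_nonneg_left this b0
          linarith
        · rw [if_neg hx, if_neg hx]
          have := mul_le_mul_of_nonneg_left (hfar x (not_le.1 hx)) b0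
          linarith
      linarith
    refine (Finset.sum_le_sum fun x _ => this x).trans (le_of_eq ?_)
    rw [Finset.sum_add_distrib, Finset.sum_add_distrib, Finset.sum_add_distrib, ← Finset.mul_sum,
      ← Finset.mul_sum, ← Finset.mul_sum, ← Finset.mul_sum, hD.ν_sum]
    ring
  have hp3 : P3 d N ν r c' μ' ≤ 2 := by
    unfold P3
    have a1 : cm c' r = 0 := by
      have : c' h₀ r = 0 := by rw [hc'def, nc_self, hd.self]
      rw [(hC c' hc' r).2.2.2.1 h₀ (by linarith), this]
    have a2 : Th d N c' μ' r = -128 := by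
      unfold Th chi
      rw [a1, ramp_small (by norm_num), Gq_zero]
      norm_num
    have : ∀ x, ν x * (cH c' x c' r + (if 1 / 4 ≤ cm c' r then cL d N μ' x μ' r else 0) +
        Th d N c' μ' r - Th d N c' μ' x) ≤ ν x * 2 := by
      intro x
      apply mul_le_mul_of_nonneg_left _ (hD.ν_nonneg x)
      rw [a1, if_neg (by norm_num), a2]
      have e1 := hcH c' hc' x r
      have e2 := (hG c' hc' x).1
      have e3 := mul_nonneg (hchi c' x).1 (hphi x)
      unfold Th
      nlinarith
    refine (Finset.sum_le_sum fun x _ => this x).trans (le_of_eq ?_)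
    rw [← Finset.sum_mul, hD.ν_sum]
    norm_num
  have hD2 : 0 ≤ D2 d ν r :=
    Finset.sum_nonneg fun x _ => mul_nonneg (hD.ν_nonneg x) (sq_nonneg _)
  have := hnet m0 ν r c μ c' μ' hD.m0_nonneg hD.ν_nonneg hc hμ hc' hμ'
  linarith

end Crest.Agent.R314E
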