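import Crest.Agent.KS.DefsI

/-!
Row 314 (k-server), part (E): the dynamic embedding. Definitions and task statements.

One scale, distances `d` normalised by the scale. A state is `(c, μ)`:
* `c h : X → ℝ` is the centre with id `h : Option X` (a Katětov function = a point of the
  extension of `X`); different centres are `20`-separated. `x` gets the heavy label `h` if
  `c h x < ρ`, `ρ` uniform in `(1/4, 1/2]`.
* `μ > 0` are token weights, every ball of radius `3` has weight `≤ 1`. An uncaptured `x` gets a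
  MinHash token of the ball of radius `rad N l`, `l ∈ [1, N]` drawn with probability `fw N l`.
`cost` bounds the probability of a label change, `Th` is the potential of a unit mass.
`m0` is the posterior mass of the parked offline servers, `ν` the posterior law of the position of
the server that moves to the request `r`.
-/

set_option autoImplicit false

namespace Crest.Agent.R314E

open Finset Crest.Agent.KS
open scoped Classical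

section defs

variable {X : Type} [Fintype X]

structure IsM {X : Type} (d : X → X → ℝ) : Prop where
  self : ∀ x, d x x = 0
  symm : ∀ x y, d x y = d y x
  tri : ∀ x y z, d x z ≤ d x y + d y z

/-- different points are at distance at least `1 / N` -/
def Grid {X : Type} (d : X → X → ℝ) (N : ℕ) : Prop := 1 ≤ N ∧ ∀ x y, x ≠ y → 1 / (N : ℝ) ≤ d x y

noncomputable def rad (N l : ℕ) : ℝ := 1 + (l : ℝ) / N

/-- probability of the radius `rad N l`; `∑ l ∈ Icc 1 N, fw N l = 1` -/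
noncomputable def fw (N l : ℕ) : ℝ := 2 * (l : ℝ) / ((N : ℝ) * (N + 1))

noncomputable def cut {X : Type} (d : X → X → ℝ) (μ : X → ℝ) (x : X) (R : ℝ) : X → ℝ :=
  fun z => if d x z ≤ R then μ z else 0

/-- weight of the closed ball -/
noncomputable def W (d : X → X → ℝ) (μ : X → ℝ) (x : X) (R : ℝ) : ℝ := ∑ z, cut d μ x R z

/-- weighted Jaccard distance -/
noncomputable def jac (a b : X → ℝ) : ℝ := (∑ z, |a z - b z|) / ∑ z, max (a z) (b z)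

noncomputable def phi (d : X → X → ℝ) (N : ℕ) (μ : X → ℝ) (x : X) : ℝ :=
  ∑ l ∈ Icc 1 N, fw N l * (-Real.log (W d μ x (rad N l)))

noncomputable def cL (d : X → X → ℝ) (N : ℕ) (μ : X → ℝ) (x : X) (μ' : X → ℝ) (x' : X) : ℝ :=
  ∑ l ∈ Icc 1 N, fw N l * jac (cut d μ x (rad N l)) (cut d μ' x' (rad N l))

/-- unweighted average of `-log W` -/
noncomputable def gb (d : X → X → ℝ) (N : ℕ) (μ : X → ℝ) (x : X) : ℝ :=
  (∑ l ∈ Icc 1 N, -Real.log (W d μ x (rad N l))) / N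

/-- valid token weights -/
def Tok (d : X → X → ℝ) (μ : X → ℝ) : Prop := (∀ z, 0 < μ z) ∧ ∀ x, W d μ x 3 ≤ 1

/-- the stability functional at `z` of the clients `n` -/
noncomputable def Qs (d : X → X → ℝ) (N : ℕ) (n μ : X → ℝ) (z : X) : ℝ :=
  ∑ x, if d z x ≤ 1 then n x * ∑ l ∈ Icc 1 N, fw N l / W d μ x (rad N l) else 0

def Kat {X : Type} (d : X → X → ℝ) (f : X → ℝ) : Prop :=
  ∀ x y, f x ≤ f y + d x y ∧ d x y ≤ f x + f y

/-- valid centres -/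
def Cen {X : Type} (d : X → X → ℝ) (c : Option X → X → ℝ) : Prop :=
  (∀ h, Kat d (c h)) ∧ ∀ h h' x, h ≠ h' → 20 ≤ c h x + c h' x

/-- distance to the nearest centre -/
noncomputable def cm (c : Option X → X → ℝ) (x : X) : ℝ := univ.inf' univ_nonempty (fun h => c h x)

/-- `0` on `t ≤ 1/8`, `1` on `t ≥ 1/4` -/
noncomputable def ramp (t : ℝ) : ℝ := max 0 (min 1 (8 * t - 1))

noncomputable def Gq (t : ℝ) : ℝ := 32768 * ((min t (1 / 16)) ^ 2 - (1 / 16) ^ 2)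

noncomputable def val (t : ℝ) : ℝ := max (1 / 4) (min t (1 / 2))

noncomputable def cH (c : Option X → X → ℝ) (x : X) (c' : Option X → X → ℝ) (x' : X) : ℝ :=
  4 * ∑ h, |val (c h x) - val (c' h x')|

/-- weight of `x` as a client of the tokens -/
noncomputable def chi (c : Option X → X → ℝ) (x : X) : ℝ := ramp (cm c x) ^ 2

noncomputable def Th (d : X → X → ℝ) (N : ℕ) (c : Option X → X → ℝ) (μ : X → ℝ) (x : X) : ℝ :=
  2 * chi c x * phi d N μ x + Gq (cm c x)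

noncomputable def cost (d : X → X → ℝ) (N : ℕ) (c : Option X → X → ℝ) (μ : X → ℝ) (x : X)
    (c' : Option X → X → ℝ) (μ' : X → ℝ) (x' : X) : ℝ :=
  cH c x c' x' + if 1 / 4 ≤ cm c x ∧ 1 / 4 ≤ cm c' x' then cL d N μ x μ' x' else 0

structure Dat (k : ℕ) (m0 ν : X → ℝ) : Prop where
  m0_nonneg : ∀ x, 0 ≤ m0 x
  ν_nonneg : ∀ x, 0 ≤ ν x
  ν_sum : ∑ x, ν x = 1
  tot : ∑ x, m0 x + 1 ≤ k

/-- the mass after the move -/
noncomputable def post {X : Type} (m0 : X → ℝ) (r : X) : X → ℝ :=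
  fun x => m0 x + if x = r then 1 else 0

noncomputable def D1 (d : X → X → ℝ) (ν : X → ℝ) (r : X) : ℝ := ∑ x, ν x * min (d r x) 1

noncomputable def D2 (d : X → X → ℝ) (ν : X → ℝ) (r : X) : ℝ := ∑ x, ν x * min (d r x) 1 ^ 2

noncomputable def Am (d : X → X → ℝ) (m0 : X → ℝ) (r : X) : ℝ := W d (post m0 r) r 30

noncomputable def Yr (d : X → X → ℝ) (m0 : X → ℝ) (r : X) : ℝ :=
  (∑ x, if d r x ≤ 30 then m0 x * d r x else 0) / Am d m0 r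

def IsI (d : X → X → ℝ) (m0 : X → ℝ) (r : X) (I : ℝ) : Prop :=
  ∀ ρ, 0 < ρ → ρ ≤ 30 → √ρ * Real.log (Am d m0 r / W d (post m0 r) r ρ) ≤ I

/-- expected cost plus change of the potential in one step -/
noncomputable def net (d : X → X → ℝ) (N : ℕ) (m0 ν : X → ℝ) (r : X) (c : Option X → X → ℝ)
    (μ : X → ℝ) (c' : Option X → X → ℝ) (μ' : X → ℝ) : ℝ :=
  ∑ x, m0 x * (cost d N c μ x c' μ' x + Th d N c' μ' x - Th d N c μ x) +
    ∑ x, ν x * (cost d N c μ x c' μ' r + Th d N c' μ' r - Th d N c μ x)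

/-- displacement of the centres in use before and after -/
def Shift {X : Type} (d : X → X → ℝ) (e : ℝ) (r : X) (c c' : Option X → X → ℝ) : Prop :=
  ∀ h x x', c h x' < 1 / 2 → c' h x < 1 / 2 → ∀ y,
    |c' h y - c h y| ≤ if d r x ≤ 30 then e else 0

/-- part 1 of `net`: the tokens change, clients `n` -/
noncomputable def P1 (d : X → X → ℝ) (N : ℕ) (n μ μ' : X → ℝ) : ℝ :=
  ∑ x, n x * (cL d N μ x μ' x + 2 * phi d N μ' x - 2 * phi d N μ x)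

/-- part 2 of `net`: the centres change, mass `m` -/
noncomputable def P2 (d : X → X → ℝ) (N : ℕ) (m : X → ℝ) (c c' : Option X → X → ℝ)
    (μ' : X → ℝ) : ℝ :=
  ∑ x, m x * (cH c x c' x + Th d N c' μ' x - Th d N c μ' x)

/-- part 3 of `net`: the server moves -/
noncomputable def P3 (d : X → X → ℝ) (N : ℕ) (ν : X → ℝ) (r : X) (c' : Option X → X → ℝ)
    (μ' : X → ℝ) : ℝ :=
  ∑ x, ν x * (cH c' x c' r + (if 1 / 4 ≤ cm c' r then cL d N μ' x μ' r else 0) +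
    Th d N c' μ' r - Th d N c' μ' x)

/-- the distance normalised by the scale `lam * 16 ^ l` -/
noncomputable def dsc {X : Type} [MetricSpace X] (lam : ℝ) (l : ℕ) : X → X → ℝ :=
  fun x y => dist x y / (lam * 16 ^ l)

end defs

/-- **JAC**. Triangle inequality: pointwise
`|a-c| + (max a (max b c) - max a c) ≤ |a-b| + |b-c|`, and `x/y ≤ (x+e)/(y+e)` for `x ≤ y`;
`|a-b| ≤ max a b`. For the last two parts: `∑ max ≥ ∑ a`, `∑ max ≥ ∑ b`; if `lo ≤ a,b ≤ hi` then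
`|a-b| = max - min`, so `jac = 1 - ∑ min / ∑ max`. -/
def JacStmt : Prop :=
  ∀ (X : Type) [Fintype X] (a b c : X → ℝ), (∀ z, 0 ≤ a z) → (∀ z, 0 ≤ b z) → (∀ z, 0 ≤ c z) →
    0 ≤ jac a b ∧ jac a b ≤ 1 ∧ jac a a = 0 ∧ jac a c ≤ jac a b + jac b c ∧
    (0 < ∑ z, a z → jac a b ≤ (∑ z, |a z - b z|) / ∑ z, a z) ∧
    (0 < ∑ z, b z → jac a b ≤ (∑ z, |a z - b z|) / ∑ z, b z) ∧
    ∀ lo hi : X → ℝ, (∀ z, 0 ≤ lo z ∧ lo z ≤ a z ∧ lo z ≤ b z ∧ a z ≤ hi z ∧ b z ≤ hi z) →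
      0 < ∑ z, lo z → jac a b ≤ Real.log (∑ z, hi z) - Real.log (∑ z, lo z)

/-- **BAS**. Basic facts on tokens and centres, and the decomposition of `net`
(`cost ≤ chi c x * cL μ x μ' x + cH c x c' x + cH c' x c' x' + [1/4 ≤ cm c' x'] * cL μ' x μ' x'`,
`chi = 1` when `1/4 ≤ cm`). At most one `h` has `c h x < 10`. -/
def BasStmt : Prop :=
  ∀ (X : Type) [Fintype X] (d : X → X → ℝ) (N : ℕ), IsM d → 1 ≤ N →
    (∑ l ∈ Icc 1 N, fw N l = 1 ∧ ∀ l, 0 ≤ fw N l) ∧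
    (∀ μ, Tok d μ → ∀ x, (∀ R, 0 ≤ R → R ≤ 3 → 0 < W d μ x R ∧ W d μ x R ≤ 1) ∧ 0 ≤ phi d N μ x ∧
      cL d N μ x μ x = 0 ∧ (∀ z e, d z x ≤ 1 → 0 < e → e ≤ μ z → phi d N μ x ≤ -Real.log e) ∧
      ∀ μ', Tok d μ' → ∀ x', 0 ≤ cL d N μ x μ' x' ∧ cL d N μ x μ' x' ≤ 1 ∧
        ∀ μ'', Tok d μ'' → ∀ x'', cL d N μ x μ'' x'' ≤ cL d N μ x μ' x' + cL d N μ' x' μ'' x'') ∧
    (∀ c, Cen d c → ∀ x, 0 ≤ cm c x ∧ (∀ h, cm c x ≤ c h x) ∧ (∃ h, cm c x = c h x) ∧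
      (∀ h, c h x ≤ 10 → cm c x = c h x) ∧ (∀ y, cm c x ≤ cm c y + d x y) ∧
      ∀ c', Cen d c' → ∀ x', 0 ≤ cH c x c' x' ∧ cH c x c' x' ≤ 2 ∧
        ∀ e, (∀ h, |val (c h x) - val (c' h x')| ≤ e) → cH c x c' x' ≤ 8 * e) ∧
    (∀ c, Cen d c → ∃ h, ∀ x, 10 ≤ c h x) ∧
    (∀ s t : ℝ, |ramp s - ramp t| ≤ 8 * |s - t| ∧ |val s - val t| ≤ |s - t| ∧
      0 ≤ ramp s ∧ ramp s ≤ 1 ∧ (s ≤ t → ramp s ≤ ramp t) ∧
      (0 ≤ s → -128 ≤ Gq s ∧ Gq s ≤ 0 ∧ (s ≤ t → Gq s ≤ Gq t) ∧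
        (0 ≤ t → Gq s - Gq t ≤ 65536 * s * max (s - t) 0 ∧ Gq s - Gq t ≤ 4096 * max (s - t) 0))) ∧
    ∀ (m0 ν : X → ℝ) (r : X) c μ c' μ', (∀ x, 0 ≤ m0 x) → (∀ x, 0 ≤ ν x) → Cen d c → Tok d μ →
      Cen d c' → Tok d μ' →
      net d N m0 ν r c μ c' μ' ≤ P1 d N (fun x => (m0 x + ν x) * chi c x) μ μ' +
        P2 d N (fun x => m0 x + ν x) c c' μ' + P3 d N ν r c' μ'

/-- **LI1**. One operation `T μ = (1 - e) μ` on the ball `d z · ≤ 6`, plus `e` at `z`, keeps `Tok`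
(a ball of radius 3 containing `z` lies in the ball of radius 6 about `z`). For a client `x` and a
level `l`, `W = W d μ x (rad N l)`, `W'` the same for `T μ`: nothing changes if `8 < d z x`; if `z` is
outside the ball, `jac ≤ e`, `W' ≥ (1-e) W`, `-log (1-e) ≤ 2e`; if `z` is inside,
`W' = (1-e) W + e ≥ W`, `jac ≤ e + e / W'`, `log W' - log W = log (1-e) + log (W'/(W'-e)) ≥ -2e + e/W'`.
Hence `P1 n μ (T μ) ≤ 5 e M - e * Qs n (T μ) z`, `M = W d n z 8`. Iterate `T` while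
`Qs n (T μ) z > 6 M` (then `M > 0` and `P1 n μ (T μ) ≤ -e M`; `∑ n * 2 * phi ≥ 0` drops by `e M`:
induction on `j` with `∑ n * 2 * phi μ ≤ j * e * M`), triangle inequality for `cL`. -/
def Li1Stmt : Prop :=
  ∀ (X : Type) [Fintype X] (d : X → X → ℝ) (N : ℕ), IsM d → 1 ≤ N →
    ∀ (n μ : X → ℝ) (z : X) (e : ℝ), (∀ x, 0 ≤ n x) → Tok d μ → 0 < e → e ≤ 1 / 2 →
      ∃ μ', Tok d μ' ∧ (∀ y, 6 < d z y → μ' y = μ y) ∧ P1 d N n μ μ' ≤ 5 * e * W d n z 8 ∧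
        e ≤ μ' z ∧ Qs d N n μ' z ≤ 6 * W d n z 8

/-- **LIZ**. Induction on `Z` with LI1 (the operation at `z'` changes nothing within distance `3` of
`z`); the balls of radius `8` are disjoint. -/
def LizStmt : Prop :=
  ∀ (X : Type) [Fintype X] (d : X → X → ℝ) (N : ℕ), IsM d → 1 ≤ N →
    ∀ (n μ : X → ℝ) (Z : Finset X) (e : ℝ), (∀ x, 0 ≤ n x) → Tok d μ → 0 < e → e ≤ 1 / 2 →
      (∀ z ∈ Z, ∀ z' ∈ Z, z ≠ z' → 18 ≤ d z z') →
      ∃ μ', Tok d μ' ∧ P1 d N n μ μ' ≤ 5 * e * ∑ z ∈ Z, W d n z 8 ∧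
        (∀ z ∈ Z, e ≤ μ' z ∧ Qs d N n μ' z ≤ 6 * W d n z 8) ∧
        ∑ z ∈ Z, W d n z 8 ≤ ∑ x, if ∃ z ∈ Z, d z x ≤ 8 then n x else 0

/-- **ABL**. `L i = -log W d μ r (rad N i) ≥ 0` for `i ≤ 2N`; `fw N l ≤ 2 / N`. If `t = d r x > 1/2`
use `phi r ≤ 2 gb`, `cL ≤ 1`. Else (`x ≠ r`) `j = ⌈t N⌉ ≤ 2 t N ≤ N`, the ball of `x` of level `l`
lies in the ball of `r` of level `l + j` and contains that of level `l - j`:
`phi r - phi x ≤ ∑ fw l * (L l - L (l+j))`, and `jac ≤ L (l-j) - L (l+j)` for `l > j` (JAC),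
`jac ≤ 1` for `l ≤ j` (`∑_{l ≤ j} fw ≤ j / N`); shift the index: the coefficient of `L i` is at most
`2j / (N (N+1))`, resp. `6j / (N (N+1))`. -/
def AblStmt : Prop :=
  ∀ (X : Type) [Fintype X] (d : X → X → ℝ) (N : ℕ), IsM d → Grid d N →
    ∀ (μ : X → ℝ) (r x : X), Tok d μ →
      0 ≤ gb d N μ r ∧ phi d N μ r ≤ 2 * gb d N μ r ∧
      phi d N μ r - phi d N μ x ≤ 4 * min (d r x) 1 * gb d N μ r ∧
      cL d N μ x μ r ≤ 2 * min (d r x) 1 + 12 * min (d r x) 1 * gb d N μ r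

/-- **AVG**. `γ = g r > 0`, `τ = l / N`, `ρ = τ γ / 16`, `L l = -log W d μ r (rad N l)`.
On the ball `d r x ≤ ρ`: `g x ≥ γ / 2`, and for `l' ≤ (l+1)/2` (natural division) the ball of `x` of
level `l'` lies in the ball of `r` of level `l` (if `l = 1` then `x = r` by `Grid`);
`∑_{l' ≤ (l+1)/2} fw ≥ τ²/8`. So `γ²/4 * m(B(r,ρ)) * τ²/8 / W ≤ 6 Am`. If `2 D1 ≤ ρ` then
`m(B(r,ρ)) ≥ post(B(r,ρ)) - D1/ρ ≥ post(B(r,ρ)) / 2`, so
`L l ≤ log 384 + 2 log (1/γ) + 2 log (1/τ) + I / √ρ`; `γ log (1/γ) ≤ 1`, `log (1/τ) ≤ 2/√τ`,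
`γ / √ρ ≤ 4 / √τ`, `∑_{l ≤ N} √(N/l) ≤ 2N`. There are at most `32 D1 N / γ` other `l`, there
`L l ≤ log (k / D1)`, and `D1 log (1/D1) ≤ 1`. `0 ≤ I` (take `ρ = 30`). -/
def AvgStmt : Prop :=
  ∃ C : ℝ, 0 ≤ C ∧ ∀ (k : ℕ), 2 ≤ k → ∀ (X : Type) [Fintype X] (d : X → X → ℝ) (N : ℕ), IsM d →
    Grid d N → ∀ (m0 ν : X → ℝ) (r : X) (g μ : X → ℝ) (I : ℝ), Dat k m0 ν → Tok d μ →
      (∀ x, 0 ≤ g x ∧ g x ≤ 1 ∧ g r ≤ g x + 8 * d r x) → 0 < D1 d ν r → D1 d ν r / k ≤ μ r →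
      Qs d N (fun x => (m0 x + ν x) * g x ^ 2) μ r ≤ 6 * Am d m0 r → IsI d m0 r I →
      g r * gb d N μ r ≤ C * (1 + I + D1 d ν r * Real.log (k + 1))

/-- **NL**. The centres stay; LI1 at `r` with `e = D1 / k`, clients `(m0 + ν) * chi c`
(`W n r 8 ≤ Am ≤ k`). `P2 = 0`. In `P3`, with `t = min (d r x) 1`, `g = ramp ∘ cm c`:
`cH ≤ 8 t`; `cL ≤ 2t + 12 t g(r) gb` (`g r = 1` there); `Gq` changes by `≤ 4096 t`;
`chi r * phi r - chi x * phi x ≤ (chi r - chi x) phi r + chi x (phi r - phi x) ≤ 16 t g(r) 2 gb + g(r) 4 t gb`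
if `chi x ≤ chi r`, and `≤ chi r (phi r - phi x)` otherwise. AVG, and `D1² ≤ D2`. -/
def NlStmt : Prop :=
  ∃ C : ℝ, 0 ≤ C ∧ ∀ (k : ℕ), 2 ≤ k → ∀ (X : Type) [Fintype X] (d : X → X → ℝ) (N : ℕ), IsM d →
    Grid d N → ∀ (m0 ν : X → ℝ) (r : X) (c : Option X → X → ℝ) (μ : X → ℝ), Dat k m0 ν →
      Cen d c → Tok d μ → 0 < D1 d ν r → ∃ μ', Tok d μ' ∧ ∀ I, IsI d m0 r I →
        net d N m0 ν r c μ c μ' ≤ C * (D1 d ν r * (1 + I) + Real.log (k + 1) * D2 d ν r)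

/-- **CR** (create). `h₀` a dead id (BAS); `c' h₀ = d r`, `c' h = c h + 20` if `h ≠ h₀`,
`c h r < 20`, else `c' h = c h`. `Z` = one point `z_h` with `c h z_h < 1/4` for each raised `h` having
such a point; LIZ with `e = 1/2`, `m = m0 + ν`, `m(B(r,30)) ≤ Am`: `P1 ≤ 5/2 Am`. In `P2` everything
is `≤ 0` if `30 < d r x`; otherwise `cH ≤ 2`, `2 (chi' - chi) phi ≤ 2 log 2` (if `chi' > chi` the
nearest old centre is raised, `< 1/4`, so `d z_h x ≤ 1/2`), `Gq' - Gq ≤ 128`, and `≤ -16` on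
`d r x ≤ 1/128` (`cm' ≤ 1/128`, `cm ≥ 3/128`). `m(1/128 < d ≤ 30) ≤ 128 (Yr Am + D1) ≤ Am/32`,
`m(d ≤ 1/128) ≥ Am - 128 (Yr Am + D1)`, `1 ≤ Am`. `P3`: `cm' r = 0`, `cH = 0` if `d r x ≤ 1/4`. -/
def CrStmt : Prop :=
  ∀ (k : ℕ) (X : Type) [Fintype X] (d : X → X → ℝ) (N : ℕ), IsM d → 1 ≤ N →
    ∀ (m0 ν : X → ℝ) (r : X) (c : Option X → X → ℝ) (μ : X → ℝ), Dat k m0 ν →
      Cen d c → Tok d μ → D1 d ν r ≤ 1 / 8192 → Yr d m0 r ≤ 1 / 8192 → (∀ h, 1 / 32 < c h r) →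
      ∃ c' μ', Cen d c' ∧ Tok d μ' ∧ Shift d 0 r c c' ∧
        net d N m0 ν r c μ c' μ' ≤ 32 * D2 d ν r

/-- **GEO** (geometry of the move). `ℓ = c h₀ r`, `c' h₀ = (1 - η/ℓ) c h₀ + (η/ℓ) d r`,
`c' h = c h + η` if `h ≠ h₀`, `c h r < 20`, else `c' h = c h`; `|c h₀ x - d r x| ≤ ℓ`.
`Z` = `r` and one point `z_h` with `c h z_h < 1/4` for each raised `h` having such a point.
`Gq`: if `cm c x = c h₀ x ≤ 1/16` use convexity, `c'² - c² ≤ (η/ℓ)(d² - c²)`, `c² ≥ (d - ℓ)²`;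
if `1/16 ≤ cm c x` the change is `≤ 0` and `ℓ ≤ d r x`; if the nearest centre is a raised one
then `1 ≤ d r x`. -/
def GeoStmt : Prop :=
  ∀ (X : Type) [Fintype X] (d : X → X → ℝ), IsM d →
    ∀ (r : X) (c : Option X → X → ℝ) (h₀ : Option X) (η : ℝ), Cen d c → c h₀ r ≤ 1 / 32 →
      0 < η → η ≤ c h₀ r →
      ∃ (c' : Option X → X → ℝ) (Z : Finset X), Cen d c' ∧ Shift d η r c c' ∧
        c' h₀ r = c h₀ r - η ∧
        (∀ z ∈ Z, d r z ≤ 21 ∧ ∀ z' ∈ Z, z ≠ z' → 18 ≤ d z z') ∧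
        ∀ x, (cH c x c' x ≤ if 1 / 16 ≤ d r x ∧ d r x ≤ 30 then 8 * η else 0) ∧
          (Gq (cm c' x) - Gq (cm c x) ≤
            if d r x ≤ 30 then 32768 * η * (2 * d r x - c h₀ r) else 0) ∧
          ramp (cm c' x) ≤ ramp (cm c x) + 8 * η ∧
          (ramp (cm c x) < ramp (cm c' x) → 1 / 16 ≤ d r x ∧ ∃ z ∈ Z, d z x ≤ 1) ∧
          (0 < ramp (cm c x) → 1 / 16 ≤ d r x)

/-- **MV** (move). `ℓ = c h₀ r`, `η = min ℓ (4 D1 / Am)`; if `η = 0` (then `ℓ = 0`) nothing changes.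
GEO, LIZ with `e = η`, `m = m0 + ν`, `n = m * chi c`. `Y = m(1/16 ≤ d ≤ 30) ≤ 16 Yr Am + 16 D1`,
`∑_Z W n z 8 ≤ Y`. In `P2`: `chi' - chi ≤ 8η (2 g + 8η)` where `g = ramp (cm c x)`, there
`phi ≤ -log η`, `η * (-log η) ≤ 1`, and `g * (-log W) ≤ g² / W + 1` at each level, so the sum is
`≤ C η (∑_Z Qs + Y)`. `Gq`: `∑_{d ≤ 30} m d ≤ Yr Am + 30 D1`, `m(B(r,30)) ≥ Am - D1 ≥ Am / 2`, so the
term `-32768 η ℓ Am / 2` cancels `65536 (ℓ - η) D1` of `P3` (`cm c' r = ℓ - η`, `chi c' r = 0`,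
`cH c' x c' r = 0` if `d r x ≤ 1/8`). `η Am ≤ 4 D1`, `η ≤ 4 D1`, `D1² ≤ D2`. -/
def MvStmt : Prop :=
  ∃ C : ℝ, 0 ≤ C ∧ ∀ (k : ℕ) (X : Type) [Fintype X] (d : X → X → ℝ) (N : ℕ), IsM d → 1 ≤ N →
    ∀ (m0 ν : X → ℝ) (r : X) (c : Option X → X → ℝ) (μ : X → ℝ) (h₀ : Option X), Dat k m0 ν →
      Cen d c → Tok d μ → 0 < D1 d ν r → D1 d ν r ≤ 1 / 2 → c h₀ r ≤ 1 / 32 →
      ∃ c' μ', Cen d c' ∧ Tok d μ' ∧ Shift d (4 * D1 d ν r / Am d m0 r) r c c' ∧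
        net d N m0 ν r c μ c' μ' ≤ C * (D1 d ν r * Yr d m0 r + D2 d ν r)

/-- **STP**. `D1 = 0`: `ν` sits on `r`, nothing changes. `D1 > 1/8192` or `Yr > 1/8192`: NL.
Otherwise CR or MV. -/
def StpStmt : Prop :=
  ∃ C : ℝ, 0 ≤ C ∧ ∀ (k : ℕ), 2 ≤ k → ∀ (X : Type) [Fintype X] (d : X → X → ℝ) (N : ℕ), IsM d →
    Grid d N → ∀ (m0 ν : X → ℝ) (r : X) (c : Option X → X → ℝ) (μ : X → ℝ), Dat k m0 ν →
      Cen d c → Tok d μ →
      ∃ c' μ', Cen d c' ∧ Tok d μ' ∧ Shift d (4 * D1 d ν r / Am d m0 r) r c c' ∧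
        ∀ I, IsI d m0 r I → net d N m0 ν r c μ c' μ' ≤
          C * (D1 d ν r * (I + Yr d m0 r) + Real.log (k + 1) * D2 d ν r)

/-- **SMI**. `H v = log (W dist (post m0 r) r v)` is monotone on `v ≥ 0` with values in
`[0, log k]`. `I l = √30 * ∑' i, (1/4)^i * (H (30 s/16^i) - H (30 s/16^(i+1)))`, `s = lam * 16^l`
(for `30/16^(j+1) < ρ ≤ 30/16^j`: `√ρ ≤ √30 (1/4)^j`); for fixed `i` the sum over `l` telescopes. -/
def SmiStmt : Prop :=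
  ∀ (k : ℕ), 2 ≤ k → ∀ (X : Type) [MetricSpace X] [Fintype X] (lam : ℝ), 0 < lam →
    ∀ (m0 ν : X → ℝ) (r : X), Dat k m0 ν → ∃ I : ℕ → ℝ,
      (∀ l, IsI (dsc lam l) m0 r (I l)) ∧ ∀ J, ∑ l ∈ range J, I l ≤ 8 * Real.log (k + 1)

/-- **SMQ**. `∑_x m x / m(B(r, dist r x)) ≤ 1 + log k` (induction on the points by decreasing
distance, or `u / v ≤ log v - log (v - u)`; the point `r` contributes `1`);
`Yr l ≤ ∑_x q x * [dist r x ≤ 30 s_l] dist r x / s_l` and the geometric sums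
`∑_{l : v ≤ 30 s_l} v / s_l ≤ 32`, `∑_l s_l * min (v / s_l) 1 ^ 2 ≤ 3 v`. -/
def SmqStmt : Prop :=
  ∀ (k : ℕ), 2 ≤ k → ∀ (X : Type) [MetricSpace X] [Fintype X] (lam : ℝ), 0 < lam →
    ∀ (m0 ν : X → ℝ) (r : X), Dat k m0 ν →
      ∑ x, post m0 r x / W dist (post m0 r) r (dist r x) ≤ 2 * Real.log (k + 1) ∧
      (∀ J, ∑ l ∈ range J, Yr (dsc lam l) m0 r ≤ 64 * Real.log (k + 1)) ∧
      (∀ J, ∑ l ∈ range J, lam * 16 ^ l * D2 (dsc lam l) ν r ≤ 3 * ∑ x, ν x * dist r x) ∧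
      ∀ l, lam * 16 ^ l * D1 (dsc lam l) ν r ≤ ∑ x, ν x * dist r x

/-- **RHO**. Average over `ρ ∈ (1/4, 1/2]`: the set of `ρ` with `u < ρ ≤ v` has length
`val v - val u`. -/
def RhoStmt : Prop :=
  ∀ (A : Type) [Fintype A] (w u v : A → ℝ), (∀ a, 0 ≤ w a) →
    ∃ ρ : ℝ, 1 / 4 < ρ ∧ ρ ≤ 1 / 2 ∧
      ∑ a, w a * (if (u a < ρ ↔ v a < ρ) then 0 else 1) ≤ ∑ a, w a * (4 * |val (u a) - val (v a)|)

/-- **MH**. Tokens `X × Fin T`, `S f = {(z, i) | i < Q * f z}`, `sel f` = first coordinate of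
`first ord (S f)` (`KS/MinHash.lean`); `|S f Δ S f'| ≤ Q ∑ |f - f'| + card X`,
`|S f ∪ S f'| ≥ Q ∑ max f f'` for `T ≥ Q * max`; `Q` large; best order. -/
def MhStmt : Prop :=
  ∀ (X : Type) [Fintype X] [Nonempty X] (A : Type) [Fintype A] (w : A → ℝ) (f f' : A → X → ℝ)
    (ε : ℝ), (∀ a, 0 ≤ w a) → (∀ a z, 0 ≤ f a z ∧ 0 ≤ f' a z) → 0 < ε →
    ∃ sel : (X → ℝ) → X, (∀ p : X → ℝ, (∃ z, 0 < p z) → 0 < p (sel p)) ∧
      ∑ a, w a * (if sel (f a) = sel (f' a) then 0 else 1) ≤ ∑ a, w a * jac (f a) (f' a) + ε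

/-- **SEL**. `ρ` from RHO on `A × Option X`; `l₀ ∈ Icc 1 N` with below-average `jac` cost (weights
`w a * [1/4 ≤ cm ∧ 1/4 ≤ cm']`), `sel` from MH;
`lb c μ x = if h : ∃ h, c h x < ρ then inl h.choose else inr (sel (cut d μ x (rad N l₀)))`. If the
capture sets agree they are the same singleton (separation) or both empty. -/
def SelStmt : Prop :=
  ∀ (X : Type) [Fintype X] (d : X → X → ℝ) (N : ℕ), IsM d → 1 ≤ N →
    ∀ (A : Type) [Fintype A] (w : A → ℝ) (c c' : A → Option X → X → ℝ) (μ μ' : A → X → ℝ)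
      (x x' : A → X) (ε : ℝ), (∀ a, 0 ≤ w a) →
      (∀ a, Cen d (c a) ∧ Tok d (μ a) ∧ Cen d (c' a) ∧ Tok d (μ' a)) → 0 < ε →
      ∃ lb : (Option X → X → ℝ) → (X → ℝ) → X → Option X ⊕ X,
        (∀ c₁ μ₁ y, (∀ h, lb c₁ μ₁ y = Sum.inl h → c₁ h y < 1 / 2) ∧
          (Tok d μ₁ → ∀ z, lb c₁ μ₁ y = Sum.inr z → d y z ≤ 2)) ∧
        ∑ a, w a * (if lb (c a) (μ a) (x a) = lb (c' a) (μ' a) (x' a) then 0 else 1) ≤
          ∑ a, w a * cost d N (c a) (μ a) (x a) (c' a) (μ' a) (x' a) + ε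

/-- **TIM**. `choose` the step as a function `F u m0 ν r`; `u (t+1) ω = F (u t ω) m0 ν (σ ω t)` with
`ν x = cond (t+1) [optCfg t (j t) = x]`, `m0 x = cond (t+1) #{i ≠ j t | optCfg t i = x}`
(`σ · t` is known at time `t + 1` by `Pref`); tower property (BAY) for the coefficients known at
time `t + 1`; telescope. -/
def TimStmt : Prop :=
  ∀ (k : ℕ) (X : Type) [MetricSpace X] [Fintype X] (S : Type) (ok : S → Prop) (R : S → S → Prop)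
    (Θ : S → X → ℝ) (κ : S → X → S → X → ℝ) (K b : ℝ) (u₀ : S), ok u₀ →
    (∀ u x, ok u → -b ≤ Θ u x) → (∀ x, Θ u₀ x ≤ b) →
    (∀ u, ok u → ∀ (m0 ν : X → ℝ) (r : X), Dat k m0 ν → ∃ u', ok u' ∧ R u u' ∧
      ∑ x, m0 x * (κ u x u' x + Θ u' x - Θ u x) + ∑ x, ν x * (κ u x u' r + Θ u' r - Θ u x) ≤
        K * ∑ x, ν x * dist r x) →
    ∀ (s : Fin k → X) (n : ℕ) (Ω : Type) [Fintype Ω] (P : Bay Ω) (σ : Ω → ℕ → X)
      (j : Ω → ℕ → Fin k), Pref P σ →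
      ∃ u : ℕ → Ω → S, (∀ t, P.Ad t (u t)) ∧ (∀ t ω, ok (u t ω) ∧ R (u t ω) (u (t + 1) ω)) ∧
        P.Ex (fun ω => ∑ t ∈ range n, ∑ i : Fin k,
          κ (u t ω) (optCfg s (σ ω) (j ω) t i) (u (t + 1) ω) (optCfg s (σ ω) (j ω) (t + 1) i)) ≤
          K * P.Ex (fun ω => optCost s (σ ω) (j ω) n) + 2 * k * b

theorem anchorE : True := by
  have := @Grid.eq_1; have := @rad.eq_1; have := @fw.eq_1; have := @cut.eq_1; have := @W.eq_1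
  have := @jac.eq_1; have := @phi.eq_1; have := @cL.eq_1; have := @gb.eq_1; have := @Tok.eq_1
  have := @Qs.eq_1; have := @Kat.eq_1; have := @Cen.eq_1; have := @cm.eq_1; have := @ramp.eq_1
  have := @Gq.eq_1; have := @val.eq_1; have := @cH.eq_1; have := @chi.eq_1; have := @Th.eq_1
  have := @cost.eq_1; have := @post.eq_1; have := @D1.eq_1; have := @D2.eq_1; have := @Am.eq_1
  have := @Yr.eq_1; have := @IsI.eq_1; have := @net.eq_1; have := @Shift.eq_1; have := @P1.eq_1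
  have := @P2.eq_1; have := @P3.eq_1; have := @dsc.eq_1
  trivial

end Crest.Agent.R314E
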