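import Crest.Agent.R314E.Defs

/-! Row 314, part (E): assembly of `EStmt` from the one-scale step, the sums over the scales, the
selection of the seeds and the recursion in time. -/

set_option autoImplicit false

namespace Crest.Agent.R314E

open Finset Crest.Agent.KS
open scoped Classical

namespace FIN

variable {X : Type} [MetricSpace X] [Fintype X]

omit [Fintype X] in
theorem isM (lam : ℝ) (l : ℕ) : IsM (dsc (X := X) lam l) ∨ ¬ 0 < lam := by
  by_cases h : 0 < lam
  · left
    have hs : 0 < lam * 16 ^ l := by positivity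
    refine ⟨fun x => by simp [dsc], fun x y => by simp [dsc, dist_comm], fun x y z => ?_⟩
    unfold dsc
    rw [← add_div]
    exact div_le_div_of_nonneg_right (dist_triangle _ _ _) hs.le
  · exact Or.inr h

theorem grid (lam : ℝ) (hlam : 0 < lam) (l : ℕ) : ∃ N : ℕ, Grid (dsc (X := X) lam l) N := by
  have hs : 0 < lam * 16 ^ l := by positivity
  have h : ∀ p : X × X, ∃ n : ℕ, p.1 ≠ p.2 → 1 / ((n : ℝ) + 1) ≤ dsc lam l p.1 p.2 := by
    intro p
    by_cases hp : p.1 = p.2
    · exact ⟨0, fun h => absurd hp h⟩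
    · have : 0 < dsc lam l p.1 p.2 := div_pos (dist_pos.2 hp) hs
      obtain ⟨n, hn⟩ := exists_nat_one_div_lt this
      exact ⟨n, fun _ => hn.le⟩
  choose n hn using h
  refine ⟨univ.sup n + 1, by omega, fun x y hxy => le_trans ?_ (hn (x, y) hxy)⟩
  have h1 : n (x, y) ≤ univ.sup n := Finset.le_sup (f := n) (mem_univ _)
  have h2 : (n (x, y) : ℝ) ≤ (univ.sup n : ℕ) := by exact_mod_cast h1
  push_cast
  apply one_div_le_one_div_of_le (by positivity)
  linarith

omit [MetricSpace X] in
theorem W_mono {d d' : X → X → ℝ} {m : X → ℝ} (hm : ∀ x, 0 ≤ m x) {r : X} {R R' : ℝ}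
    (h : ∀ z, d r z ≤ R → d' r z ≤ R') : W d m r R ≤ W d' m r R' := by
  unfold W cut
  refine Finset.sum_le_sum fun z _ => ?_
  by_cases h1 : d r z ≤ R
  · simp [h1, h z h1]
  · simp only [h1, if_false]; split_ifs; exacts [hm z, le_rfl]

omit [MetricSpace X] in
theorem one_le_W {d : X → X → ℝ} {m0 : X → ℝ} (hm : ∀ x, 0 ≤ m0 x) {r : X} {R : ℝ}
    (h : d r r ≤ R) : 1 ≤ W d (post m0 r) r R := by
  unfold W
  have h0 : ∀ z ∈ (univ : Finset X), 0 ≤ cut d (post m0 r) r R z := by
    intro z _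
    unfold cut post
    have := hm z
    split_ifs <;> linarith
  refine le_trans ?_ (Finset.single_le_sum h0 (mem_univ r))
  have := hm r
  simp [cut, post, h, this]

omit [MetricSpace X] [Fintype X] in
theorem post_nonneg {m0 : X → ℝ} (hm : ∀ x, 0 ≤ m0 x) (r x : X) : 0 ≤ post m0 r x := by
  unfold post
  have := hm x
  split_ifs <;> linarith

/-- states of all scales, and the displacement bound of the last step -/
abbrev St (X : Type) := (ℕ → (Option X → X → ℝ) × (X → ℝ)) × (X → ℝ)

def ok (lam : ℝ) (u : St X) : Prop :=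
  (∀ l, Cen (dsc lam l) (u.1 l).1 ∧ Tok (dsc lam l) (u.1 l).2) ∧ ∀ x, 0 ≤ u.2 x

def Rel (lam : ℝ) (u u' : St X) : Prop :=
  ∀ l h x x', (u.1 l).1 h x' < 1 / 2 → (u'.1 l).1 h x < 1 / 2 → ∀ y,
    lam * 16 ^ l * |(u'.1 l).1 h y - (u.1 l).1 h y| ≤ u'.2 x

noncomputable def TH (lam : ℝ) (J : ℕ) (N : ℕ → ℕ) (u : St X) (x : X) : ℝ :=
  ∑ l ∈ range J, lam * 16 ^ l * Th (dsc lam l) (N l) (u.1 l).1 (u.1 l).2 x

noncomputable def KA (lam : ℝ) (J : ℕ) (N : ℕ → ℕ) (u : St X) (x : X) (u' : St X) (x' : X) : ℝ :=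
  ∑ l ∈ range J, lam * 16 ^ l *
    cost (dsc lam l) (N l) (u.1 l).1 (u.1 l).2 x (u'.1 l).1 (u'.1 l).2 x' + u'.2 x'

theorem step (hSmi : SmiStmt) (hSmq : SmqStmt) (C : ℝ) (hC : 0 ≤ C) (k : ℕ) (hk : 2 ≤ k)
    (lam : ℝ) (hlam : 0 < lam) (J : ℕ) (N : ℕ → ℕ)
    (hstp : ∀ (l : ℕ) (m0 ν : X → ℝ) (r : X) (c : Option X → X → ℝ) (μ : X → ℝ), Dat k m0 ν →
      Cen (dsc lam l) c → Tok (dsc lam l) μ →
      ∃ c' μ', Cen (dsc lam l) c' ∧ Tok (dsc lam l) μ' ∧
        Shift (dsc lam l) (4 * D1 (dsc lam l) ν r / Am (dsc lam l) m0 r) r c c' ∧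
        ∀ I, IsI (dsc lam l) m0 r I → net (dsc lam l) (N l) m0 ν r c μ c' μ' ≤
          C * (D1 (dsc lam l) ν r * (I + Yr (dsc lam l) m0 r) +
            Real.log (k + 1) * D2 (dsc lam l) ν r))
    (u : St X) (hu : ok lam u) (m0 ν : X → ℝ) (r : X) (hD : Dat k m0 ν) :
    ∃ u', ok lam u' ∧ Rel lam u u' ∧
      ∑ x, m0 x * (KA lam J N u x u' x + TH lam J N u' x - TH lam J N u x) +
        ∑ x, ν x * (KA lam J N u x u' r + TH lam J N u' r - TH lam J N u x) ≤
        (75 * C + 8) * Real.log (k + 1) * ∑ x, ν x * dist r x := by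
  choose c' μ' hc' hμ' hsh hnet using
    fun l => hstp l m0 ν r (u.1 l).1 (u.1 l).2 hD (hu.1 l).1 (hu.1 l).2
  obtain ⟨I, hI, hIs⟩ := hSmi k hk X lam hlam m0 ν r hD
  obtain ⟨hq, hY, hD2, hD1⟩ := hSmq k hk X lam hlam m0 ν r hD
  set D := ∑ x, ν x * dist r x with hDdef
  have hD0 : 0 ≤ D := Finset.sum_nonneg fun x _ => mul_nonneg (hD.ν_nonneg x) dist_nonneg
  have hW1 : ∀ x, 1 ≤ W dist (post m0 r) r (dist r x) := fun x =>
    one_le_W hD.m0_nonneg (by simp)
  have hs : ∀ l : ℕ, 0 < lam * 16 ^ l := fun l => by positivity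
  have hA1 : ∀ l, 1 ≤ Am (dsc lam l) m0 r := fun l =>
    one_le_W hD.m0_nonneg (by simp [dsc])
  have hk1 : (1 : ℝ) ≤ (k : ℝ) + 1 := by have : (0 : ℝ) ≤ k := Nat.cast_nonneg k; linarith
  have hL : 0 ≤ Real.log (k + 1) := Real.log_nonneg hk1
  refine ⟨(fun l => (c' l, μ' l), fun x => 4 * D / W dist (post m0 r) r (dist r x)),
    ⟨fun l => ⟨hc' l, hμ' l⟩, fun x => ?_⟩, ?_, ?_⟩
  · have := hW1 x
    positivity
  · intro l h x x' h1 h2 y
    have h3 := hsh l h x x' h1 h2 y
    have hw := hW1 x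
    show lam * 16 ^ l * |c' l h y - (u.1 l).1 h y| ≤ 4 * D / W dist (post m0 r) r (dist r x)
    split_ifs at h3 with h4
    · have h5 : W dist (post m0 r) r (dist r x) ≤ Am (dsc lam l) m0 r := by
        refine W_mono (post_nonneg hD.m0_nonneg r) fun z hz => le_trans ?_ h4
        exact div_le_div_of_nonneg_right hz (hs l).le
      calc lam * 16 ^ l * |c' l h y - (u.1 l).1 h y|
          ≤ lam * 16 ^ l * (4 * D1 (dsc lam l) ν r / Am (dsc lam l) m0 r) :=
            mul_le_mul_of_nonneg_left h3 (hs l).le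
        _ = 4 * (lam * 16 ^ l * D1 (dsc lam l) ν r) / Am (dsc lam l) m0 r := by ring
        _ ≤ 4 * D / Am (dsc lam l) m0 r := by
            have := hD1 l
            have := hA1 l
            gcongr
        _ ≤ 4 * D / W dist (post m0 r) r (dist r x) := by
            gcongr
    · have h5 : |c' l h y - (u.1 l).1 h y| = 0 := le_antisymm h3 (abs_nonneg _)
      rw [h5, mul_zero]
      positivity
  · have e1 : ∑ x, m0 x * (KA lam J N u x
          (fun l => (c' l, μ' l), fun x => 4 * D / W dist (post m0 r) r (dist r x)) x +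
          TH lam J N (fun l => (c' l, μ' l), fun x => 4 * D / W dist (post m0 r) r (dist r x)) x -
          TH lam J N u x) + ∑ x, ν x * (KA lam J N u x
          (fun l => (c' l, μ' l), fun x => 4 * D / W dist (post m0 r) r (dist r x)) r +
          TH lam J N (fun l => (c' l, μ' l), fun x => 4 * D / W dist (post m0 r) r (dist r x)) r -
          TH lam J N u x) =
        ∑ l ∈ range J, lam * 16 ^ l *
          net (dsc lam l) (N l) m0 ν r (u.1 l).1 (u.1 l).2 (c' l) (μ' l) +
        4 * D * ∑ x, post m0 r x / W dist (post m0 r) r (dist r x) := by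
      have e2 : 4 * D * ∑ x, post m0 r x / W dist (post m0 r) r (dist r x) =
          ∑ x, m0 x * (4 * D / W dist (post m0 r) r (dist r x)) +
            ∑ x, ν x * (4 * D / W dist (post m0 r) r (dist r r)) := by
        rw [← Finset.sum_mul, hD.ν_sum, one_mul, Finset.mul_sum]
        have : ∀ x, 4 * D * (post m0 r x / W dist (post m0 r) r (dist r x)) =
            m0 x * (4 * D / W dist (post m0 r) r (dist r x)) +
              if x = r then 4 * D / W dist (post m0 r) r (dist r r) else 0 := by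
          intro x
          have : post m0 r x = m0 x + if x = r then 1 else 0 := rfl
          rw [this]
          split_ifs with h
          · subst h; ring
          · ring
        rw [Finset.sum_congr rfl fun x _ => this x, Finset.sum_add_distrib]
        simp
      rw [e2]
      unfold KA TH net
      simp only [mul_add, mul_sub, Finset.mul_sum, Finset.sum_add_distrib, Finset.sum_sub_distrib]
      simp only [Finset.sum_comm (s := range J) (t := (univ : Finset X))]
      simp only [mul_left_comm (lam * 16 ^ _)]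
      ring
    rw [e1]
    have h1 : ∀ l ∈ range J, lam * 16 ^ l *
        net (dsc lam l) (N l) m0 ν r (u.1 l).1 (u.1 l).2 (c' l) (μ' l) ≤
        C * (D * (I l + Yr (dsc lam l) m0 r) +
          Real.log (k + 1) * (lam * 16 ^ l * D2 (dsc lam l) ν r)) := by
      intro l _
      have hI0 : 0 ≤ I l := by
        have := hI l 30 (by norm_num) le_rfl
        have e : Am (dsc lam l) m0 r / W (dsc lam l) (post m0 r) r 30 = 1 := by
          have := hA1 l
          unfold Am at *
          field_simp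
        rw [e] at this
        simpa using this
      have hY0 : 0 ≤ Yr (dsc lam l) m0 r := by
        unfold Yr
        have := hA1 l
        refine div_nonneg (Finset.sum_nonneg fun x _ => ?_) (by linarith)
        split_ifs
        · exact mul_nonneg (hD.m0_nonneg x) (div_nonneg dist_nonneg (hs l).le)
        · exact le_rfl
      calc _ ≤ lam * 16 ^ l * (C * (D1 (dsc lam l) ν r * (I l + Yr (dsc lam l) m0 r) +
            Real.log (k + 1) * D2 (dsc lam l) ν r)) :=
            mul_le_mul_of_nonneg_left (hnet l (I l) (hI l)) (hs l).le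
        _ = C * (lam * 16 ^ l * D1 (dsc lam l) ν r * (I l + Yr (dsc lam l) m0 r) +
            Real.log (k + 1) * (lam * 16 ^ l * D2 (dsc lam l) ν r)) := by ring
        _ ≤ _ := by
            have := hD1 l
            gcongr
    have h2 := Finset.sum_le_sum h1
    rw [← Finset.mul_sum, Finset.sum_add_distrib, ← Finset.mul_sum, ← Finset.mul_sum,
      Finset.sum_add_distrib] at h2
    have h3 : D * (∑ l ∈ range J, I l + ∑ l ∈ range J, Yr (dsc lam l) m0 r) ≤
        D * (72 * Real.log (k + 1)) := by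
      have := hIs J
      have := hY J
      exact mul_le_mul_of_nonneg_left (by linarith) hD0
    have h4 := mul_le_mul_of_nonneg_left (hD2 J) hL
    have h5 := mul_le_mul_of_nonneg_left hq (by positivity : 0 ≤ 4 * D)
    have h6 := mul_le_mul_of_nonneg_left (add_le_add h3 h4) hC
    nlinarith

end FIN

open FIN in
theorem FIN_proof (hBas : BasStmt) (hStp : StpStmt) (hSmi : SmiStmt) (hSmq : SmqStmt)
    (hSel : SelStmt) (hTim : TimStmt) : EStmt := by
  obtain ⟨C, hC, hstp⟩ := hStp
  refine ⟨75 * C + 8, 16, by positivity, le_rfl, ?_⟩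
  intro k hk X _ _ lam J hlam
  have hs : ∀ l : ℕ, 0 < lam * 16 ^ l := fun l => by positivity
  have hM : ∀ l, IsM (dsc (X := X) lam l) := fun l => (isM lam l).resolve_right (by simpa)
  choose N hN using grid (X := X) lam hlam
  have hd0 : ∀ l (x y : X), 0 ≤ dsc lam l x y := fun l x y => div_nonneg dist_nonneg (hs l).le
  let u₀ : St X := (fun l => (fun _ _ => 20 + ∑ p : X × X, dsc lam l p.1 p.2,
    fun _ => 1 / (Fintype.card X : ℝ)), fun _ => 0)
  have hu₀ : ok lam u₀ := by
    refine ⟨fun l => ⟨⟨fun h x y => ?_, fun h h' x _ => ?_⟩, fun z => ?_, fun x => ?_⟩,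
      fun _ => le_rfl⟩
    · have h1 : dsc lam l x y ≤ ∑ p : X × X, dsc lam l p.1 p.2 :=
        Finset.single_le_sum (f := fun p : X × X => dsc lam l p.1 p.2)
          (fun p _ => hd0 l _ _) (mem_univ (x, y))
      have := hd0 l x y
      constructor <;> simp only [u₀] <;> linarith
    · have : 0 ≤ ∑ p : X × X, dsc lam l p.1 p.2 := Finset.sum_nonneg fun p _ => hd0 l _ _
      simp only [u₀]; linarith
    · have : 0 < Fintype.card X := Fintype.card_pos_iff.2 ⟨z⟩
      simp only [u₀]; positivity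
    · have : (0 : ℝ) < Fintype.card X := by exact_mod_cast Fintype.card_pos_iff.2 ⟨x⟩
      calc W (dsc lam l) (u₀.1 l).2 x 3 ≤ ∑ _z : X, 1 / (Fintype.card X : ℝ) := by
            refine Finset.sum_le_sum fun z _ => ?_
            unfold cut
            simp only [u₀]
            split_ifs
            · exact le_rfl
            · positivity
        _ = 1 := by simp; field_simp
  set b : ℝ := ∑ l ∈ range J, lam * 16 ^ l * 128 + ∑ x, |TH lam J N u₀ x| with hb
  refine ⟨2 * k * b + ∑ l ∈ range J, lam * 16 ^ l, ?_⟩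
  intro s n Ω _ P σ j hP
  have hb1 : 0 ≤ ∑ l ∈ range J, lam * 16 ^ l * 128 :=
    Finset.sum_nonneg fun l _ => by have := hs l; positivity
  have hb2 : 0 ≤ ∑ x, |TH lam J N u₀ x| := Finset.sum_nonneg fun x _ => abs_nonneg _
  obtain ⟨u, hAd, hok, hE⟩ := hTim k X (St X) (ok lam) (Rel lam) (TH lam J N) (KA lam J N)
    ((75 * C + 8) * Real.log (k + 1)) b u₀ hu₀
    (by
      intro u x hu
      have h1 : -∑ l ∈ range J, lam * 16 ^ l * 128 ≤ TH lam J N u x := by
        unfold TH
        rw [← Finset.sum_neg_distrib]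
        refine Finset.sum_le_sum fun l _ => ?_
        obtain ⟨-, hT, hCn, -, hR, -⟩ := hBas X (dsc lam l) (N l) (hM l) (hN l).1
        have h2 := (hT _ (hu.1 l).2 x).2.1
        have h3 := (hCn _ (hu.1 l).1 x).1
        have h4 := ((hR (cm (u.1 l).1 x) 0).2.2.2.2.2 h3).1
        have h5 : 0 ≤ chi (u.1 l).1 x := sq_nonneg _
        have h6 : -128 ≤ Th (dsc lam l) (N l) (u.1 l).1 (u.1 l).2 x := by
          unfold Th
          have := mul_nonneg h5 h2
          linarith
        have := mul_le_mul_of_nonneg_left h6 (hs l).le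
        linarith
      linarith)
    (by
      intro x
      have h1 : |TH lam J N u₀ x| ≤ ∑ x, |TH lam J N u₀ x| :=
        Finset.single_le_sum (f := fun x => |TH lam J N u₀ x|) (fun _ _ => abs_nonneg _)
          (mem_univ x)
      have := le_abs_self (TH lam J N u₀ x)
      linarith)
    (fun u hu m0 ν r hD => step hSmi hSmq C hC k hk lam hlam J N
      (fun l m0 ν r c μ hD hc hμ => hstp k hk X _ _ (hM l) (hN l) m0 ν r c μ hD hc hμ)
      u hu m0 ν r hD)
    s n Ω P σ j hP
  have hsel := fun l => hSel X (dsc lam l) (N l) (hM l) (hN l).1 (Ω × Fin n × Fin k)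
    (fun a => P.w a.1) (fun a => ((u a.2.1 a.1).1 l).1) (fun a => ((u (a.2.1 + 1) a.1).1 l).1)
    (fun a => ((u a.2.1 a.1).1 l).2) (fun a => ((u (a.2.1 + 1) a.1).1 l).2)
    (fun a => optCfg s (σ a.1) (j a.1) a.2.1 a.2.2)
    (fun a => optCfg s (σ a.1) (j a.1) (a.2.1 + 1) a.2.2) 1 (fun a => (P.pos _).le)
    (fun a => ⟨((hok _ _).1.1 l).1, ((hok _ _).1.1 l).2, ((hok _ _).1.1 l).1,
      ((hok _ _).1.1 l).2⟩) one_pos
  choose lb hlb hsum using hsel
  refine ⟨Option X ⊕ X, inferInstance,
    fun t ω l x => lb l ((u t ω).1 l).1 ((u t ω).1 l).2 x,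
    fun t ω l a => Sum.elim (fun h y => lam * 16 ^ l * ((u t ω).1 l).1 h y) kur a,
    fun t ω x => (u (t + 1) ω).2 x, ?_, ?_, ?_, ?_, ?_, ?_⟩
  · intro t a a' h
    simp only [hAd t a a' h]
  · intro t a a' h
    simp only [hAd t a a' h]
  · intro t ω l x _
    have h1 := hlb l ((u t ω).1 l).1 ((u t ω).1 l).2 x
    have hsl := hs l
    have hc := ((hok t ω).1.1 l).1
    have hμ := ((hok t ω).1.1 l).2
    rw [dist_pi_le_iff (by positivity)]
    intro y
    rcases hl : lb l ((u t ω).1 l).1 ((u t ω).1 l).2 x with h | z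
    · have h2 := h1.1 h hl
      have h3 := (hc.1 h y x).1
      have h4 := (hc.1 h x y).2
      have e : dist x y = lam * 16 ^ l * dsc lam l x y := by unfold dsc; field_simp
      rw [(hM l).symm y x] at h3
      simp only [hl, Sum.elim_inl, kur]
      rw [Real.dist_eq, e, ← mul_sub, abs_mul, abs_of_pos hsl, mul_comm 2]
      refine mul_le_mul_of_nonneg_left (abs_le.2 ⟨by linarith, by linarith⟩) hsl.le
    · have h2 := h1.2 hμ z hl
      have e : dist x z = lam * 16 ^ l * dsc lam l x z := by unfold dsc; field_simp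
      simp only [hl, Sum.elim_inr, kur]
      have h3 : dist (dist z y) (dist x y) ≤ dist z x := dist_dist_dist_le_left z x y
      rw [dist_comm z x, e] at h3
      nlinarith
  · intro t ω x
    exact (hok (t + 1) ω).1.2 x
  · intro t ω l x x' _ hl
    have hg := (hok (t + 1) ω).1.2 x
    rw [dist_pi_le_iff hg]
    intro y
    rcases hl' : lb l ((u (t + 1) ω).1 l).1 ((u (t + 1) ω).1 l).2 x with h | z
    · have h1 := (hlb l _ _ _).1 h hl'
      have h2 := (hlb l _ _ _).1 h (hl.trans hl')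
      have h3 := (hok t ω).2 l h x x' h2 h1 y
      simp only [hl', Sum.elim_inl]
      rw [Real.dist_eq, ← mul_sub, abs_mul, abs_of_pos (hs l), abs_sub_comm]
      exact h3
    · simpa [hl'] using hg
  · have key : ∀ l ∈ range J, lam * 16 ^ l * P.Ex (fun ω => ∑ t ∈ range n, ∑ i : Fin k,
        if lb l ((u t ω).1 l).1 ((u t ω).1 l).2 (optCfg s (σ ω) (j ω) t i) =
          lb l ((u (t + 1) ω).1 l).1 ((u (t + 1) ω).1 l).2 (optCfg s (σ ω) (j ω) (t + 1) i)
        then (0 : ℝ) else 1) ≤
        lam * 16 ^ l * P.Ex (fun ω => ∑ t ∈ range n, ∑ i : Fin k,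
          cost (dsc lam l) (N l) ((u t ω).1 l).1 ((u t ω).1 l).2 (optCfg s (σ ω) (j ω) t i)
            ((u (t + 1) ω).1 l).1 ((u (t + 1) ω).1 l).2 (optCfg s (σ ω) (j ω) (t + 1) i)) +
          lam * 16 ^ l := by
      intro l _
      have h1 := hsum l
      simp only [Fintype.sum_prod_type, ← Finset.mul_sum] at h1
      have h2 := mul_le_mul_of_nonneg_left h1 (hs l).le
      unfold Bay.Ex
      simp only [Finset.sum_range]
      rw [mul_add, mul_one] at h2
      convert h2 using 1
    have h1 := Finset.sum_le_sum key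
    rw [Finset.sum_add_distrib] at h1
    have swap : ∀ F : ℕ → Ω → ℕ → Fin k → ℝ,
        P.Ex (fun ω => ∑ t ∈ range n, ∑ i : Fin k,
          (∑ l ∈ range J, lam * 16 ^ l * F l ω t i +
            (u (t + 1) ω).2 (optCfg s (σ ω) (j ω) (t + 1) i))) =
        ∑ l ∈ range J, lam * 16 ^ l * P.Ex (fun ω => ∑ t ∈ range n, ∑ i : Fin k, F l ω t i) +
          P.Ex (fun ω => ∑ t ∈ range n, ∑ i : Fin k,
            (u (t + 1) ω).2 (optCfg s (σ ω) (j ω) (t + 1) i)) := by
      intro F
      unfold Bay.Ex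
      simp only [Finset.sum_add_distrib, mul_add, Finset.mul_sum]
      congr 1
      rw [Finset.sum_comm (s := range J)]
      refine Finset.sum_congr rfl fun ω _ => ?_
      rw [Finset.sum_comm (s := range J)]
      refine Finset.sum_congr rfl fun t _ => ?_
      rw [Finset.sum_comm (s := range J)]
      refine Finset.sum_congr rfl fun i _ => Finset.sum_congr rfl fun l _ => by ring
    unfold KA at hE
    rw [swap (fun l ω t i => cost (dsc lam l) (N l) ((u t ω).1 l).1 ((u t ω).1 l).2
      (optCfg s (σ ω) (j ω) t i) ((u (t + 1) ω).1 l).1 ((u (t + 1) ω).1 l).2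
      (optCfg s (σ ω) (j ω) (t + 1) i))] at hE
    have h2 := swap (fun l ω t i =>
      if lb l ((u t ω).1 l).1 ((u t ω).1 l).2 (optCfg s (σ ω) (j ω) t i) =
          lb l ((u (t + 1) ω).1 l).1 ((u (t + 1) ω).1 l).2 (optCfg s (σ ω) (j ω) (t + 1) i)
        then (0 : ℝ) else 1)
    simp only [mul_ite, mul_zero, mul_one] at h2
    refine le_trans (le_of_eq (by convert h2)) ?_
    linarith

end Crest.Agent.R314E
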