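import Crest.Agent.R314E.Defs

set_option autoImplicit false

namespace Crest.Agent.R314E

open Finset Crest.Agent.KS
open scoped Classical

namespace GEO

lemma val_lo {t : ℝ} (h : t ≤ 1 / 4) : val t = 1 / 4 := by
  unfold val
  have : min t (1 / 2) ≤ 1 / 4 := le_trans (min_le_left _ _) h
  exact max_eq_left this

lemma val_hi {t : ℝ} (h : 1 / 2 ≤ t) : val t = 1 / 2 := by
  unfold val
  rw [min_eq_right h]
  norm_num

lemma ramp_pos {t : ℝ} (h : 0 < ramp t) : 1 / 8 < t := by
  unfold ramp at h
  by_contra hc
  push Not at hc
  have h1 : min 1 (8 * t - 1) ≤ 0 := le_trans (min_le_right _ _) (by linarith)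
  rw [max_eq_left h1] at h
  exact lt_irrefl _ h

lemma ramp_lt_one {t : ℝ} (h : ramp t < 1) : t < 1 / 4 := by
  unfold ramp at h
  by_contra hc
  push Not at hc
  have h1 : min 1 (8 * t - 1) = 1 := min_eq_left (by linarith)
  rw [h1] at h
  norm_num at h

lemma Gq_hi {t : ℝ} (h : 1 / 16 ≤ t) : Gq t = 0 := by
  unfold Gq
  rw [min_eq_right h]
  ring

lemma Gq_lo {t : ℝ} (h : t ≤ 1 / 16) : Gq t = 32768 * (t ^ 2 - (1 / 16) ^ 2) := by
  unfold Gq
  rw [min_eq_left h]

lemma Gq_le_sq {t : ℝ} (h : 0 ≤ t) : Gq t ≤ 32768 * (t ^ 2 - (1 / 16) ^ 2) := by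
  unfold Gq
  have h1 : 0 ≤ min t (1 / 16) := le_min h (by norm_num)
  have h2 : min t (1 / 16) ≤ t := min_le_left _ _
  have : (min t (1 / 16)) ^ 2 ≤ t ^ 2 := pow_le_pow_left₀ h1 h2 2
  linarith

end GEO

open GEO in
theorem GEO_proof (hBas : BasStmt) : GeoStmt := by
  intro X _ d hd r c h₀ η hc hl hη hηl
  obtain ⟨-, -, hB, -, hR, -⟩ := hBas X d 1 hd le_rfl
  have dnn : ∀ x y, 0 ≤ d x y := by
    intro x y
    have h1 := hd.tri x y x
    rw [hd.self, hd.symm y x] at h1
    linarith
  have hK := hc.1
  have hS := hc.2
  have cnn : ∀ h x, 0 ≤ c h x := by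
    intro h x
    have := (hK h x x).2
    rw [hd.self] at this
    linarith
  -- Katetov inequalities at `r`
  have k1 : ∀ h x, c h x ≤ c h r + d r x := by
    intro h x
    have := (hK h x r).1
    rwa [hd.symm x r] at this
  have k2 : ∀ h x, d r x ≤ c h r + c h x := fun h x => (hK h r x).2
  have k3 : ∀ h x, c h r ≤ c h x + d r x := fun h x => (hK h r x).1
  set ℓ := c h₀ r with hℓ
  have hℓ0 : 0 < ℓ := lt_of_lt_of_le hη hηl
  set θ := η / ℓ with hθ
  have hθ0 : 0 < θ := div_pos hη hℓ0
  have hθ1 : θ ≤ 1 := (div_le_one hℓ0).2 hηl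
  have hθℓ : θ * ℓ = η := div_mul_cancel₀ _ hℓ0.ne'
  let c' : Option X → X → ℝ := fun h x =>
    if h = h₀ then (1 - θ) * c h₀ x + θ * d r x else if c h r < 20 then c h x + η else c h x
  have e0 : ∀ x, c' h₀ x = (1 - θ) * c h₀ x + θ * d r x := fun x => by simp [c']
  have e1 : ∀ h x, h ≠ h₀ → c h r < 20 → c' h x = c h x + η := fun h x a b => by simp [c', a, b]
  have e2 : ∀ h x, h ≠ h₀ → ¬ c h r < 20 → c' h x = c h x := fun h x a b => by simp [c', a, b]
  have a0 : ∀ x, c' h₀ x ≤ c h₀ x + η ∧ c h₀ x - η ≤ c' h₀ x := by
    intro x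
    rw [e0]
    have h1 := k1 h₀ x
    have h2 := k2 h₀ x
    rw [← hℓ] at h1 h2
    constructor
    · have : θ * (d r x - c h₀ x) ≤ θ * ℓ := mul_le_mul_of_nonneg_left (by linarith) hθ0.le
      nlinarith
    · have : θ * (c h₀ x - d r x) ≤ θ * ℓ := mul_le_mul_of_nonneg_left (by linarith) hθ0.le
      nlinarith
  have aN : ∀ h x, h ≠ h₀ → c h x ≤ c' h x ∧ c' h x ≤ c h x + η := by
    intro h x a
    by_cases b : c h r < 20
    · rw [e1 h x a b]; constructor <;> linarith
    · rw [e2 h x a b]; constructor <;> linarith
  have aU : ∀ h x, c' h x ≤ c h x + η := by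
    intro h x
    by_cases a : h = h₀
    · rw [a]; exact (a0 x).1
    · exact (aN h x a).2
  have aA : ∀ h x, |c' h x - c h x| ≤ η := by
    intro h x
    rw [abs_le]
    by_cases a : h = h₀
    · rw [a]; have := a0 x; constructor <;> linarith [this.1, this.2]
    · have := aN h x a; constructor <;> linarith [this.1, this.2]
  have sep0 : ∀ h x, h ≠ h₀ → 20 ≤ c' h₀ x + c' h x := by
    intro h x a
    have s1 := hS h₀ h x (Ne.symm a)
    by_cases b : c h r < 20
    · rw [e1 h x a b]; have := (a0 x).2; linarith
    · rw [e2 h x a b, e0]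
      push Not at b
      have s2 := k3 h x
      have t1 : (1 - θ) * 20 ≤ (1 - θ) * (c h₀ x + c h x) :=
        mul_le_mul_of_nonneg_left s1 (by linarith)
      have t2 : θ * 20 ≤ θ * (d r x + c h x) :=
        mul_le_mul_of_nonneg_left (by linarith) hθ0.le
      nlinarith
  have hc' : Cen d c' := by
    refine ⟨?_, ?_⟩
    · intro h x y
      by_cases a : h = h₀
      · rw [a, e0, e0]
        have u1 := (hK h₀ x y).1
        have u2 := (hK h₀ x y).2
        have u3 : d r x ≤ d r y + d x y := by
          have := hd.tri r y x
          rwa [hd.symm y x] at this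
        have u4 : d x y ≤ d r x + d r y := by
          have := hd.tri x r y
          rwa [hd.symm x r] at this
        have w1 : (1 - θ) * c h₀ x ≤ (1 - θ) * (c h₀ y + d x y) :=
          mul_le_mul_of_nonneg_left u1 (by linarith)
        have w2 : (1 - θ) * d x y ≤ (1 - θ) * (c h₀ x + c h₀ y) :=
          mul_le_mul_of_nonneg_left u2 (by linarith)
        have w3 : θ * d r x ≤ θ * (d r y + d x y) := mul_le_mul_of_nonneg_left u3 hθ0.le
        have w4 : θ * d x y ≤ θ * (d r x + d r y) := mul_le_mul_of_nonneg_left u4 hθ0.le
        constructor <;> nlinarith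
      · have u1 := (hK h x y).1
        have u2 := (hK h x y).2
        by_cases b : c h r < 20
        · rw [e1 h x a b, e1 h y a b]; constructor <;> linarith
        · rw [e2 h x a b, e2 h y a b]; exact ⟨u1, u2⟩
    · intro h h' x hne
      by_cases a : h = h₀
      · have b : h' ≠ h₀ := fun e => hne (a.trans e.symm)
        rw [a]; exact sep0 h' x b
      · by_cases b : h' = h₀
        · rw [b, add_comm]; exact sep0 h x a
        · have := hS h h' x hne
          have := (aN h x a).1
          have := (aN h' x b).1
          linarith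
  -- the set `Z`
  let good : Option X → Prop := fun h => h ≠ h₀ ∧ c h r < 20 ∧ ∃ z, c h z < 1 / 4
  let zz : Option X → X := fun h => if hh : ∃ z, c h z < 1 / 4 then hh.choose else r
  have hzz : ∀ h, good h → c h (zz h) < 1 / 4 := by
    intro h g
    have := g.2.2.choose_spec
    simpa only [zz, dif_pos g.2.2] using this
  let Z : Finset X := insert r ((univ.filter good).image zz)
  have memZ : ∀ z, z ∈ Z → z = r ∨ ∃ h, good h ∧ zz h = z := by
    intro z hz
    simp only [Z, mem_insert, mem_image, mem_filter, mem_univ, true_and] at hz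
    exact hz
  have far : ∀ h, good h → 18 ≤ d r (zz h) := by
    intro h g
    have s1 := hS h₀ h r (Ne.symm g.1)
    have s2 := k3 h (zz h)
    have s3 := hzz h g
    rw [← hℓ] at s1
    linarith
  refine ⟨c', Z, hc', ?_, ?_, ?_, ?_⟩
  · intro h x x' _ h2 y
    split_ifs with hx
    · exact aA h y
    · push Not at hx
      by_cases a : h = h₀
      · exfalso
        rw [a] at h2
        have := (a0 x).2
        have := k2 h₀ x
        rw [← hℓ] at this
        linarith
      · by_cases b : c h r < 20
        · exfalso
          rw [e1 h x a b] at h2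
          have := k2 h x
          linarith
        · rw [e2 h y a b]; simp
  · rw [e0, hd.self, ← hℓ]; linarith
  · intro z hz
    rcases memZ z hz with rfl | ⟨h, g, rfl⟩
    · refine ⟨by rw [hd.self]; norm_num, ?_⟩
      intro z' hz' hne
      rcases memZ z' hz' with rfl | ⟨h', g', rfl⟩
      · exact absurd rfl hne
      · exact far h' g'
    · refine ⟨?_, ?_⟩
      · have := k2 h (zz h)
        have := hzz h g
        have := g.2.1
        linarith
      · intro z' hz' hne
        rcases memZ z' hz' with rfl | ⟨h', g', rfl⟩
        · rw [hd.symm]; exact far h g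
        · have hh : h ≠ h' := fun e => hne (by rw [e])
          have s1 := hS h h' (zz h') hh
          have s2 := (hK h (zz h') (zz h)).1
          have s3 := hzz h g
          have s4 := hzz h' g'
          rw [hd.symm (zz h') (zz h)] at s2
          linarith
  · intro x
    obtain ⟨m0, mle, ⟨h, hm⟩, -, -, hH⟩ := hB c hc x
    obtain ⟨m0', mle', -, -, -, -⟩ := hB c' hc' x
    obtain ⟨-, -, hH'⟩ := hH c' hc' x
    have q1 := k1 h₀ x
    have q2 := k2 h₀ x
    have q3 := k3 h₀ x
    rw [← hℓ] at q1 q2 q3
    have dx := dnn r x
    have up : cm c' x ≤ cm c x + η := by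
      have := mle' h
      have := aU h x
      linarith
    refine ⟨?_, ?_, ?_, ?_, ?_⟩
    · split_ifs with hx
      · apply hH'
        intro h1
        have := (hR (c h1 x) (c' h1 x)).2.1
        have h2 := aA h1 x
        rw [abs_sub_comm] at h2
        linarith
      · have : cH c x c' x ≤ 8 * 0 := by
          apply hH'
          intro h1
          suffices hv : val (c h1 x) = val (c' h1 x) by rw [hv]; simp
          rcases not_and_or.1 hx with hx | hx
          · push Not at hx
            by_cases a : h1 = h₀
            · rw [a]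
              have := (a0 x).1
              rw [val_lo (by linarith), val_lo (by linarith)]
            · have s1 := hS h₀ h1 x (Ne.symm a)
              have := (aN h1 x a).1
              rw [val_hi (by linarith), val_hi (by linarith)]
          · push Not at hx
            by_cases a : h1 = h₀
            · rw [a]
              have := (a0 x).2
              rw [val_hi (by linarith), val_hi (by linarith)]
            · by_cases b : c h1 r < 20
              · have := (aN h1 x a).1
                have := k2 h1 x
                rw [val_hi (by linarith), val_hi (by linarith)]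
              · rw [e2 h1 x a b]
        linarith
    · have G0 : Gq (cm c' x) ≤ 0 := ((hR (cm c' x) 0).2.2.2.2.2 m0').2.1
      by_cases big : 1 / 16 ≤ cm c x
      · rw [Gq_hi big]
        split_ifs with hx
        · have := mle h₀
          have t : 0 ≤ 2 * d r x - ℓ := by linarith
          have : 0 ≤ 32768 * η * (2 * d r x - ℓ) := by positivity
          linarith
        · linarith
      · push Not at big
        by_cases a : h = h₀
        · rw [a] at hm
          have hx : d r x ≤ 30 := by linarith
          rw [if_pos hx]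
          have n0 : 0 ≤ c' h₀ x := le_trans m0' (mle' h₀)
          have g1 : Gq (cm c' x) ≤ Gq (c' h₀ x) :=
            ((hR (cm c' x) (c' h₀ x)).2.2.2.2.2 m0').2.2.1 (mle' h₀)
          have g2 := Gq_le_sq n0
          rw [Gq_lo big.le, hm]
          have sq : (d r x - ℓ) ^ 2 ≤ (c h₀ x) ^ 2 := by
            apply sq_le_sq'
            · linarith
            · linarith
          have cv : (c' h₀ x) ^ 2 ≤ (1 - θ) * (c h₀ x) ^ 2 + θ * (d r x) ^ 2 := by
            rw [e0]
            have : 0 ≤ θ * (1 - θ) * (c h₀ x - d r x) ^ 2 :=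
              mul_nonneg (mul_nonneg hθ0.le (by linarith)) (sq_nonneg _)
            nlinarith
          have t : θ * ((d r x) ^ 2 - (c h₀ x) ^ 2) ≤ θ * (ℓ * (2 * d r x - ℓ)) :=
            mul_le_mul_of_nonneg_left (by nlinarith) hθ0.le
          have t2 : θ * (ℓ * (2 * d r x - ℓ)) = η * (2 * d r x - ℓ) := by
            rw [← hθℓ]; ring
          nlinarith
        · have s1 := hS h₀ h x (Ne.symm a)
          have hd19 : 19 ≤ d r x := by linarith
          split_ifs with hx
          · have g1 := (((hR (cm c' x) (cm c x)).2.2.2.2.2 m0').2.2.2 m0).2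
            have g2 : max (cm c' x - cm c x) 0 ≤ η := max_le (by linarith) hη.le
            have g3 : η * 1 ≤ η * (2 * d r x - ℓ) :=
              mul_le_mul_of_nonneg_left (by linarith) hη.le
            nlinarith
          · push Not at hx
            have b : ¬ c h r < 20 := by
              intro b
              have := k2 h x
              linarith
            have := mle' h
            rw [e2 h x a b, ← hm] at this
            have g1 := ((hR (cm c' x) (cm c x)).2.2.2.2.2 m0').2.2.1 this
            linarith
    · have g1 := (hR (cm c' x) (cm c x + η)).2.2.2.2.1 up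
      have g2 := (hR (cm c x + η) (cm c x)).1
      have g3 : |cm c x + η - cm c x| = η := by
        rw [add_sub_cancel_left, abs_of_pos hη]
      rw [g3] at g2
      have := (abs_le.1 g2).2
      linarith
    · intro hlt
      have r0 := (hR (cm c x) 0).2.2.1
      have r1 := (hR (cm c' x) 0).2.2.2.1
      have p1 := ramp_pos (lt_of_le_of_lt r0 hlt)
      have p2 := ramp_lt_one (lt_of_lt_of_le hlt r1)
      refine ⟨?_, ?_⟩
      · have s1 := mle' h₀
        rw [e0] at s1
        have w1 : (1 - θ) * c h₀ x ≤ (1 - θ) * (ℓ + d r x) :=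
          mul_le_mul_of_nonneg_left q1 (by linarith)
        nlinarith
      · by_cases a : h = h₀
        · rw [a] at hm
          exact ⟨r, mem_insert_self _ _, by linarith⟩
        · by_cases b : c h r < 20
          · have g : good h := ⟨a, b, x, by linarith⟩
            refine ⟨zz h, ?_, ?_⟩
            · exact mem_insert_of_mem (mem_image_of_mem _ (mem_filter.2 ⟨mem_univ _, g⟩))
            · have := (hK h (zz h) x).2
              have := hzz h g
              linarith
          · exfalso
            have s1 := mle' h
            rw [e2 h x a b, ← hm] at s1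
            have := (hR (cm c' x) (cm c x)).2.2.2.2.1 s1
            linarith
    · intro hp
      have p1 := ramp_pos hp
      have := mle h₀
      linarith

end Crest.Agent.R314E
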