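import Crest.Agent.R314E.Defs

set_option autoImplicit false

namespace Crest.Agent.R314E

open Finset

namespace JAC

theorem abs_le_max' {a b : ℝ} (ha : 0 ≤ a) (hb : 0 ≤ b) : |a - b| ≤ max a b := by
  rw [abs_le]
  constructor
  · have := le_max_right a b; linarith
  · have := le_max_left a b; linarith

theorem pt (a b c : ℝ) : |a - c| + (max a (max b c) - max a c) ≤ |a - b| + |b - c| := by
  simp only [max_def, abs_eq_max_neg]
  split_ifs <;> linarith

theorem div_le_add {x y e : ℝ} (hx : 0 ≤ x) (hxy : x ≤ y) (he : 0 ≤ e) :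
    x / y ≤ (x + e) / (y + e) := by
  rcases eq_or_lt_of_le (hx.trans hxy) with h | h
  · rw [← h, div_zero]; positivity
  · rw [div_le_div_iff₀ h (by linarith)]
    nlinarith

theorem div_mono {x y u : ℝ} (hx : 0 ≤ x) (hxy : x ≤ y) (hyu : y ≤ u) : x / u ≤ x / y := by
  rcases eq_or_lt_of_le (hx.trans hxy) with h | h
  · have : x = 0 := le_antisymm (h ▸ hxy) hx
    simp [this]
  · exact div_le_div_of_nonneg_left hx h hyu

end JAC

open JAC in
theorem JAC_proof : JacStmt := by
  intro X _ a b c ha hb hc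
  have num : ∀ u v : X → ℝ, 0 ≤ ∑ z, |u z - v z| := fun u v =>
    Finset.sum_nonneg (fun z _ => abs_nonneg _)
  have le : ∀ u v : X → ℝ, (∀ z, 0 ≤ u z) → (∀ z, 0 ≤ v z) →
      ∑ z, |u z - v z| ≤ ∑ z, max (u z) (v z) := fun u v hu hv =>
    Finset.sum_le_sum (fun z _ => abs_le_max' (hu z) (hv z))
  refine ⟨?_, ?_, ?_, ?_, ?_, ?_, ?_⟩
  · exact div_nonneg (num a b) ((num a b).trans (le a b ha hb))
  · exact div_le_one_of_le₀ (le a b ha hb) ((num a b).trans (le a b ha hb))
  · simp [jac]
  · unfold jac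
    set U := ∑ z, max (a z) (max (b z) (c z)) with hU
    have e0 : 0 ≤ U - ∑ z, max (a z) (c z) := by
      rw [sub_nonneg]
      exact Finset.sum_le_sum (fun z _ => max_le_max le_rfl (le_max_right _ _))
    have h1 := div_le_add (num a c) (le a c ha hc) e0
    have h2 : ∑ z, max (a z) (c z) + (U - ∑ z, max (a z) (c z)) = U := by ring
    rw [h2] at h1
    have h3 : ∑ z, |a z - c z| + (U - ∑ z, max (a z) (c z)) ≤
        ∑ z, |a z - b z| + ∑ z, |b z - c z| := by
      rw [hU, ← Finset.sum_sub_distrib, ← Finset.sum_add_distrib, ← Finset.sum_add_distrib]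
      exact Finset.sum_le_sum (fun z _ => pt _ _ _)
    have hU0 : 0 ≤ U := Finset.sum_nonneg (fun z _ => le_max_of_le_left (ha z))
    have h4 : (∑ z, |a z - b z|) / U ≤ (∑ z, |a z - b z|) / ∑ z, max (a z) (b z) :=
      div_mono (num a b) (le a b ha hb)
        (Finset.sum_le_sum (fun z _ => max_le_max le_rfl (le_max_left _ _)))
    have h5 : (∑ z, |b z - c z|) / U ≤ (∑ z, |b z - c z|) / ∑ z, max (b z) (c z) :=
      div_mono (num b c) (le b c hb hc)
        (Finset.sum_le_sum (fun z _ => le_max_right _ _))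
    calc _ ≤ _ := h1
      _ ≤ (∑ z, |a z - b z| + ∑ z, |b z - c z|) / U := div_le_div_of_nonneg_right h3 hU0
      _ = (∑ z, |a z - b z|) / U + (∑ z, |b z - c z|) / U := add_div _ _ _
      _ ≤ _ := add_le_add h4 h5
  · intro h
    exact div_le_div_of_nonneg_left (num a b) h
      (Finset.sum_le_sum (fun z _ => le_max_left _ _))
  · intro h
    exact div_le_div_of_nonneg_left (num a b) h
      (Finset.sum_le_sum (fun z _ => le_max_right _ _))
  · intro lo hi hl hpos
    unfold jac
    set M := ∑ z, max (a z) (b z) with hM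
    set L := ∑ z, lo z with hL
    have h1 : L ≤ M := Finset.sum_le_sum (fun z _ => le_max_of_le_left (hl z).2.1)
    have h2 : M ≤ ∑ z, hi z :=
      Finset.sum_le_sum (fun z _ => max_le (hl z).2.2.2.1 (hl z).2.2.2.2)
    have h3 : ∑ z, |a z - b z| ≤ M - L := by
      rw [hM, hL, ← Finset.sum_sub_distrib]
      refine Finset.sum_le_sum (fun z _ => ?_)
      have p1 := (hl z).2.1
      have p2 := (hl z).2.2.1
      have p3 := le_max_left (a z) (b z)
      have p4 := le_max_right (a z) (b z)
      rw [abs_le]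
      constructor <;> linarith
    have hM0 : 0 < M := lt_of_lt_of_le hpos h1
    have h4 : Real.log (L / M) ≤ L / M - 1 := Real.log_le_sub_one_of_pos (div_pos hpos hM0)
    rw [Real.log_div hpos.ne' hM0.ne'] at h4
    have h5 : Real.log M ≤ Real.log (∑ z, hi z) := Real.log_le_log hM0 h2
    have h6 : (∑ z, |a z - b z|) / M ≤ (M - L) / M := div_le_div_of_nonneg_right h3 hM0.le
    have h7 : (M - L) / M = 1 - L / M := by field_simp
    linarith

end Crest.Agent.R314E
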