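import Crest.Agent.R314E.Defs

/-! Row 314, part E: the token update at one point (LI1). -/

set_option autoImplicit false

namespace Crest.Agent.R314E

open Finset Crest.Agent.KS
open scoped Classical

namespace Li1

variable {X : Type} [Fintype X]

/-- one operation -/
noncomputable def op (d : X → X → ℝ) (z : X) (e : ℝ) (μ : X → ℝ) : X → ℝ :=
  fun y => (if d z y ≤ 6 then (1 - e) * μ y else μ y) + if y = z then e else 0

omit [Fintype X] in
theorem op_far {d : X → X → ℝ} (hd : IsM d) (z : X) (e : ℝ) (μ : X → ℝ) (y : X)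
    (hy : 6 < d z y) : op d z e μ y = μ y := by
  unfold op
  have hne : y ≠ z := by
    rintro rfl
    rw [hd.self] at hy
    linarith
  rw [if_neg (not_le.2 hy), if_neg hne, add_zero]

theorem W_in {d : X → X → ℝ} (hd : IsM d) (z : X) (e : ℝ) (μ : X → ℝ) (x : X) (R : ℝ)
    (hR : R ≤ 3) (hx : d x z ≤ R) : W d (op d z e μ) x R = (1 - e) * W d μ x R + e := by
  unfold W
  have h : ∀ y, cut d (op d z e μ) x R y = (1 - e) * cut d μ x R y + if y = z then e else 0 := by
    intro y
    unfold cut op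
    by_cases hy : d x y ≤ R
    · have h6 : d z y ≤ 6 := by
        have := hd.tri z x y
        rw [hd.symm z x] at this
        linarith
      rw [if_pos hy, if_pos hy, if_pos h6]
    · have hne : y ≠ z := by
        rintro rfl
        exact hy hx
      rw [if_neg hy, if_neg hy, if_neg hne]
      ring
  simp only [h]
  rw [Finset.sum_add_distrib, ← Finset.mul_sum]
  simp

theorem cut_out {d : X → X → ℝ} (z : X) (e : ℝ) (he : 0 ≤ e) (μ : X → ℝ) (hμ : ∀ y, 0 < μ y)
    (x : X) (R : ℝ) (hx : ¬ d x z ≤ R) (y : X) :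
    (1 - e) * cut d μ x R y ≤ cut d (op d z e μ) x R y ∧
      cut d (op d z e μ) x R y ≤ cut d μ x R y := by
  unfold cut op
  by_cases hy : d x y ≤ R
  · have hne : y ≠ z := by
      rintro rfl
      exact hx hy
    have := mul_nonneg he (hμ y).le
    rw [if_pos hy, if_pos hy, if_neg hne]
    split_ifs
    · constructor <;> linarith
    · constructor <;> linarith
  · rw [if_neg hy, if_neg hy]
    simp

theorem op_tok {d : X → X → ℝ} (hd : IsM d) (z : X) (e : ℝ) (he : 0 < e) (he' : e ≤ 1 / 2)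
    (μ : X → ℝ) (hμ : Tok d μ) : Tok d (op d z e μ) := by
  refine ⟨fun y => ?_, fun x => ?_⟩
  · unfold op
    have h1 := hμ.1 y
    have h2 : 0 < (1 - e) * μ y := mul_pos (by linarith) h1
    split_ifs <;> linarith
  · by_cases hx : d x z ≤ 3
    · rw [W_in hd z e μ x 3 le_rfl hx]
      have := mul_le_mul_of_nonneg_left (hμ.2 x) (show 0 ≤ 1 - e by linarith)
      linarith
    · exact (Finset.sum_le_sum (fun y _ => (cut_out z e he.le μ hμ.1 x 3 hx y).2)).trans (hμ.2 x)

omit [Fintype X] in
theorem op_self {d : X → X → ℝ} (z : X) (e : ℝ) (he' : e ≤ 1 / 2)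
    (μ : X → ℝ) (hμ : ∀ y, 0 < μ y) : e ≤ op d z e μ z := by
  unfold op
  have h1 := hμ z
  have h2 : 0 ≤ (1 - e) * μ z := mul_nonneg (by linarith) h1.le
  rw [if_pos rfl]
  split_ifs <;> linarith

omit [Fintype X] in
theorem cut_nonneg (d : X → X → ℝ) (μ : X → ℝ) (hμ : ∀ y, 0 < μ y) (x : X) (R : ℝ) (y : X) :
    0 ≤ cut d μ x R y := by
  unfold cut
  split_ifs
  · exact (hμ y).le
  · exact le_rfl

theorem log_one_sub (e : ℝ) (he : 0 < e) (he' : e ≤ 1 / 2) : -(2 * e) ≤ Real.log (1 - e) := by
  have h1 : 0 < 1 - e := by linarith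
  have h2 := Real.one_sub_inv_le_log_of_pos h1
  have h3 : (1 - e)⁻¹ ≤ 1 + 2 * e := by
    rw [inv_le_iff_one_le_mul₀ h1]
    nlinarith
  linarith

theorem level (hJac : JacStmt) {d : X → X → ℝ} (hd : IsM d) (z : X) (e : ℝ) (he : 0 < e)
    (he' : e ≤ 1 / 2) (μ : X → ℝ) (hμ : Tok d μ) (x : X) (R : ℝ) (hR1 : 1 ≤ R) (hR2 : R ≤ 2)
    (hW : 0 < W d μ x R) (hW1 : W d μ x R ≤ 1) (hW' : 0 < W d (op d z e μ) x R) :
    jac (cut d μ x R) (cut d (op d z e μ) x R) + 2 * (-Real.log (W d (op d z e μ) x R)) -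
      2 * (-Real.log (W d μ x R)) ≤
      5 * e * (if d z x ≤ 8 then 1 else 0) -
        e * (if d z x ≤ 1 then 1 / W d (op d z e μ) x R else 0) := by
  have hμ' := op_tok hd z e he he' μ hμ
  have hJ := hJac X (cut d μ x R) (cut d (op d z e μ) x R) (cut d μ x R)
    (cut_nonneg d μ hμ.1 x R) (cut_nonneg d _ hμ'.1 x R) (cut_nonneg d μ hμ.1 x R)
  have hlog := log_one_sub e he he'
  have h1e : 0 < 1 - e := by linarith
  by_cases h8 : d z x ≤ 8
  · rw [if_pos h8]
    by_cases hx : d x z ≤ R
    · have hin := W_in hd z e μ x R (by linarith) hx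
      have hWW : W d μ x R ≤ W d (op d z e μ) x R := by
        rw [hin]
        nlinarith
      have hsum : ∑ y, |cut d μ x R y - cut d (op d z e μ) x R y| ≤ e * W d μ x R + e := by
        have h : ∀ y, |cut d μ x R y - cut d (op d z e μ) x R y| ≤
            e * cut d μ x R y + if y = z then e else 0 := by
          intro y
          unfold cut op
          have hy0 := mul_nonneg he.le (hμ.1 y).le
          by_cases hy : d x y ≤ R
          · rw [if_pos hy, if_pos hy, abs_le]
            split_ifs <;> constructor <;> linarith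
          · rw [if_neg hy, if_neg hy]
            split_ifs <;> simp [he.le]
        refine (Finset.sum_le_sum (fun y _ => h y)).trans (le_of_eq ?_)
        rw [Finset.sum_add_distrib, ← Finset.mul_sum]
        simp [W]
      have hj := (hJ.2.2.2.2.2.1 hW').trans
        (div_le_div_of_nonneg_right hsum hW'.le)
      have hj2 : (e * W d μ x R + e) / ∑ y, cut d (op d z e μ) x R y ≤
          e + e * (1 / W d (op d z e μ) x R) := by
        change (e * W d μ x R + e) / W d (op d z e μ) x R ≤ _
        rw [div_le_iff₀ hW', add_mul, mul_assoc, one_div, inv_mul_cancel₀ hW'.ne']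
        have := mul_le_mul_of_nonneg_left hWW he.le
        linarith
      have hl : Real.log ((1 - e) * W d μ x R / W d (op d z e μ) x R) ≤
          (1 - e) * W d μ x R / W d (op d z e μ) x R - 1 :=
        Real.log_le_sub_one_of_pos (div_pos (mul_pos h1e hW) hW')
      rw [Real.log_div (mul_pos h1e hW).ne' hW'.ne', Real.log_mul h1e.ne' hW.ne'] at hl
      have hq : (1 - e) * W d μ x R / W d (op d z e μ) x R - 1 =
          -(e * (1 / W d (op d z e μ) x R)) := by
        field_simp
        rw [hin]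
        ring
      rw [hq] at hl
      have hpos : 0 ≤ e * (1 / W d (op d z e μ) x R) := by positivity
      split_ifs <;> linarith
    · have h1 : ¬ d z x ≤ 1 := by
        intro h
        rw [hd.symm] at h
        exact hx (h.trans hR1)
      rw [if_neg h1]
      have hc := cut_out z e he.le μ hμ.1 x R hx
      have hsum : ∑ y, |cut d μ x R y - cut d (op d z e μ) x R y| ≤ e * W d μ x R := by
        unfold W
        rw [Finset.mul_sum]
        refine Finset.sum_le_sum (fun y _ => ?_)
        have := hc y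
        rw [abs_of_nonneg (by linarith)]
        linarith
      have hj := (hJ.2.2.2.2.1 hW).trans (div_le_div_of_nonneg_right hsum hW.le)
      have hj2 : e * W d μ x R / ∑ y, cut d μ x R y = e := by
        change e * W d μ x R / W d μ x R = e
        field_simp
      have hge : (1 - e) * W d μ x R ≤ W d (op d z e μ) x R := by
        unfold W
        rw [Finset.mul_sum]
        exact Finset.sum_le_sum (fun y _ => (hc y).1)
      have hl := Real.log_le_log (mul_pos h1e hW) hge
      rw [Real.log_mul h1e.ne' hW.ne'] at hl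
      linarith
  · have h1 : ¬ d z x ≤ 1 := fun h => h8 (by linarith)
    rw [if_neg h8, if_neg h1]
    have hc : cut d (op d z e μ) x R = cut d μ x R := by
      funext y
      unfold cut
      split_ifs with hy
      · refine op_far hd z e μ y ?_
        have := hd.tri z y x
        rw [hd.symm y x] at this
        push Not at h8
        linarith
      · rfl
    have hWe : W d (op d z e μ) x R = W d μ x R := by
      unfold W
      rw [hc]
    rw [hWe, hc, hJ.2.2.1]
    linarith

theorem rad_bd (N l : ℕ) (hN : 1 ≤ N) (hl : l ∈ Icc 1 N) : 1 ≤ rad N l ∧ rad N l ≤ 2 := by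
  unfold rad
  have hN' : (0 : ℝ) < N := by exact_mod_cast hN
  have hl' : (l : ℝ) ≤ N := by exact_mod_cast (Finset.mem_Icc.1 hl).2
  have h1 : (l : ℝ) / N ≤ 1 := (div_le_one hN').2 hl'
  have h2 : 0 ≤ (l : ℝ) / N := by positivity
  constructor <;> linarith

theorem step (hJac : JacStmt) (hBas : BasStmt) {d : X → X → ℝ} (N : ℕ) (hd : IsM d) (hN : 1 ≤ N)
    (n : X → ℝ) (hn : ∀ x, 0 ≤ n x) (z : X) (e : ℝ) (he : 0 < e)
    (he' : e ≤ 1 / 2) (μ : X → ℝ) (hμ : Tok d μ) :
    P1 d N n μ (op d z e μ) ≤ 5 * e * W d n z 8 - e * Qs d N n (op d z e μ) z := by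
  obtain ⟨⟨hf1, hf0⟩, hB, -⟩ := hBas X d N hd hN
  have hμ' := op_tok hd z e he he' μ hμ
  unfold P1 W Qs
  rw [Finset.mul_sum, Finset.mul_sum, ← Finset.sum_sub_distrib]
  refine Finset.sum_le_sum (fun x _ => ?_)
  have hx : cL d N μ x (op d z e μ) x + 2 * phi d N (op d z e μ) x - 2 * phi d N μ x ≤
      5 * e * (if d z x ≤ 8 then 1 else 0) -
        e * (if d z x ≤ 1 then ∑ l ∈ Icc 1 N, fw N l / W d (op d z e μ) x (rad N l) else 0) := by
    have hs : ∑ l ∈ Icc 1 N, fw N l * (jac (cut d μ x (rad N l)) (cut d (op d z e μ) x (rad N l)) +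
        2 * (-Real.log (W d (op d z e μ) x (rad N l))) - 2 * (-Real.log (W d μ x (rad N l)))) ≤
        ∑ l ∈ Icc 1 N, fw N l * (5 * e * (if d z x ≤ 8 then 1 else 0) -
          e * (if d z x ≤ 1 then 1 / W d (op d z e μ) x (rad N l) else 0)) := by
      refine Finset.sum_le_sum (fun l hl => mul_le_mul_of_nonneg_left ?_ (hf0 l))
      obtain ⟨h1, h2⟩ := rad_bd N l hN hl
      have a := (hB μ hμ x).1 (rad N l) (by linarith) (by linarith)
      have a' := (hB _ hμ' x).1 (rad N l) (by linarith) (by linarith)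
      exact level hJac hd z e he he' μ hμ x _ h1 h2 a.1 a.2 a'.1
    have e1 : ∑ l ∈ Icc 1 N, fw N l * (jac (cut d μ x (rad N l)) (cut d (op d z e μ) x (rad N l)) +
        2 * (-Real.log (W d (op d z e μ) x (rad N l))) - 2 * (-Real.log (W d μ x (rad N l)))) =
        cL d N μ x (op d z e μ) x + 2 * phi d N (op d z e μ) x - 2 * phi d N μ x := by
      unfold cL phi
      rw [Finset.mul_sum, Finset.mul_sum, ← Finset.sum_add_distrib, ← Finset.sum_sub_distrib]
      exact Finset.sum_congr rfl (fun l _ => by ring)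
    have e2 : ∑ l ∈ Icc 1 N, fw N l * (5 * e * (if d z x ≤ 8 then 1 else 0) -
          e * (if d z x ≤ 1 then 1 / W d (op d z e μ) x (rad N l) else 0)) =
        5 * e * (if d z x ≤ 8 then 1 else 0) -
        e * (if d z x ≤ 1 then ∑ l ∈ Icc 1 N, fw N l / W d (op d z e μ) x (rad N l) else 0) := by
      simp only [mul_sub]
      rw [Finset.sum_sub_distrib, ← Finset.sum_mul, hf1, one_mul]
      congr 1
      split_ifs
      · rw [Finset.mul_sum]
        exact Finset.sum_congr rfl (fun l _ => by ring)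
      · simp
    rw [e1, e2] at hs
    exact hs
  have h2 := mul_le_mul_of_nonneg_left hx (hn x)
  refine h2.trans (le_of_eq ?_)
  unfold cut
  split_ifs <;> ring

theorem Qs_nonneg (hBas : BasStmt) {d : X → X → ℝ} (N : ℕ) (hd : IsM d) (hN : 1 ≤ N)
    (n : X → ℝ) (hn : ∀ x, 0 ≤ n x) (z : X) (μ : X → ℝ) (hμ : Tok d μ) : 0 ≤ Qs d N n μ z := by
  obtain ⟨⟨_, hf0⟩, -⟩ := hBas X d N hd hN
  unfold Qs
  refine Finset.sum_nonneg (fun x _ => ?_)
  split_ifs
  · refine mul_nonneg (hn x) (Finset.sum_nonneg (fun l _ => div_nonneg (hf0 l) ?_))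
    exact Finset.sum_nonneg (fun y _ => cut_nonneg d μ hμ.1 x _ y)
  · exact le_rfl

theorem P1_tri (hBas : BasStmt) {d : X → X → ℝ} (N : ℕ) (hd : IsM d) (hN : 1 ≤ N)
    (n : X → ℝ) (hn : ∀ x, 0 ≤ n x) (μ μ' μ'' : X → ℝ) (hμ : Tok d μ) (hμ' : Tok d μ')
    (hμ'' : Tok d μ'') : P1 d N n μ μ'' ≤ P1 d N n μ μ' + P1 d N n μ' μ'' := by
  obtain ⟨-, hB, -⟩ := hBas X d N hd hN
  unfold P1
  rw [← Finset.sum_add_distrib]
  refine Finset.sum_le_sum (fun x _ => ?_)
  rw [← mul_add]
  refine mul_le_mul_of_nonneg_left ?_ (hn x)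
  have := ((hB μ hμ x).2.2.2.2 μ' hμ' x).2.2 μ'' hμ'' x
  linarith

end Li1

open Li1 in
theorem LI1_proof (hJac : JacStmt) (hBas : BasStmt) : Li1Stmt := by
  intro X _ d N hd hN n μ z e hn hμ he he'
  obtain ⟨-, hB, -⟩ := hBas X d N hd hN
  have hM0 : 0 ≤ W d n z 8 := by
    unfold W cut
    refine Finset.sum_nonneg (fun y _ => ?_)
    split_ifs
    · exact hn y
    · exact le_rfl
  have hfin : ∀ μ, Tok d μ → Qs d N n (op d z e μ) z ≤ 6 * W d n z 8 →
      ∃ μ', Tok d μ' ∧ (∀ y, 6 < d z y → μ' y = μ y) ∧ P1 d N n μ μ' ≤ 5 * e * W d n z 8 ∧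
        e ≤ μ' z ∧ Qs d N n μ' z ≤ 6 * W d n z 8 := by
    intro μ hμ hQ
    have hμ' := op_tok hd z e he he' μ hμ
    refine ⟨op d z e μ, hμ', op_far hd z e μ, ?_, op_self z e he' μ hμ.1, hQ⟩
    have h1 := step hJac hBas N hd hN n hn z e he he' μ hμ
    have h2 := mul_nonneg he.le (Qs_nonneg hBas N hd hN n hn z _ hμ')
    linarith
  rcases hM0.eq_or_lt with hM | hM
  · refine hfin μ hμ ?_
    have hz : ∀ x, d z x ≤ 8 → n x = 0 := by
      intro x hx
      have h0 : ∀ y ∈ (univ : Finset X), 0 ≤ cut d n z 8 y := by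
        intro y _
        unfold cut
        split_ifs
        · exact hn y
        · exact le_rfl
      have := (Finset.sum_eq_zero_iff_of_nonneg h0).1 hM.symm x (Finset.mem_univ _)
      unfold cut at this
      rwa [if_pos hx] at this
    rw [← hM, mul_zero]
    unfold Qs
    refine le_of_eq (Finset.sum_eq_zero (fun x _ => ?_))
    split_ifs with hx
    · rw [hz x (by linarith), zero_mul]
    · rfl
  · have heM : 0 < e * W d n z 8 := mul_pos he hM
    have hind : ∀ j : ℕ, ∀ μ, Tok d μ → ∑ x, n x * (2 * phi d N μ x) < j * (e * W d n z 8) →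
        ∃ μ', Tok d μ' ∧ (∀ y, 6 < d z y → μ' y = μ y) ∧ P1 d N n μ μ' ≤ 5 * e * W d n z 8 ∧
          e ≤ μ' z ∧ Qs d N n μ' z ≤ 6 * W d n z 8 := by
      intro j
      induction j with
      | zero =>
        intro μ hμ h
        have : 0 ≤ ∑ x, n x * (2 * phi d N μ x) :=
          Finset.sum_nonneg (fun x _ => mul_nonneg (hn x) (mul_nonneg zero_le_two (hB μ hμ x).2.1))
        simp only [Nat.cast_zero, zero_mul] at h
        linarith
      | succ j ih =>
        intro μ hμ h
        by_cases hQ : Qs d N n (op d z e μ) z ≤ 6 * W d n z 8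
        · exact hfin μ hμ hQ
        · push Not at hQ
          have hμ' := op_tok hd z e he he' μ hμ
          have h1 := step hJac hBas N hd hN n hn z e he he' μ hμ
          have h2 := mul_lt_mul_of_pos_left hQ he
          have h3 : ∑ x, n x * (2 * phi d N (op d z e μ) x) - ∑ x, n x * (2 * phi d N μ x) ≤
              P1 d N n μ (op d z e μ) := by
            unfold P1
            rw [← Finset.sum_sub_distrib]
            refine Finset.sum_le_sum (fun x _ => ?_)
            rw [← mul_sub]
            refine mul_le_mul_of_nonneg_left ?_ (hn x)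
            have := ((hB μ hμ x).2.2.2.2 _ hμ' x).1
            linarith
          push_cast at h
          obtain ⟨μ', a1, a2, a3, a4, a5⟩ := ih (op d z e μ) hμ' (by linarith)
          refine ⟨μ', a1, fun y hy => (a2 y hy).trans (op_far hd z e μ y hy), ?_, a4, a5⟩
          have h4 := P1_tri hBas N hd hN n hn μ _ μ' hμ hμ' a1
          linarith
    obtain ⟨j, hj⟩ := exists_nat_gt ((∑ x, n x * (2 * phi d N μ x)) / (e * W d n z 8))
    exact hind j μ hμ ((div_lt_iff₀ heM).1 hj)

end Crest.Agent.R314E
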