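import Crest.Agent.R314E.Defs

/-! Row 314 (E): task LIZ. -/

set_option autoImplicit false

namespace Crest.Agent.R314E

open Finset Crest.Agent.KS
open scoped Classical

namespace LIZ

theorem disj {X : Type} [Fintype X] (d : X → X → ℝ) (hd : IsM d) (n : X → ℝ) (hn : ∀ x, 0 ≤ n x)
    (Z : Finset X) (hZ : ∀ z ∈ Z, ∀ z' ∈ Z, z ≠ z' → 18 ≤ d z z') :
    ∑ z ∈ Z, W d n z 8 ≤ ∑ x, if ∃ z ∈ Z, d z x ≤ 8 then n x else 0 := by
  unfold W cut
  rw [Finset.sum_comm]
  refine Finset.sum_le_sum fun x _ => ?_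
  split_ifs with h
  · obtain ⟨z, hz, hzx⟩ := h
    rw [Finset.sum_eq_single_of_mem z hz, if_pos hzx]
    intro z' hz' hne
    rw [if_neg]
    intro h'
    have h1 := hZ z' hz' z hz hne
    have h2 := hd.tri z' x z
    rw [hd.symm x z] at h2
    linarith
  · push Not at h
    refine le_of_eq (Finset.sum_eq_zero fun z hz => ?_)
    rw [if_neg (not_le.2 (h z hz))]

theorem Qs_congr {X : Type} [Fintype X] (d : X → X → ℝ) (hd : IsM d) (N : ℕ) (hN : 1 ≤ N)
    (n μ μ' : X → ℝ) (z : X) (h : ∀ y, d z y ≤ 3 → μ' y = μ y) :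
    Qs d N n μ' z = Qs d N n μ z := by
  unfold Qs
  refine Finset.sum_congr rfl fun x _ => ?_
  split_ifs with hx
  · congr 1
    refine Finset.sum_congr rfl fun l hl => ?_
    congr 1
    unfold W cut
    refine Finset.sum_congr rfl fun y _ => ?_
    split_ifs with hy
    · apply h
      have h1 := hd.tri z x y
      have h2 : rad N l ≤ 2 := by
        unfold rad
        have hN' : (0 : ℝ) < N := by exact_mod_cast hN
        have : (l : ℝ) ≤ N := by exact_mod_cast (Finset.mem_Icc.1 hl).2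
        have := (div_le_one hN').2 this
        linarith
      linarith
    · rfl
  · rfl

end LIZ

theorem LIZ_proof (hBas : BasStmt) (hLi1 : Li1Stmt) : LizStmt := by
  intro X _ d N hd hN n μ Z e hn hμ he he2 hZ
  suffices h : ∃ μ', Tok d μ' ∧ P1 d N n μ μ' ≤ 5 * e * ∑ z ∈ Z, W d n z 8 ∧
      (∀ z ∈ Z, e ≤ μ' z ∧ Qs d N n μ' z ≤ 6 * W d n z 8) by
    obtain ⟨μ', h1, h2, h3⟩ := h
    exact ⟨μ', h1, h2, h3, LIZ.disj d hd n hn Z hZ⟩
  obtain ⟨-, hT, -⟩ := hBas X d N hd hN
  induction Z using Finset.induction_on with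
  | empty =>
    refine ⟨μ, hμ, ?_, by simp⟩
    unfold P1
    simp only [sum_empty, mul_zero]
    refine le_of_eq (Finset.sum_eq_zero fun x _ => ?_)
    rw [(hT μ hμ x).2.2.1]; ring
  | insert z' Z hz' ih =>
    obtain ⟨μ1, hμ1, hP1, hQ1⟩ := ih (fun a ha b hb hab =>
      hZ a (Finset.mem_insert_of_mem ha) b (Finset.mem_insert_of_mem hb) hab)
    obtain ⟨μ2, hμ2, hloc, hP2, he', hQ2⟩ := hLi1 X d N hd hN n μ1 z' e hn hμ1 he he2
    refine ⟨μ2, hμ2, ?_, ?_⟩
    · rw [Finset.sum_insert hz']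
      have : P1 d N n μ μ2 ≤ P1 d N n μ μ1 + P1 d N n μ1 μ2 := by
        unfold P1
        rw [← Finset.sum_add_distrib]
        refine Finset.sum_le_sum fun x _ => ?_
        have h1 := ((hT μ hμ x).2.2.2.2 μ1 hμ1 x).2.2 μ2 hμ2 x
        have h2 := mul_le_mul_of_nonneg_left h1 (hn x)
        nlinarith
      linarith
    · intro z hz
      rcases Finset.mem_insert.1 hz with rfl | hz
      · exact ⟨he', hQ2⟩
      · have hne : z' ≠ z := fun h => hz' (h ▸ hz)
        have h18 := hZ z' (Finset.mem_insert_self _ _) z (Finset.mem_insert_of_mem hz) hne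
        have hl : ∀ y, d z y ≤ 3 → μ2 y = μ1 y := by
          intro y hy
          apply hloc
          have h2 := hd.tri z' y z
          rw [hd.symm y z] at h2
          linarith
        refine ⟨?_, ?_⟩
        · rw [hl z (by rw [hd.self]; norm_num)]; exact (hQ1 z hz).1
        · rw [LIZ.Qs_congr d hd N hN n μ1 μ2 z hl]; exact (hQ1 z hz).2

end Crest.Agent.R314E
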