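import Crest.Agent.R314E.Defs
import Crest.Agent.KS.MinHash

/-! Row 314 (E), task MH: rounding of the weighted Jaccard distance by MinHash. -/

set_option autoImplicit false

namespace Crest.Agent.R314E

open Finset Crest.Agent.KS
open scoped Classical symmDiff

namespace MH

noncomputable def cnt (T : ℕ) (b : ℝ) : ℝ := ∑ i : Fin T, if ((i : ℕ) : ℝ) < b then (1 : ℝ) else 0

theorem cnt_eq (T : ℕ) (b : ℝ) (hb : b ≤ T) : cnt T b = (⌈b⌉₊ : ℝ) := by
  unfold cnt
  rw [Fin.sum_univ_eq_sum_range (fun i : ℕ => if (i : ℝ) < b then (1 : ℝ) else 0) T]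
  have h1 : ⌈b⌉₊ ≤ T := Nat.ceil_le.2 hb
  have h2 : (range T).filter (fun i : ℕ => (i : ℝ) < b) = range ⌈b⌉₊ := by
    ext i
    simp only [mem_filter, mem_range, Nat.lt_ceil]
    constructor
    · exact fun h => h.2
    · intro h
      refine ⟨?_, h⟩
      have : (i : ℝ) < T := lt_of_lt_of_le h hb
      exact_mod_cast this
  rw [← Finset.sum_filter, h2]
  simp

theorem le_cnt (T : ℕ) (b : ℝ) (hb : b ≤ T) : b ≤ cnt T b := by
  rw [cnt_eq T b hb]; exact Nat.le_ceil b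

theorem cnt_le (T : ℕ) (b : ℝ) (h0 : 0 ≤ b) (hb : b ≤ T) : cnt T b ≤ b + 1 := by
  rw [cnt_eq T b hb]; exact (Nat.ceil_lt_add_one h0).le

variable {X : Type} [Fintype X]

noncomputable def tk (T : ℕ) (Q : ℝ) (p : X → ℝ) : Finset (X × Fin T) :=
  univ.filter (fun y => ((y.2 : ℕ) : ℝ) < Q * p y.1)

theorem mem_tk (T : ℕ) (Q : ℝ) (p : X → ℝ) (y : X × Fin T) :
    y ∈ tk T Q p ↔ ((y.2 : ℕ) : ℝ) < Q * p y.1 := by
  simp [tk]

theorem card_eq_sum {T : ℕ} (S : Finset (X × Fin T)) :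
    (S.card : ℝ) = ∑ z, ∑ i : Fin T, if (z, i) ∈ S then (1 : ℝ) else 0 := by
  rw [← Fintype.sum_prod_type' (fun z (i : Fin T) => if (z, i) ∈ S then (1 : ℝ) else 0)]
  simp

theorem union_ge (T : ℕ) (Q : ℝ) (hQ : 0 ≤ Q) (p p' : X → ℝ)
    (hT : ∀ z, Q * p z ≤ T ∧ Q * p' z ≤ T) :
    Q * ∑ z, max (p z) (p' z) ≤ ((tk T Q p ∪ tk T Q p').card : ℝ) := by
  rw [card_eq_sum, Finset.mul_sum]
  refine Finset.sum_le_sum fun z _ => ?_
  have h1 : Q * max (p z) (p' z) = max (Q * p z) (Q * p' z) := mul_max_of_nonneg _ _ hQ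
  rw [h1]
  refine (le_cnt T _ (max_le (hT z).1 (hT z).2)).trans (le_of_eq ?_)
  unfold cnt
  refine Finset.sum_congr rfl fun i _ => ?_
  simp only [mem_union, mem_tk, lt_max_iff]

theorem symm_le (T : ℕ) (Q : ℝ) (hQ : 0 ≤ Q) (p p' : X → ℝ) (h0 : ∀ z, 0 ≤ p z ∧ 0 ≤ p' z)
    (hT : ∀ z, Q * p z ≤ T ∧ Q * p' z ≤ T) :
    (((tk T Q p) ∆ (tk T Q p')).card : ℝ) ≤ Q * ∑ z, |p z - p' z| + Fintype.card X := by
  rw [card_eq_sum, Finset.mul_sum]
  have hc : (Fintype.card X : ℝ) = ∑ _z : X, (1 : ℝ) := by simp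
  rw [hc, ← Finset.sum_add_distrib]
  refine Finset.sum_le_sum fun z _ => ?_
  have ha : 0 ≤ Q * p z := mul_nonneg hQ (h0 z).1
  have hb : 0 ≤ Q * p' z := mul_nonneg hQ (h0 z).2
  have h1 : (∑ i : Fin T, if (z, i) ∈ (tk T Q p) ∆ (tk T Q p') then (1 : ℝ) else 0) =
      cnt T (max (Q * p z) (Q * p' z)) - cnt T (min (Q * p z) (Q * p' z)) := by
    unfold cnt
    rw [← Finset.sum_sub_distrib]
    refine Finset.sum_congr rfl fun i _ => ?_
    simp only [Finset.mem_symmDiff, mem_tk, lt_max_iff, lt_min_iff]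
    by_cases h1 : ((i : ℕ) : ℝ) < Q * p z <;> by_cases h2 : ((i : ℕ) : ℝ) < Q * p' z <;>
      simp [h1, h2]
  rw [h1]
  have h2 := cnt_le T (max (Q * p z) (Q * p' z)) (le_max_of_le_left ha) (max_le (hT z).1 (hT z).2)
  have h3 := le_cnt T (min (Q * p z) (Q * p' z)) (min_le_of_left_le (hT z).1)
  have h4 : max (Q * p z) (Q * p' z) - min (Q * p z) (Q * p' z) = Q * |p z - p' z| := by
    rw [max_sub_min_eq_abs', ← mul_sub, abs_mul, abs_of_nonneg hQ]
  linarith

noncomputable def sel [Nonempty X] {T m : ℕ} (Q : ℝ) (ord : X × Fin T ≃ Fin m) (p : X → ℝ) : X :=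
  ((first ord (tk T Q p)).map Prod.fst).getD (Classical.arbitrary X)

theorem sel_pos [Nonempty X] {T m : ℕ} (hT : 0 < T) (Q : ℝ) (hQ : 0 < Q) (ord : X × Fin T ≃ Fin m)
    (p : X → ℝ) (h : ∃ z, 0 < p z) : 0 < p (sel Q ord p) := by
  obtain ⟨z, hz⟩ := h
  have hne : (tk T Q p).Nonempty := ⟨(z, ⟨0, hT⟩), by
    rw [mem_tk]; simpa using mul_pos hQ hz⟩
  obtain ⟨x, hx, hf⟩ := exists_first ord hne
  rw [mem_tk] at hx
  have h1 : sel Q ord p = x.1 := by simp [sel, hf]
  rw [h1]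
  have h2 : 0 < Q * p x.1 := lt_of_le_of_lt (Nat.cast_nonneg _) hx
  exact (mul_pos_iff_of_pos_left hQ).1 h2

theorem avg [Nonempty X] {T m : ℕ} (Q : ℝ) (hQ : 0 < Q) (p p' : X → ℝ)
    (h0 : ∀ z, 0 ≤ p z ∧ 0 ≤ p' z) (hT : ∀ z, Q * p z ≤ T ∧ Q * p' z ≤ T) :
    (∑ ord : X × Fin T ≃ Fin m, if sel Q ord p = sel Q ord p' then (0 : ℝ) else 1) ≤
      Fintype.card (X × Fin T ≃ Fin m) *
        (jac p p' + Fintype.card X / (∑ z, max (p z) (p' z)) / Q) := by
  have hD : 0 ≤ ∑ z, max (p z) (p' z) := Finset.sum_nonneg fun z _ => le_max_of_le_left (h0 z).1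
  rcases hD.eq_or_lt with hD0 | hD0
  · have hz := (Finset.sum_eq_zero_iff_of_nonneg
      (fun z _ => (le_max_of_le_left (h0 z).1 : 0 ≤ max (p z) (p' z)))).1 hD0.symm
    have hpp : p = p' := by
      funext z
      have h1 := hz z (mem_univ z)
      have h2 := le_max_left (p z) (p' z)
      have h3 := le_max_right (p z) (p' z)
      linarith [(h0 z).1, (h0 z).2]
    unfold jac
    rw [← hD0, hpp]
    simp
  · have h1 : (∑ ord : X × Fin T ≃ Fin m,
          if first ord (tk T Q p) = first ord (tk T Q p') then (0 : ℝ) else 1) ≤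
        Fintype.card (X × Fin T ≃ Fin m) *
          ((((tk T Q p) ∆ (tk T Q p')).card : ℝ) / (Q * ∑ z, max (p z) (p' z))) := by
      have := minhash_avg' (m := m) (tk T Q p) (tk T Q p') _ (mul_pos hQ hD0)
        (by convert union_ge T Q hQ.le p p' hT)
      convert this
    have h2 := symm_le T Q hQ.le p p' h0 hT
    calc _ ≤ ∑ ord : X × Fin T ≃ Fin m,
          if first ord (tk T Q p) = first ord (tk T Q p') then (0 : ℝ) else 1 := by
          refine Finset.sum_le_sum fun ord _ => ?_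
          by_cases h : first ord (tk T Q p) = first ord (tk T Q p')
          · have : sel Q ord p = sel Q ord p' := by simp [sel, h]
            simp [h, this]
          · rw [if_neg h]; split_ifs <;> norm_num
      _ ≤ _ := h1
      _ ≤ Fintype.card (X × Fin T ≃ Fin m) *
          ((Q * ∑ z, |p z - p' z| + Fintype.card X) / (Q * ∑ z, max (p z) (p' z))) := by
          gcongr
      _ = _ := by
          unfold jac
          congr 1
          field_simp

end MH

theorem MH_proof : MhStmt := by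
  intro X _ _ A _ w f f' ε hw hf hε
  set K : ℝ := ∑ a, w a * (Fintype.card X / ∑ z, max (f a z) (f' a z)) with hK
  have hK0 : 0 ≤ K := Finset.sum_nonneg fun a _ => mul_nonneg (hw a)
    (div_nonneg (Nat.cast_nonneg _) (Finset.sum_nonneg fun z _ => le_max_of_le_left (hf a z).1))
  set Q : ℝ := K / ε + 1 with hQ
  have hQ0 : 0 < Q := by positivity
  have hKQ : K / Q ≤ ε := by
    rw [div_le_iff₀ hQ0, hQ, mul_add, mul_div_cancel₀ _ hε.ne']
    linarith
  obtain ⟨T, hT⟩ : ∃ T : ℕ, 0 < T ∧ ∀ a z, Q * f a z ≤ T ∧ Q * f' a z ≤ T := by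
    obtain ⟨T, hT⟩ := exists_nat_gt (Q * ∑ a, ∑ z, (f a z + f' a z))
    have hS : ∀ a z, f a z + f' a z ≤ ∑ a, ∑ z, (f a z + f' a z) := fun a z =>
      (Finset.single_le_sum (f := fun z => f a z + f' a z)
        (fun z _ => add_nonneg (hf a z).1 (hf a z).2) (mem_univ z)).trans
      (Finset.single_le_sum (f := fun a => ∑ z, (f a z + f' a z))
        (fun a _ => Finset.sum_nonneg fun z _ => add_nonneg (hf a z).1 (hf a z).2) (mem_univ a))
    refine ⟨T + 1, Nat.succ_pos _, fun a z => ?_⟩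
    have h1 := mul_le_mul_of_nonneg_left (hS a z) hQ0.le
    have h2 := mul_nonneg hQ0.le (hf a z).1
    have h3 := mul_nonneg hQ0.le (hf a z).2
    push_cast
    constructor <;> nlinarith
  set m := Fintype.card (X × Fin T) with hm
  have hc : (0 : ℝ) < Fintype.card (X × Fin T ≃ Fin m) := by
    exact_mod_cast Fintype.card_pos_iff.2 ⟨Fintype.equivFin (X × Fin T)⟩
  have hne : (univ : Finset (X × Fin T ≃ Fin m)).Nonempty := ⟨Fintype.equivFin (X × Fin T), mem_univ _⟩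
  have hsum : ∑ ord : X × Fin T ≃ Fin m, ∑ a, w a *
      (if MH.sel Q ord (f a) = MH.sel Q ord (f' a) then (0 : ℝ) else 1) ≤
      ∑ _ord : X × Fin T ≃ Fin m, (∑ a, w a * jac (f a) (f' a) + ε) := by
    rw [Finset.sum_comm, Finset.sum_const, card_univ, nsmul_eq_mul]
    calc _ = ∑ a, w a * ∑ ord : X × Fin T ≃ Fin m,
          (if MH.sel Q ord (f a) = MH.sel Q ord (f' a) then (0 : ℝ) else 1) := by
          refine Finset.sum_congr rfl fun a _ => ?_
          rw [Finset.mul_sum]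
      _ ≤ ∑ a, w a * (Fintype.card (X × Fin T ≃ Fin m) *
          (jac (f a) (f' a) + Fintype.card X / (∑ z, max (f a z) (f' a z)) / Q)) :=
          Finset.sum_le_sum fun a _ => mul_le_mul_of_nonneg_left
            (MH.avg Q hQ0 (f a) (f' a) (hf a) (hT.2 a)) (hw a)
      _ = Fintype.card (X × Fin T ≃ Fin m) * (∑ a, w a * jac (f a) (f' a) + K / Q) := by
          rw [hK, Finset.sum_div, ← Finset.sum_add_distrib, Finset.mul_sum]
          refine Finset.sum_congr rfl fun a _ => ?_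
          ring
      _ ≤ _ := by gcongr
  obtain ⟨ord, -, hord⟩ := Finset.exists_le_of_sum_le hne hsum
  refine ⟨MH.sel Q ord, fun p hp => MH.sel_pos hT.1 Q hQ0 ord p hp, ?_⟩
  convert hord

end Crest.Agent.R314E
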