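import Crest.Agent.R314E.Defs

/-! Row 314, part (E): the move of a centre towards the request (**MV**). -/

set_option autoImplicit false

namespace Crest.Agent.R314E

open Finset Crest.Agent.KS
open scoped Classical

namespace MV

variable {X : Type} [Fintype X]

omit [Fintype X] in
theorem d_nonneg {d : X → X → ℝ} (hd : IsM d) (x y : X) : 0 ≤ d x y := by
  have h1 := hd.tri x y x
  rw [hd.self, hd.symm y x] at h1
  linarith

theorem ent {g w : ℝ} (hg : 0 ≤ g) (hw : 0 < w) : g * (-Real.log w) ≤ g ^ 2 / w + 1 := by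
  rcases hg.eq_or_lt with h | h
  · rw [← h]; simp
  · have h1 := Real.log_le_sub_one_of_pos (div_pos h hw)
    have h2 := Real.log_le_sub_one_of_pos (inv_pos.2 h)
    rw [Real.log_div h.ne' hw.ne'] at h1
    rw [Real.log_inv] at h2
    have h3 : -Real.log w ≤ g / w - 1 + (g⁻¹ - 1) := by linarith
    have h4 := mul_le_mul_of_nonneg_left h3 hg
    have h5 : g * (g / w - 1 + (g⁻¹ - 1)) = g ^ 2 / w + 1 - 2 * g := by
      field_simp
      ring
    linarith

theorem eta_log {η : ℝ} (h : 0 < η) : η * (-Real.log η) ≤ 1 := by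
  have h2 := Real.log_le_sub_one_of_pos (inv_pos.2 h)
  rw [Real.log_inv] at h2
  have h4 := mul_le_mul_of_nonneg_left h2 h.le
  have h5 : η * (η⁻¹ - 1) = 1 - η := by field_simp
  linarith

theorem sq_le_D2 (d : X → X → ℝ) {ν : X → ℝ} (r : X) (h0 : ∀ x, 0 ≤ ν x) (h1 : ∑ x, ν x = 1) :
    D1 d ν r ^ 2 ≤ D2 d ν r := by
  have h2 : 0 ≤ ∑ x, ν x * (min (d r x) 1 - D1 d ν r) ^ 2 :=
    Finset.sum_nonneg fun x _ => mul_nonneg (h0 x) (sq_nonneg _)
  have h3 : ∑ x, ν x * (min (d r x) 1 - D1 d ν r) ^ 2 =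
      D2 d ν r - 2 * D1 d ν r * D1 d ν r + D1 d ν r ^ 2 * ∑ x, ν x := by
    conv_rhs => rw [D2, Finset.mul_sum]
    have : 2 * D1 d ν r * D1 d ν r = ∑ x, 2 * D1 d ν r * (ν x * min (d r x) 1) := by
      rw [← Finset.mul_sum]; rfl
    rw [this, ← Finset.sum_sub_distrib, ← Finset.sum_add_distrib]
    exact Finset.sum_congr rfl fun x _ => by ring
  rw [h3, h1] at h2
  nlinarith

theorem Am_eq {d : X → X → ℝ} (hd : IsM d) (m0 : X → ℝ) (r : X) :
    Am d m0 r = (∑ x, if d r x ≤ 30 then m0 x else 0) + 1 := by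
  unfold Am W cut post
  have h1 : (1 : ℝ) = ∑ x, if x = r then (1 : ℝ) else 0 := by simp
  conv_rhs => rw [h1]
  rw [← Finset.sum_add_distrib]
  refine Finset.sum_congr rfl fun x _ => ?_
  by_cases hx : x = r
  · subst hx
    rw [hd.self]; norm_num
  · simp [hx]

/-- the last part -/
theorem P3_le (hBas : BasStmt) {d : X → X → ℝ} {N : ℕ} (hd : IsM d) (hN : 1 ≤ N) {ν : X → ℝ}
    (hν : ∀ x, 0 ≤ ν x) (r : X) {c : Option X → X → ℝ} {μ : X → ℝ} (hc : Cen d c) (hμ : Tok d μ)
    {h₀ : Option X} (hℓ : c h₀ r ≤ 1 / 32) :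
    P3 d N ν r c μ ≤ 128 * D2 d ν r + 65536 * c h₀ r * D1 d ν r := by
  obtain ⟨-, hT, hC, -, hR, -⟩ := hBas X d N hd hN
  have hcm : cm c r = c h₀ r := (hC c hc r).2.2.2.1 h₀ (by linarith)
  have hℓ0 : 0 ≤ c h₀ r := hcm ▸ (hC c hc r).1
  unfold P3 D2 D1
  rw [Finset.mul_sum, Finset.mul_sum, ← Finset.sum_add_distrib]
  refine Finset.sum_le_sum fun x _ => ?_
  have hd0 := d_nonneg hd r x
  have ht0 : 0 ≤ min (d r x) 1 := le_min hd0 zero_le_one
  have e1 : cH c x c r ≤ 128 * min (d r x) 1 ^ 2 := by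
    by_cases h8 : d r x ≤ 1 / 8
    · have : cH c x c r ≤ 8 * 0 := by
        refine ((hC c hc x).2.2.2.2.2 c hc r).2.2 0 fun h => ?_
        have k1 := (hc.1 h x r).1
        have k2 := (hc.1 h r x).1
        rw [hd.symm x r] at k1
        by_cases hh : h = h₀
        · subst hh
          have v1 : val (c h x) = 1 / 4 := by
            unfold val; exact max_eq_left ((min_le_left _ _).trans (by linarith))
          have v2 : val (c h r) = 1 / 4 := by
            unfold val; exact max_eq_left ((min_le_left _ _).trans (by linarith))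
          rw [v1, v2]; simp
        · have k3 := hc.2 h h₀ r hh
          have v1 : val (c h x) = 1 / 2 := by
            unfold val; rw [min_eq_right (by linarith)]; norm_num
          have v2 : val (c h r) = 1 / 2 := by
            unfold val; rw [min_eq_right (by linarith)]; norm_num
          rw [v1, v2]; simp
      nlinarith [sq_nonneg (min (d r x) 1)]
    · have h2 := ((hC c hc x).2.2.2.2.2 c hc r).2.1
      have h3 : 1 / 8 ≤ min (d r x) 1 := le_min (by linarith) (by norm_num)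
      nlinarith
  have e2 : ¬ (1 / 4 ≤ cm c r) := by rw [hcm]; linarith
  have e3 : chi c r = 0 := by
    unfold chi ramp
    rw [hcm, max_eq_left ((min_le_right _ _).trans (by linarith))]
    norm_num
  have e4 : 0 ≤ chi c x * phi d N μ x := mul_nonneg (sq_nonneg _) (hT μ hμ x).2.1
  have e5 : Gq (cm c r) - Gq (cm c x) ≤ 65536 * c h₀ r * min (d r x) 1 := by
    have k1 := ((hR (cm c r) (cm c x)).2.2.2.2.2 (hC c hc r).1).2.2.2 (hC c hc x).1
    have k2 : max (cm c r - cm c x) 0 ≤ min (d r x) 1 := by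
      have k3 := (hC c hc r).2.2.2.2.1 x
      have k4 := (hC c hc x).1
      refine max_le (le_min (by linarith) (by rw [hcm]; linarith)) ht0
    have k5 := mul_le_mul_of_nonneg_left k2 (show 0 ≤ 65536 * c h₀ r by positivity)
    rw [hcm] at k1 k5 ⊢
    exact k1.1.trans k5
  rw [if_neg e2]
  unfold Th
  rw [e3]
  have e6 : cH c x c r + 0 + (2 * 0 * phi d N μ r + Gq (cm c r)) -
      (2 * chi c x * phi d N μ x + Gq (cm c x)) ≤
      128 * min (d r x) 1 ^ 2 + 65536 * c h₀ r * min (d r x) 1 := by nlinarith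
  have := mul_le_mul_of_nonneg_left e6 (hν x)
  nlinarith

end MV

open MV in
theorem MV_proof (hBas : BasStmt) (hLiz : LizStmt) (hGeo : GeoStmt) : MvStmt := by
  refine ⟨8000000, by norm_num, ?_⟩
  intro k X _ d N hd hN m0 ν r c μ h₀ hD hc hμ hD0 hD2 hℓ
  obtain ⟨⟨hfw1, hfw0⟩, hT, hC, -, hR, hnet⟩ := hBas X d N hd hN
  have hm0 := hD.m0_nonneg
  have hν := hD.ν_nonneg
  have hd0 := d_nonneg hd
  set D := D1 d ν r with hDdef
  set A := Am d m0 r with hAdef
  set ℓ := c h₀ r with hℓdef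
  have hA : A = (∑ x, if d r x ≤ 30 then m0 x else 0) + 1 := Am_eq hd m0 r
  have hA1 : 1 ≤ A := by
    have : 0 ≤ ∑ x, if d r x ≤ 30 then m0 x else 0 :=
      Finset.sum_nonneg fun x _ => by split_ifs; exacts [hm0 x, le_rfl]
    linarith
  have hApos : 0 < A := by linarith
  have hsq : D ^ 2 ≤ D2 d ν r := sq_le_D2 d r hν hD.ν_sum
  have hD2' : 0 ≤ D2 d ν r := (sq_nonneg _).trans hsq
  set S := ∑ x, if d r x ≤ 30 then m0 x * d r x else 0 with hS
  have hS0 : 0 ≤ S := Finset.sum_nonneg fun x _ => by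
    split_ifs; exacts [mul_nonneg (hm0 x) (hd0 r x), le_rfl]
  have hYr : Yr d m0 r * A = S := by
    unfold Yr; exact div_mul_cancel₀ _ hApos.ne'
  have hYr0 : 0 ≤ Yr d m0 r := div_nonneg hS0 hApos.le
  have hcm : cm c r = ℓ := (hC c hc r).2.2.2.1 h₀ (by linarith)
  have hℓ0 : 0 ≤ ℓ := hcm ▸ (hC c hc r).1
  have he0 : 0 < 4 * D / A := by positivity
  rcases hℓ0.eq_or_lt with hz | hpos
  · -- nothing changes
    refine ⟨c, μ, hc, hμ, fun h x x' _ _ y => ?_, ?_⟩
    · rw [sub_self, abs_zero]; split_ifs; exacts [he0.le, le_rfl]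
    · have h1 := hnet m0 ν r c μ c μ hm0 hν hc hμ hc hμ
      have h2 : P1 d N (fun x => (m0 x + ν x) * chi c x) μ μ = 0 := by
        unfold P1
        refine Finset.sum_eq_zero fun x _ => ?_
        rw [(hT μ hμ x).2.2.1]; ring
      have h3 : P2 d N (fun x => m0 x + ν x) c c μ = 0 := by
        unfold P2
        refine Finset.sum_eq_zero fun x _ => ?_
        have : cH c x c x = 0 := by unfold cH; simp
        rw [this]; ring
      have h4 := P3_le hBas hd hN hν r hc hμ hℓ
      rw [← hℓdef, ← hz] at h4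
      have h5 := mul_nonneg hD0.le hYr0
      linarith only [h1, h2, h3, h4, h5, hD2']
  set η := min ℓ (4 * D / A) with hη
  have hη0 : 0 < η := lt_min hpos he0
  have hηℓ : η ≤ ℓ := min_le_left _ _
  have hηe : η ≤ 4 * D / A := min_le_right _ _
  have hηA : η * A ≤ 4 * D := (le_div_iff₀ hApos).1 hηe
  have hηD : η ≤ 4 * D := by nlinarith only [hηA, hA1, hη0]
  obtain ⟨c', Z, hc', hSh, hc'r, hZ, hx⟩ := hGeo X d hd r c h₀ η hc hℓ hη0 hηℓ
  set m : X → ℝ := fun x => m0 x + ν x with hm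
  have hmn : ∀ x, 0 ≤ m x := fun x => add_nonneg (hm0 x) (hν x)
  set n : X → ℝ := fun x => (m0 x + ν x) * chi c x with hn
  have hn0 : ∀ x, 0 ≤ n x := fun x => mul_nonneg (hmn x) (sq_nonneg _)
  obtain ⟨μ', hμ', hP1, hZ', hWZ⟩ := hLiz X d N hd hN n μ Z η hn0 hμ hη0 (by linarith)
    (fun z hz => (hZ z hz).2)
  refine ⟨c', μ', hc', hμ', fun h x x' h1 h2 y => (hSh h x x' h1 h2 y).trans ?_, ?_⟩
  · split_ifs; exacts [hηe, le_rfl]
  set Y := ∑ x, if 1 / 16 ≤ d r x ∧ d r x ≤ 30 then m x else 0 with hY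
  have hY0 : 0 ≤ Y := Finset.sum_nonneg fun x _ => by split_ifs; exacts [hmn x, le_rfl]
  have hg0 : ∀ t, 0 ≤ ramp t := fun t => (hR t t).2.2.1
  have hg1 : ∀ t, ramp t ≤ 1 := fun t => (hR t t).2.2.2.1
  have hWY : ∑ z ∈ Z, W d n z 8 ≤ Y := by
    refine hWZ.trans (Finset.sum_le_sum fun x _ => ?_)
    by_cases h1 : ∃ z ∈ Z, d z x ≤ 8
    · rw [if_pos h1]
      obtain ⟨z, hz, hzx⟩ := h1
      rcases (hg0 (cm c x)).eq_or_lt with h2 | h2
      · have : n x = 0 := by simp only [hn, chi, ← h2]; ring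
        rw [this]; split_ifs; exacts [hmn x, le_rfl]
      · have h3 := (hx x).2.2.2.2 h2
        have h4 := hd.tri r z x
        have h5 := (hZ z hz).1
        rw [if_pos ⟨h3, by linarith⟩]
        have h6 : chi c x ≤ 1 := pow_le_one₀ (hg0 _) (hg1 _)
        exact mul_le_of_le_one_right (hmn x) h6
    · rw [if_neg h1]; split_ifs; exacts [hmn x, le_rfl]
  have hYle : Y ≤ 16 * S + 16 * D := by
    simp only [hY, hS, hDdef, D1, Finset.mul_sum, ← Finset.sum_add_distrib]
    refine Finset.sum_le_sum fun x _ => ?_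
    have k0 : 0 ≤ min (d r x) 1 := le_min (hd0 r x) zero_le_one
    have k1 := mul_nonneg (hν x) k0
    have k2 := mul_nonneg (hm0 x) (hd0 r x)
    by_cases h1 : 1 / 16 ≤ d r x ∧ d r x ≤ 30
    · rw [if_pos h1, if_pos h1.2]
      have k3 : 1 / 16 ≤ min (d r x) 1 := le_min h1.1 (by norm_num)
      have k4 := mul_le_mul_of_nonneg_left k3 (hν x)
      have k5 := mul_le_mul_of_nonneg_left h1.1 (hm0 x)
      simp only [hm]
      linarith
    · rw [if_neg h1]; split_ifs <;> linarith
  -- the mass and the first moment of the ball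
  set U := ∑ x, if d r x ≤ 30 then m x else 0 with hU
  set V := ∑ x, if d r x ≤ 30 then m x * d r x else 0 with hV
  have hUge : A / 2 ≤ U := by
    have h1 : (∑ x, if d r x ≤ 30 then m0 x else 0) + ∑ x, ν x ≤ U + D := by
      simp only [hU, hDdef, D1, ← Finset.sum_add_distrib]
      refine Finset.sum_le_sum fun x _ => ?_
      have k0 : 0 ≤ min (d r x) 1 := le_min (hd0 r x) zero_le_one
      have k1 := mul_nonneg (hν x) k0
      by_cases h1 : d r x ≤ 30
      · rw [if_pos h1, if_pos h1]; simp only [hm]; linarith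
      · rw [if_neg h1, if_neg h1, min_eq_right (by linarith)]; linarith
    rw [hD.ν_sum] at h1
    linarith
  have hVle : V ≤ S + 30 * D := by
    simp only [hV, hS, hDdef, D1, Finset.mul_sum, ← Finset.sum_add_distrib]
    refine Finset.sum_le_sum fun x _ => ?_
    have k0 : 0 ≤ min (d r x) 1 := le_min (hd0 r x) zero_le_one
    have k1 := mul_nonneg (hν x) k0
    by_cases h1 : d r x ≤ 30
    · rw [if_pos h1, if_pos h1]
      have k3 : d r x ≤ 30 * min (d r x) 1 := by
        rcases le_total (d r x) 1 with h | h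
        · rw [min_eq_left h]; linarith [hd0 r x]
        · rw [min_eq_right h]; linarith
      have k4 := mul_le_mul_of_nonneg_left k3 (hν x)
      simp only [hm]
      linarith only [k4]
    · rw [if_neg h1, if_neg h1]; linarith
  -- the stability functional
  set F : X → ℝ := fun x => ∑ l ∈ Icc 1 N, fw N l / W d μ' x (rad N l) with hF
  have hrad : ∀ l ∈ Icc 1 N, 0 ≤ rad N l ∧ rad N l ≤ 3 := by
    intro l hl
    have hN' : (0 : ℝ) < N := by exact_mod_cast hN
    have h1 : (l : ℝ) / N ≤ 1 := (div_le_one hN').2 (by exact_mod_cast (Finset.mem_Icc.1 hl).2)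
    have h2 : 0 ≤ (l : ℝ) / N := by positivity
    unfold rad; constructor <;> linarith
  have hW : ∀ x, ∀ l ∈ Icc 1 N, 0 < W d μ' x (rad N l) := fun x l hl =>
    ((hT μ' hμ' x).1 _ (hrad l hl).1 (hrad l hl).2).1
  have hF0 : ∀ x, 0 ≤ F x := fun x =>
    Finset.sum_nonneg fun l hl => div_nonneg (hfw0 l) (hW x l hl).le
  have hgphi : ∀ x (g : ℝ), 0 ≤ g → g * phi d N μ' x ≤ g ^ 2 * F x + 1 := by
    intro x g hg
    unfold phi
    conv_rhs => rw [← hfw1]
    simp only [hF, Finset.mul_sum, ← Finset.sum_add_distrib]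
    refine Finset.sum_le_sum fun l hl => ?_
    have k1 := mul_le_mul_of_nonneg_left (ent hg (hW x l hl)) (hfw0 l)
    have k2 : fw N l * (g ^ 2 / W d μ' x (rad N l) + 1) =
        g ^ 2 * (fw N l / W d μ' x (rad N l)) + fw N l := by ring
    linarith only [k1, k2]
  set Q := ∑ x, if ∃ z ∈ Z, d z x ≤ 1 then n x * F x else 0 with hQ
  have hQle : Q ≤ 6 * Y := by
    have h1 : Q ≤ ∑ z ∈ Z, Qs d N n μ' z := by
      unfold Qs
      rw [Finset.sum_comm]
      refine Finset.sum_le_sum fun x _ => ?_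
      have k0 : ∀ z ∈ Z, 0 ≤ if d z x ≤ 1 then n x * F x else 0 := fun z _ => by
        split_ifs; exacts [mul_nonneg (hn0 x) (hF0 x), le_rfl]
      by_cases h1 : ∃ z ∈ Z, d z x ≤ 1
      · rw [if_pos h1]
        obtain ⟨z, hz, hzx⟩ := h1
        have := Finset.single_le_sum (f := fun z => if d z x ≤ 1 then n x * F x else 0) k0 hz
        simp only [if_pos hzx] at this
        exact this
      · rw [if_neg h1]; exact Finset.sum_nonneg k0
    have h2 : ∑ z ∈ Z, Qs d N n μ' z ≤ ∑ z ∈ Z, 6 * W d n z 8 :=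
      Finset.sum_le_sum fun z hz => (hZ' z hz).2
    rw [← Finset.mul_sum] at h2
    linarith
  have hP2 : P2 d N m c c' μ' ≤
      168 * η * Y + 32 * η * Q + (65536 * η * V - 32768 * η * ℓ * U) := by
    unfold P2
    simp only [hY, hQ, hV, hU, Finset.mul_sum, ← Finset.sum_add_distrib, ← Finset.sum_sub_distrib]
    refine Finset.sum_le_sum fun x _ => ?_
    obtain ⟨x1, x2, x3, x4, -⟩ := hx x
    have hmx := hmn x
    have hphi0 : 0 ≤ phi d N μ' x := (hT μ' hμ' x).2.1
    have a1 : m x * cH c x c' x ≤ 8 * η * if 1 / 16 ≤ d r x ∧ d r x ≤ 30 then m x else 0 := by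
      have := mul_le_mul_of_nonneg_left x1 hmx
      split_ifs at this ⊢ <;> linarith
    have a2 : m x * (Gq (cm c' x) - Gq (cm c x)) ≤
        (65536 * η * if d r x ≤ 30 then m x * d r x else 0) -
          32768 * η * ℓ * if d r x ≤ 30 then m x else 0 := by
      have := mul_le_mul_of_nonneg_left x2 hmx
      split_ifs at this ⊢ <;> linarith
    have a3 : m x * (2 * (chi c' x - chi c x) * phi d N μ' x) ≤
        (160 * η * if 1 / 16 ≤ d r x ∧ d r x ≤ 30 then m x else 0) +
          32 * η * if ∃ z ∈ Z, d z x ≤ 1 then n x * F x else 0 := by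
      by_cases hlt : ramp (cm c x) < ramp (cm c' x)
      · obtain ⟨b1, z, hz, hzx⟩ := x4 hlt
        have b2 := hd.tri r z x
        have b3 := (hZ z hz).1
        rw [if_pos ⟨b1, by linarith⟩, if_pos ⟨z, hz, hzx⟩]
        set g := ramp (cm c x) with hg
        set g' := ramp (cm c' x) with hg'
        have g0 : 0 ≤ g := hg0 _
        have b4 : chi c' x - chi c x ≤ 16 * η * g + 64 * η ^ 2 := by
          show g' ^ 2 - g ^ 2 ≤ _
          nlinarith only [x3, hlt, g0, hη0]
        have b5 : phi d N μ' x ≤ -Real.log η := (hT μ' hμ' x).2.2.2.1 z η hzx hη0 (hZ' z hz).1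
        have b6 : η * phi d N μ' x ≤ 1 :=
          (mul_le_mul_of_nonneg_left b5 hη0.le).trans (eta_log hη0)
        have b7 := hgphi x g g0
        have b8 : (chi c' x - chi c x) * phi d N μ' x ≤ 16 * η * (g ^ 2 * F x + 1) + 64 * η := by
          have k1 := mul_le_mul_of_nonneg_right b4 hphi0
          have k2 := mul_le_mul_of_nonneg_left b7 (show 0 ≤ 16 * η by positivity)
          have k3 := mul_le_mul_of_nonneg_left b6 (show 0 ≤ 64 * η by positivity)
          linarith only [k1, k2, k3]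
        have b9 := mul_le_mul_of_nonneg_left b8 hmx
        have b10 : n x = m x * g ^ 2 := rfl
        rw [b10]
        linarith only [b9]
      · have b1 : chi c' x - chi c x ≤ 0 := by
          have := pow_le_pow_left₀ (hg0 _) (not_lt.1 hlt) 2
          unfold chi; linarith
        have b2 : m x * (2 * (chi c' x - chi c x) * phi d N μ' x) ≤ 0 :=
          mul_nonpos_of_nonneg_of_nonpos hmx
            (mul_nonpos_of_nonpos_of_nonneg (by linarith) hphi0)
        have b3 : 0 ≤ if 1 / 16 ≤ d r x ∧ d r x ≤ 30 then m x else 0 := by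
          split_ifs; exacts [hmx, le_rfl]
        have b4 : 0 ≤ if ∃ z ∈ Z, d z x ≤ 1 then n x * F x else 0 := by
          split_ifs; exacts [mul_nonneg (hn0 x) (hF0 x), le_rfl]
        have b5 := mul_nonneg hη0.le b3
        have b6 := mul_nonneg hη0.le b4
        linarith only [b2, b5, b6]
    unfold Th
    linarith only [a1, a2, a3]
  have hP3 := P3_le hBas hd hN hν r hc' hμ' (h₀ := h₀) (by rw [hc'r]; linarith)
  rw [hc'r] at hP3
  have hnet' := hnet m0 ν r c μ c' μ' hm0 hν hc hμ hc' hμ'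
  have hcancel : 65536 * (ℓ - η) * D ≤ 32768 * η * ℓ * U := by
    have h1 : 16384 * η * ℓ * A ≤ 32768 * η * ℓ * U := by
      have := mul_le_mul_of_nonneg_left hUge (show 0 ≤ 32768 * η * ℓ by positivity)
      linarith
    refine le_trans ?_ h1
    rcases min_choice ℓ (4 * D / A) with h | h
    · rw [← hη] at h
      rw [h, sub_self]
      have : 0 ≤ 16384 * ℓ * ℓ * A := by positivity
      linarith
    · rw [← hη] at h
      have h2 : η * A = 4 * D := by rw [h]; exact div_mul_cancel₀ _ hApos.ne'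
      have h3 : 16384 * η * ℓ * A = 16384 * ℓ * (η * A) := by ring
      rw [h3, h2]
      have := mul_nonneg hη0.le hD0.le
      linarith only [this]
  have hηS : η * S ≤ 4 * (D * Yr d m0 r) := by
    rw [← hYr]
    have := mul_le_mul_of_nonneg_right hηA hYr0
    linarith only [this]
  have hηDD : η * D ≤ 4 * D2 d ν r := by
    have := mul_le_mul_of_nonneg_right hηD hD0.le
    linarith only [this, hsq]
  have k1 := mul_le_mul_of_nonneg_left hWY (show 0 ≤ 5 * η by positivity)
  have k2 := mul_le_mul_of_nonneg_left hQle (show 0 ≤ 32 * η by positivity)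
  have k3 := mul_le_mul_of_nonneg_left hYle (show 0 ≤ 365 * η by positivity)
  have k4 := mul_le_mul_of_nonneg_left hVle (show 0 ≤ 65536 * η by positivity)
  have k5 := mul_nonneg hD0.le hYr0
  have k6 : net d N m0 ν r c μ c' μ' ≤ 365 * η * Y + 65536 * η * V + 128 * D2 d ν r := by
    have k7 : P1 d N n μ μ' ≤ 5 * η * Y := hP1.trans k1
    change net d N m0 ν r c μ c' μ' ≤ P1 d N n μ μ' + P2 d N m c c' μ' + P3 d N ν r c' μ' at hnet'
    change P3 d N ν r c' μ' ≤ 128 * D2 d ν r + 65536 * (ℓ - η) * D at hP3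
    linarith only [hnet', k7, hP2, hP3, hcancel, k2]
  linarith only [k3, k4, k5, k6, hηS, hηDD, hD2']

end Crest.Agent.R314E
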