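import Crest.Agent.R314E.Defs

/-! Row 314, part (E): the step at a scale without a heavy cluster at the request. -/

set_option autoImplicit false

namespace Crest.Agent.R314E

open Finset Crest.Agent.KS
open scoped Classical

theorem NL2_proof (hBas : BasStmt) (hLi1 : Li1Stmt) (hAbl : AblStmt) (hAvg : AvgStmt) : NlStmt := by
  obtain ⟨C, hC, havg⟩ := hAvg
  refine ⟨84 * C + 4111, by positivity, ?_⟩
  intro k hk X _ d N hM hG m0 ν r c μ hD hc hμ hD1
  obtain ⟨-, hT, hCn, -, hR, hDec⟩ := hBas X d N hM hG.1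
  have hd0 : ∀ x y, 0 ≤ d x y := fun x y => by
    have h1 := hM.tri x y x
    rw [hM.self, hM.symm y x] at h1
    linarith
  have hk2 : (2 : ℝ) ≤ k := by exact_mod_cast hk
  have hm : ∀ x, 0 ≤ m0 x + ν x := fun x => add_nonneg (hD.m0_nonneg x) (hD.ν_nonneg x)
  have hchi : ∀ x, 0 ≤ chi c x ∧ chi c x ≤ 1 := fun x => by
    obtain ⟨-, -, h1, h2, -⟩ := hR (cm c x) 0
    unfold chi
    constructor <;> nlinarith
  have hD1le : D1 d ν r ≤ 1 := by
    rw [← hD.ν_sum]
    refine Finset.sum_le_sum fun x _ => ?_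
    have := mul_le_mul_of_nonneg_left (min_le_right (d r x) 1) (hD.ν_nonneg x)
    linarith
  have hn : ∀ x, 0 ≤ (m0 x + ν x) * chi c x := fun x => mul_nonneg (hm x) (hchi x).1
  obtain ⟨μ', hμ', -, hP1, he, hQ⟩ := hLi1 X d N hM hG.1 (fun x => (m0 x + ν x) * chi c x) μ r
    (D1 d ν r / k) hn hμ (by positivity) (by rw [div_le_iff₀ (by positivity)]; linarith)
  have hWA : W d (fun x => (m0 x + ν x) * chi c x) r 8 ≤ Am d m0 r := by
    have h1 : W d (fun x => (m0 x + ν x) * chi c x) r 8 ≤
        ∑ x, ((if d r x ≤ 30 then m0 x else 0) + ν x) := by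
      refine Finset.sum_le_sum fun x _ => ?_
      unfold cut
      have := hD.ν_nonneg x
      have := hD.m0_nonneg x
      have := mul_le_mul_of_nonneg_left (hchi x).2 (hm x)
      by_cases h8 : d r x ≤ 8
      · have h30 : d r x ≤ 30 := by linarith
        simp only [h8, h30, if_true]; linarith
      · simp only [h8, if_false]; split_ifs <;> linarith
    have h2 : Am d m0 r = ∑ x, ((if d r x ≤ 30 then m0 x else 0) + if x = r then 1 else 0) := by
      unfold Am W cut post
      refine Finset.sum_congr rfl fun x _ => ?_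
      by_cases hx : x = r
      · subst hx; simp [hM.self]
      · simp [hx]
    rw [h2, Finset.sum_add_distrib]
    rw [Finset.sum_add_distrib, hD.ν_sum] at h1
    simpa using h1
  have hWk : W d (fun x => (m0 x + ν x) * chi c x) r 8 ≤ k := by
    have h1 : W d (fun x => (m0 x + ν x) * chi c x) r 8 ≤ ∑ x, (m0 x + ν x) := by
      refine Finset.sum_le_sum fun x _ => ?_
      unfold cut
      have := mul_le_mul_of_nonneg_left (hchi x).2 (hm x)
      have := hm x
      split_ifs <;> linarith
    rw [Finset.sum_add_distrib, hD.ν_sum] at h1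
    linarith [hD.tot]
  refine ⟨μ', hμ', fun I hI => ?_⟩
  have hI0 : 0 ≤ I := by
    have h1 := hI 30 (by norm_num) le_rfl
    have e : Real.log (Am d m0 r / W d (post m0 r) r 30) = 0 := by
      unfold Am
      by_cases h : W d (post m0 r) r 30 = 0
      · simp [h]
      · rw [div_self h, Real.log_one]
    rw [e] at h1
    simpa using h1
  have hL : 0 ≤ Real.log (k + 1) := Real.log_nonneg (by linarith)
  have hg : ∀ x, 0 ≤ ramp (cm c x) ∧ ramp (cm c x) ≤ 1 ∧
      ramp (cm c r) ≤ ramp (cm c x) + 8 * d r x := fun x => by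
    obtain ⟨-, -, h1, h2, -⟩ := hR (cm c x) 0
    refine ⟨h1, h2, ?_⟩
    have h3 := (hCn c hc r).2.2.2.2.1 x
    have h4 := (hR (cm c r) (cm c x + d r x)).2.2.2.2.1 h3
    have h5 := (hR (cm c x + d r x) (cm c x)).1
    rw [add_sub_cancel_left, abs_of_nonneg (hd0 r x)] at h5
    linarith [le_abs_self (ramp (cm c x + d r x) - ramp (cm c x))]
  have hA := havg k hk X d N hM hG m0 ν r (fun x => ramp (cm c x)) μ' I hD hμ' hg hD1 he
    (le_trans hQ (by linarith)) hI
  set G := ramp (cm c r) * gb d N μ' r with hGdef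
  have h1 : P1 d N (fun x => (m0 x + ν x) * chi c x) μ μ' ≤ 5 * D1 d ν r := by
    refine le_trans hP1 ?_
    calc 5 * (D1 d ν r / k) * W d (fun x => (m0 x + ν x) * chi c x) r 8
        ≤ 5 * (D1 d ν r / k) * k := by gcongr
      _ = 5 * D1 d ν r := by field_simp
  have h2 : P2 d N (fun x => m0 x + ν x) c c μ' = 0 := by
    unfold P2 cH
    simp
  have h3 : P3 d N ν r c μ' ≤ D1 d ν r * (4106 + 84 * G) := by
    unfold P3 D1
    rw [Finset.sum_mul]
    refine Finset.sum_le_sum fun x _ => ?_
    rw [mul_assoc]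
    refine mul_le_mul_of_nonneg_left ?_ (hD.ν_nonneg x)
    obtain ⟨a1, a2, a3, a4⟩ := hAbl X d N hM hG μ' r x hμ'
    set t := min (d r x) 1 with ht
    have ht0 : 0 ≤ t := le_min (hd0 r x) zero_le_one
    have b1 : cH c x c r ≤ 8 * t := by
      refine ((hCn c hc x).2.2.2.2.2 c hc r).2.2 t fun h => le_min ?_ ?_
      · refine le_trans (hR _ _).2.1 (abs_le.2 ⟨?_, ?_⟩)
        · have := (hc.1 h r x).1; linarith
        · have := (hc.1 h x r).1; rw [hM.symm x r] at this; linarith
      · unfold val
        refine abs_le.2 ⟨?_, ?_⟩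
        · have := le_max_left (1 / 4 : ℝ) (min (c h x) (1 / 2))
          have : max (1 / 4 : ℝ) (min (c h r) (1 / 2)) ≤ 1 / 2 :=
            max_le (by norm_num) (min_le_right _ _)
          linarith
        · have := le_max_left (1 / 4 : ℝ) (min (c h r) (1 / 2))
          have : max (1 / 4 : ℝ) (min (c h x) (1 / 2)) ≤ 1 / 2 :=
            max_le (by norm_num) (min_le_right _ _)
          linarith
    have hG0 : 0 ≤ G := mul_nonneg (hg r).1 a1
    have b2 : (if 1 / 4 ≤ cm c r then cL d N μ' x μ' r else 0) ≤ 2 * t + 12 * t * G := by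
      split_ifs with h
      · have : ramp (cm c r) = 1 := by
          unfold ramp
          rw [min_eq_left (by linarith), max_eq_right zero_le_one]
        rw [hGdef, this, one_mul]
        exact a4
      · positivity
    have b3 : Gq (cm c r) - Gq (cm c x) ≤ 4096 * t := by
      have c1 := (hCn c hc r).1
      have c2 := (hCn c hc x).1
      have c3 := (hCn c hc r).2.2.2.2.1 x
      have c4 := (((hR (cm c r) (cm c x)).2.2.2.2.2 c1).2.2.2 c2).2
      have c5 := ((hR (cm c r) 0).2.2.2.2.2 c1).2.1
      have c6 := ((hR (cm c x) 0).2.2.2.2.2 c2).1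
      have c7 : max (cm c r - cm c x) 0 ≤ d r x := max_le (by linarith) (hd0 r x)
      rcases le_total (d r x) 1 with h | h
      · rw [ht, min_eq_left h]; linarith
      · rw [ht, min_eq_right h]; linarith
    have b4 : chi c r * phi d N μ' r - chi c x * phi d N μ' x ≤ 36 * t * G := by
      have p1 := (hT μ' hμ' r).2.1
      have p2 := (hT μ' hμ' x).2.1
      obtain ⟨g1, g2, g3⟩ := hg x
      obtain ⟨g4, g5, -⟩ := hg r
      have g6 : ramp (cm c r) - ramp (cm c x) ≤ 8 * t := by
        rcases le_total (d r x) 1 with h | h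
        · rw [ht, min_eq_left h]; linarith
        · rw [ht, min_eq_right h]; linarith
      unfold chi
      set a := ramp (cm c r)
      set b := ramp (cm c x)
      set p := phi d N μ' r
      set q := phi d N μ' x
      set w := gb d N μ' r
      have q1 : a ^ 2 * (4 * t * w) ≤ 4 * t * G := by
        rw [hGdef]
        have : a ^ 2 ≤ a := by nlinarith
        have := mul_le_mul_of_nonneg_right this (by positivity : 0 ≤ 4 * t * w)
        linarith
      rcases le_total b a with h | h
      · have e1 : a ^ 2 - b ^ 2 ≤ 16 * t * a := by nlinarith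
        have e2 : (a ^ 2 - b ^ 2) * p ≤ 16 * t * a * (2 * w) :=
          mul_le_mul e1 a2 p1 (by positivity)
        have e3 : b ^ 2 * (p - q) ≤ a ^ 2 * (4 * t * w) := by
          have f1 := mul_le_mul_of_nonneg_left a3 (sq_nonneg b)
          have f2 : b ^ 2 ≤ a ^ 2 := by nlinarith
          have f3 := mul_le_mul_of_nonneg_right f2 (by positivity : 0 ≤ 4 * t * w)
          linarith
        have e4 : 16 * t * a * (2 * w) = 32 * t * G := by rw [hGdef]; ring
        nlinarith
      · have f2 : a ^ 2 ≤ b ^ 2 := by nlinarith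
        have f3 := mul_le_mul_of_nonneg_right f2 p2
        have f1 := mul_le_mul_of_nonneg_left a3 (sq_nonneg a)
        have f4 : 0 ≤ t * G := by positivity
        nlinarith
    unfold Th
    nlinarith
  have h4 : D1 d ν r ^ 2 ≤ D2 d ν r := by
    have := Finset.sum_mul_sq_le_sq_mul_sq univ (fun x => √(ν x)) (fun x => √(ν x) * min (d r x) 1)
    have e1 : ∀ x, √(ν x) * (√(ν x) * min (d r x) 1) = ν x * min (d r x) 1 := fun x => by
      rw [← mul_assoc, Real.mul_self_sqrt (hD.ν_nonneg x)]
    have e2 : ∀ x, √(ν x) ^ 2 = ν x := fun x => Real.sq_sqrt (hD.ν_nonneg x)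
    simp only [e1, mul_pow, e2, hD.ν_sum, one_mul] at this
    exact this
  have h5 := hDec m0 ν r c μ c μ' hD.m0_nonneg hD.ν_nonneg hc hμ hc hμ'
  have h6 := mul_le_mul_of_nonneg_left hA hD1.le
  have h7 := mul_le_mul_of_nonneg_left h4 (mul_nonneg hC hL)
  have h8 : 0 ≤ D1 d ν r * I := by positivity
  have h9 : 0 ≤ Real.log (k + 1) * D2 d ν r := mul_nonneg hL (le_trans (sq_nonneg _) h4)
  nlinarith

end Crest.Agent.R314E
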