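import Crest.Agent.R314E.Defs

/-! Row 314, part (E): choice of the capture radius. -/

set_option autoImplicit false

namespace Crest.Agent.R314E

open Finset MeasureTheory
open scoped Classical

theorem rho_val_lt (u ρ : ℝ) (h1 : 1 / 4 < ρ) (h2 : ρ ≤ 1 / 2) : val u < ρ ↔ u < ρ := by
  unfold val
  constructor
  · intro h
    have h3 : min u (1 / 2) < ρ := lt_of_le_of_lt (le_max_right _ _) h
    rcases min_lt_iff.1 h3 with h4 | h4
    · exact h4
    · linarith
  · intro h
    exact max_lt h1 (lt_of_le_of_lt (min_le_left _ _) h)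

theorem RHO_proof : RhoStmt := by
  intro A _ w u v hw
  set s : Set ℝ := Set.Ioc (1 / 4 : ℝ) (1 / 2) with hs
  set h : A → ℝ → ℝ := fun a =>
    (Set.Ioc (min (val (u a)) (val (v a))) (max (val (u a)) (val (v a)))).indicator (fun _ => (1 : ℝ))
    with hh
  have hint : ∀ a, Integrable (h a) volume := by
    intro a
    exact (integrableOn_const (by simp)).integrable_indicator measurableSet_Ioc
  have hI : ∀ a, ∫ ρ, h a ρ = |val (u a) - val (v a)| := by
    intro a
    simp only [hh]
    rw [integral_indicator_const _ measurableSet_Ioc, Real.volume_real_Ioc_of_le min_le_max,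
      max_sub_min_eq_abs']
    simp
  have h0 : ∀ a ρ, 0 ≤ h a ρ := fun a ρ => Set.indicator_nonneg (fun _ _ => zero_le_one) ρ
  have hF : Integrable (fun ρ => ∑ a, w a * h a ρ) volume :=
    integrable_finsetSum _ fun a _ => (hint a).const_mul _
  have hvol : volume s ≠ 0 := by simp [hs]; norm_num
  have hvol' : volume s ≠ ⊤ := by simp [hs]
  obtain ⟨ρ, hρ, hle⟩ := exists_le_setAverage hvol hvol' hF.integrableOn
  refine ⟨ρ, hρ.1, hρ.2, ?_⟩
  have hreal : volume.real s = 1 / 4 := by
    rw [hs, Real.volume_real_Ioc_of_le (by norm_num)]; norm_num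
  have hav : ⨍ x in s, ∑ a, w a * h a x ≤ ∑ a, w a * (4 * |val (u a) - val (v a)|) := by
    rw [setAverage_eq, hreal]
    have h1 : ∫ x in s, ∑ a, w a * h a x ≤ ∫ x, ∑ a, w a * h a x :=
      setIntegral_le_integral hF (Filter.Eventually.of_forall fun x =>
        sum_nonneg fun a _ => mul_nonneg (hw a) (h0 a x))
    have h2 : ∫ x, ∑ a, w a * h a x = ∑ a, w a * |val (u a) - val (v a)| := by
      rw [integral_finsetSum _ fun a _ => (hint a).const_mul _]
      refine sum_congr rfl fun a _ => ?_
      rw [integral_const_mul, hI]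
    have h3 : ∑ a, w a * (4 * |val (u a) - val (v a)|) = 4 * ∑ a, w a * |val (u a) - val (v a)| := by
      rw [mul_sum]; exact sum_congr rfl fun a _ => by ring
    rw [h3, smul_eq_mul]
    norm_num
    linarith
  refine le_trans ?_ (hle.trans hav)
  refine sum_le_sum fun a _ => mul_le_mul_of_nonneg_left ?_ (hw a)
  split_ifs with hc
  · exact h0 a ρ
  · rw [← rho_val_lt (u a) ρ hρ.1 hρ.2, ← rho_val_lt (v a) ρ hρ.1 hρ.2] at hc
    have hm : ρ ∈ Set.Ioc (min (val (u a)) (val (v a))) (max (val (u a)) (val (v a))) := by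
      by_cases h1 : val (u a) < ρ
      · have h2 : ¬ val (v a) < ρ := fun h2 => hc ⟨fun _ => h2, fun _ => h1⟩
        exact ⟨lt_of_le_of_lt (min_le_left _ _) h1, (not_lt.1 h2).trans (le_max_right _ _)⟩
      · have h2 : val (v a) < ρ := by
          by_contra h2
          exact hc ⟨fun h => absurd h h1, fun h => absurd h h2⟩
        exact ⟨lt_of_le_of_lt (min_le_right _ _) h2, (not_lt.1 h1).trans (le_max_left _ _)⟩
    simp only [hh]
    rw [Set.indicator_of_mem hm]

end Crest.Agent.R314E
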