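import Crest.Agent.R314E.Defs

/-! Row 314 (E), task SEL. -/

set_option autoImplicit false

namespace Crest.Agent.R314E

open Finset Crest.Agent.KS
open scoped Classical

theorem SEL_avg (S : Finset ℕ) (p J : ℕ → ℝ) (hp : ∀ l, 0 ≤ p l) (h1 : ∑ l ∈ S, p l = 1) :
    ∃ l ∈ S, J l ≤ ∑ l ∈ S, p l * J l := by
  have hne : S.Nonempty := by
    rw [Finset.nonempty_iff_ne_empty]
    rintro rfl
    simp at h1
  obtain ⟨l, hl, hmin⟩ := Finset.exists_min_image S J hne
  refine ⟨l, hl, ?_⟩
  calc J l = ∑ i ∈ S, p i * J l := by rw [← Finset.sum_mul, h1, one_mul]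
    _ ≤ _ := Finset.sum_le_sum fun i hi => mul_le_mul_of_nonneg_left (hmin i hi) (hp i)

theorem SEL_proof (hBas : BasStmt) (hRho : RhoStmt) (hMh : MhStmt) : SelStmt := by
  intro X _ d N hd hN A _ w c c' μ μ' x x' ε hw hok hε
  rcases isEmpty_or_nonempty X with hX | hX
  · refine ⟨fun _ _ y => isEmptyElim y, fun _ _ y => isEmptyElim y, ?_⟩
    have : IsEmpty A := ⟨fun a => isEmptyElim (x a)⟩
    simp [hε.le]
  obtain ⟨⟨hfw1, hfw0⟩, -, hcen, -⟩ := hBas X d N hd hN
  obtain ⟨ρ, hρ1, hρ2, hρ⟩ := hRho (A × Option X) (fun p => w p.1) (fun p => c p.1 p.2 (x p.1))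
    (fun p => c' p.1 p.2 (x' p.1)) (fun p => hw p.1)
  set w' : A → ℝ := fun a =>
    w a * (if 1 / 4 ≤ cm (c a) (x a) ∧ 1 / 4 ≤ cm (c' a) (x' a) then 1 else 0) with hw'
  have hw'0 : ∀ a, 0 ≤ w' a := by
    intro a
    refine mul_nonneg (hw a) ?_
    split_ifs <;> norm_num
  obtain ⟨l₀, hl₀, hJ⟩ := SEL_avg (Icc 1 N) (fw N)
    (fun l => ∑ a, w' a * jac (cut d (μ a) (x a) (rad N l)) (cut d (μ' a) (x' a) (rad N l)))
    hfw0 hfw1
  have hN0 : (0 : ℝ) < N := by exact_mod_cast hN
  have hrad0 : 0 ≤ rad N l₀ := by unfold rad; positivity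
  have hrad2 : rad N l₀ ≤ 2 := by
    unfold rad
    have h1 : (l₀ : ℝ) ≤ N := by exact_mod_cast (mem_Icc.1 hl₀).2
    have h2 : (l₀ : ℝ) / N ≤ 1 := by rw [div_le_one hN0]; exact h1
    linarith
  have hcut0 : ∀ (ν : X → ℝ), Tok d ν → ∀ y R z, 0 ≤ cut d ν y R z := by
    intro ν hν y R z
    unfold cut
    split_ifs
    · exact (hν.1 z).le
    · exact le_rfl
  obtain ⟨sel, hsel, hM⟩ := hMh X A w' (fun a => cut d (μ a) (x a) (rad N l₀))
    (fun a => cut d (μ' a) (x' a) (rad N l₀)) ε hw'0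
    (fun a z => ⟨hcut0 _ (hok a).2.1 _ _ _, hcut0 _ (hok a).2.2.2 _ _ _⟩) hε
  refine ⟨fun c₁ μ₁ y => if h : ∃ h, c₁ h y < ρ then Sum.inl h.choose
    else Sum.inr (sel (cut d μ₁ y (rad N l₀))), fun c₁ μ₁ y => ⟨fun h hh => ?_, fun hμ z hz => ?_⟩,
    ?_⟩
  · simp only at hh
    split_ifs at hh with hex
    · have h1 := hex.choose_spec
      rw [Sum.inl.injEq] at hh
      rw [hh] at h1
      linarith
  · simp only at hz
    split_ifs at hz with hex
    rw [Sum.inr.injEq] at hz
    have h1 : 0 < cut d μ₁ y (rad N l₀) (sel (cut d μ₁ y (rad N l₀))) := by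
      refine hsel _ ⟨y, ?_⟩
      unfold cut
      rw [if_pos (by rw [hd.self]; exact hrad0)]
      exact hμ.1 y
    rw [hz] at h1
    unfold cut at h1
    split_ifs at h1 with h2
    · linarith
    · exact absurd h1 (lt_irrefl _)
  · -- the cost
    have hpt : ∀ a, (if (if h : ∃ h, c a h (x a) < ρ then (Sum.inl h.choose : Option X ⊕ X)
          else Sum.inr (sel (cut d (μ a) (x a) (rad N l₀)))) =
        (if h : ∃ h, c' a h (x' a) < ρ then (Sum.inl h.choose : Option X ⊕ X)
          else Sum.inr (sel (cut d (μ' a) (x' a) (rad N l₀)))) then (0 : ℝ) else 1) ≤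
        (∑ h, if (c a h (x a) < ρ ↔ c' a h (x' a) < ρ) then (0 : ℝ) else 1) +
          (if 1 / 4 ≤ cm (c a) (x a) ∧ 1 / 4 ≤ cm (c' a) (x' a) then 1 else 0) *
            (if sel (cut d (μ a) (x a) (rad N l₀)) = sel (cut d (μ' a) (x' a) (rad N l₀))
              then (0 : ℝ) else 1) := by
      intro a
      have hs0 : ∀ h : Option X,
          (0 : ℝ) ≤ if (c a h (x a) < ρ ↔ c' a h (x' a) < ρ) then (0 : ℝ) else 1 := by
        intro h; split_ifs <;> norm_num
      have ht0 : (0 : ℝ) ≤ (if 1 / 4 ≤ cm (c a) (x a) ∧ 1 / 4 ≤ cm (c' a) (x' a) then 1 else 0) *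
            (if sel (cut d (μ a) (x a) (rad N l₀)) = sel (cut d (μ' a) (x' a) (rad N l₀))
              then (0 : ℝ) else 1) := by
        split_ifs <;> norm_num
      by_cases hall : ∀ h, (c a h (x a) < ρ ↔ c' a h (x' a) < ρ)
      · by_cases hex : ∃ h, c a h (x a) < ρ
        · have hex' : ∃ h, c' a h (x' a) < ρ := by
            obtain ⟨h, hh⟩ := hex
            exact ⟨h, (hall h).1 hh⟩
          have heq : hex.choose = hex'.choose := by
            by_contra hne
            have h1 := hex.choose_spec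
            have h2 := (hall _).2 hex'.choose_spec
            have h3 := (hok a).1.2 _ _ (x a) hne
            linarith
          rw [dif_pos hex, dif_pos hex', heq, if_pos rfl]
          exact add_nonneg (Finset.sum_nonneg fun h _ => hs0 h) ht0
        · have hex' : ¬ ∃ h, c' a h (x' a) < ρ := by
            rintro ⟨h, hh⟩
            exact hex ⟨h, (hall h).2 hh⟩
          have h1 : 1 / 4 ≤ cm (c a) (x a) := by
            obtain ⟨h, hh⟩ := (hcen (c a) (hok a).1 (x a)).2.2.1
            have := not_lt.1 (fun hl => hex ⟨h, hl⟩)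
            rw [hh]; linarith
          have h2 : 1 / 4 ≤ cm (c' a) (x' a) := by
            obtain ⟨h, hh⟩ := (hcen (c' a) (hok a).2.2.1 (x' a)).2.2.1
            have := not_lt.1 (fun hl => hex' ⟨h, hl⟩)
            rw [hh]; linarith
          rw [dif_neg hex, dif_neg hex', if_pos (And.intro h1 h2), one_mul]
          simp only [Sum.inr.injEq]
          have := Finset.sum_nonneg (s := univ) fun h _ => hs0 h
          linarith
      · obtain ⟨h, hh⟩ := not_forall.1 hall
        have h1 : (1 : ℝ) ≤ ∑ h, if (c a h (x a) < ρ ↔ c' a h (x' a) < ρ) then (0 : ℝ) else 1 := by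
          have := Finset.single_le_sum
            (f := fun h => if (c a h (x a) < ρ ↔ c' a h (x' a) < ρ) then (0 : ℝ) else 1)
            (fun h _ => hs0 h) (mem_univ h)
          simp only [if_neg hh] at this
          exact this
        refine le_trans ?_ (add_le_add h1 ht0)
        split_ifs <;> norm_num
    have hρ' : ∑ a, w a * (∑ h, if (c a h (x a) < ρ ↔ c' a h (x' a) < ρ) then (0 : ℝ) else 1) ≤
        ∑ a, w a * cH (c a) (x a) (c' a) (x' a) := by
      rw [Fintype.sum_prod_type, Fintype.sum_prod_type] at hρ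
      simp only [← Finset.mul_sum] at hρ
      unfold cH
      exact hρ
    have hJ' : ∑ l ∈ Icc 1 N, fw N l * ∑ a, w' a *
          jac (cut d (μ a) (x a) (rad N l)) (cut d (μ' a) (x' a) (rad N l)) =
        ∑ a, w' a * cL d N (μ a) (x a) (μ' a) (x' a) := by
      unfold cL
      simp only [Finset.mul_sum]
      rw [Finset.sum_comm]
      refine Finset.sum_congr rfl fun a _ => Finset.sum_congr rfl fun l _ => ?_
      ring
    have hc : ∑ a, w a * cost d N (c a) (μ a) (x a) (c' a) (μ' a) (x' a) =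
        ∑ a, w a * cH (c a) (x a) (c' a) (x' a) + ∑ a, w' a * cL d N (μ a) (x a) (μ' a) (x' a) := by
      rw [← Finset.sum_add_distrib]
      refine Finset.sum_congr rfl fun a _ => ?_
      unfold cost
      simp only [hw']
      split_ifs <;> ring
    refine le_trans (Finset.sum_le_sum fun a _ => mul_le_mul_of_nonneg_left (hpt a) (hw a)) ?_
    simp only [mul_add]
    rw [Finset.sum_add_distrib, hc]
    have hM' : ∑ a, w a * ((if 1 / 4 ≤ cm (c a) (x a) ∧ 1 / 4 ≤ cm (c' a) (x' a) then 1 else 0) *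
            (if sel (cut d (μ a) (x a) (rad N l₀)) = sel (cut d (μ' a) (x' a) (rad N l₀))
              then (0 : ℝ) else 1)) =
        ∑ a, w' a * (if sel (cut d (μ a) (x a) (rad N l₀)) = sel (cut d (μ' a) (x' a) (rad N l₀))
              then (0 : ℝ) else 1) := by
      refine Finset.sum_congr rfl fun a _ => ?_
      simp only [hw']
      ring
    rw [hM']
    rw [hJ'] at hJ
    linarith

end Crest.Agent.R314E
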