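import Crest.Agent.R314E.Defs

/-! Row 314, part (E), task SMI. -/

set_option autoImplicit false

namespace Crest.Agent.R314E

open Finset Crest.Agent.KS
open scoped Classical

namespace Smi

/-- the recursive majorant -/
noncomputable def II (G : ℕ → ℝ) : ℕ → ℝ
  | 0 => 6 * G 0
  | l + 1 => II G l / 4 + 6 * (G (l + 1) - G l)

theorem II_sum (G : ℕ → ℝ) (J : ℕ) : ∑ l ∈ range (J + 1), II G l + II G J / 3 = 8 * G J := by
  induction J with
  | zero => simp [II]; ring
  | succ J ih =>
    rw [sum_range_succ]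
    have : II G (J + 1) = II G J / 4 + 6 * (G (J + 1) - G J) := rfl
    linarith

theorem II_nonneg (G : ℕ → ℝ) (h0 : 0 ≤ G 0) (hG : ∀ l, G l ≤ G (l + 1)) (l : ℕ) : 0 ≤ II G l := by
  induction l with
  | zero => simp only [II]; linarith
  | succ l ih =>
    have : II G (l + 1) = II G l / 4 + 6 * (G (l + 1) - G l) := rfl
    linarith [hG l]

theorem key (H : ℝ → ℝ) (hH : ∀ u v, 0 ≤ u → u ≤ v → H u ≤ H v) (h0 : ∀ u, 0 ≤ u → 0 ≤ H u)
    (lam : ℝ) (hlam : 0 < lam) (l : ℕ) : ∀ ρ : ℝ, 0 < ρ → ρ ≤ 30 →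
      √ρ * (H (30 * (lam * 16 ^ l)) - H (ρ * (lam * 16 ^ l))) ≤
        II (fun l => H (30 * (lam * 16 ^ l))) l := by
  have hs : ∀ ρ : ℝ, ρ ≤ 30 → √ρ ≤ 6 := fun ρ h =>
    Real.sqrt_le_iff.2 ⟨by norm_num, by linarith⟩
  have hG : ∀ l : ℕ, H (30 * (lam * 16 ^ l)) ≤ H (30 * (lam * 16 ^ (l + 1))) := by
    intro l
    have : 0 < lam * 16 ^ l := by positivity
    apply hH _ _ (by positivity)
    rw [pow_succ]; nlinarith
  induction l with
  | zero =>
    intro ρ h1 h2
    simp only [II]
    have a1 := h0 (ρ * (lam * 16 ^ 0)) (by positivity)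
    have a2 := h0 (30 * (lam * 16 ^ 0)) (by positivity)
    have a3 := hs ρ h2
    have a4 := Real.sqrt_nonneg ρ
    nlinarith
  | succ l ih =>
    intro ρ h1 h2
    have e : II (fun l => H (30 * (lam * 16 ^ l))) (l + 1) =
        II (fun l => H (30 * (lam * 16 ^ l))) l / 4 +
          6 * (H (30 * (lam * 16 ^ (l + 1))) - H (30 * (lam * 16 ^ l))) := rfl
    have hI := II_nonneg (fun l => H (30 * (lam * 16 ^ l))) (h0 _ (by positivity)) hG l
    have a3 := hs ρ h2
    have a4 := Real.sqrt_nonneg ρ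
    have a5 := hG l
    have hp : 0 < lam * 16 ^ l := by positivity
    have e2 : ρ * (lam * 16 ^ (l + 1)) = (16 * ρ) * (lam * 16 ^ l) := by rw [pow_succ]; ring
    rw [e, e2]
    by_cases h : 16 * ρ ≤ 30
    · have b1 := ih (16 * ρ) (by positivity) h
      have b2 : √(16 * ρ) = 4 * √ρ := by
        rw [Real.sqrt_mul (by norm_num), show (16 : ℝ) = 4 ^ 2 by norm_num,
          Real.sqrt_sq (by norm_num)]
      rw [b2] at b1
      nlinarith
    · have b1 : H (30 * (lam * 16 ^ l)) ≤ H (16 * ρ * (lam * 16 ^ l)) :=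
        hH _ _ (by positivity) (by nlinarith)
      nlinarith

end Smi

theorem SMI_proof : SmiStmt := by
  intro k hk X _ _ lam hlam m0 ν r hD
  have hp : ∀ x, 0 ≤ post m0 r x := fun x => by
    unfold post; have := hD.m0_nonneg x; split_ifs <;> linarith
  have hmono : ∀ u v, u ≤ v → W dist (post m0 r) r u ≤ W dist (post m0 r) r v := by
    intro u v h
    unfold W cut
    refine sum_le_sum fun z _ => ?_
    have := hp z
    split_ifs with h1 h2
    · exact le_rfl
    · exact absurd (h1.trans h) h2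
    · exact this
    · exact le_rfl
  have hone : ∀ u, 0 ≤ u → 1 ≤ W dist (post m0 r) r u := by
    intro u hu
    unfold W
    have h1 : cut dist (post m0 r) r u r ≤ ∑ z, cut dist (post m0 r) r u z :=
      single_le_sum (f := fun z => cut dist (post m0 r) r u z)
        (fun z _ => by unfold cut; have := hp z; split_ifs <;> linarith) (mem_univ r)
    have h2 : 1 ≤ cut dist (post m0 r) r u r := by
      unfold cut post
      have := hD.m0_nonneg r
      simp only [dist_self, hu, if_true]
      linarith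
    linarith
  have htop : ∀ u, W dist (post m0 r) r u ≤ k := by
    intro u
    have h1 : W dist (post m0 r) r u ≤ ∑ z, post m0 r z := by
      unfold W cut
      refine sum_le_sum fun z _ => ?_
      have := hp z
      split_ifs <;> linarith
    have h2 : ∑ z, post m0 r z = ∑ z, m0 z + 1 := by
      unfold post
      rw [sum_add_distrib]
      simp
    linarith [hD.tot]
  have hsc : ∀ (l : ℕ) (ρ : ℝ), W (dsc lam l) (post m0 r) r ρ =
      W dist (post m0 r) r (ρ * (lam * 16 ^ l)) := by
    intro l ρ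
    unfold W cut dsc
    refine sum_congr rfl fun z _ => ?_
    have : 0 < lam * 16 ^ l := by positivity
    simp only [div_le_iff₀ this]
  set H : ℝ → ℝ := fun v => Real.log (W dist (post m0 r) r v) with hHdef
  have hH : ∀ u v, 0 ≤ u → u ≤ v → H u ≤ H v := fun u v hu h =>
    Real.log_le_log (by linarith [hone u hu]) (hmono u v h)
  have h0 : ∀ u, 0 ≤ u → 0 ≤ H u := fun u hu => Real.log_nonneg (hone u hu)
  have hk' : ∀ u, 0 ≤ u → H u ≤ Real.log (k + 1) := fun u hu =>
    Real.log_le_log (by linarith [hone u hu]) (by linarith [htop u])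
  refine ⟨Smi.II (fun l => H (30 * (lam * 16 ^ l))), fun l ρ h1 h2 => ?_, fun J => ?_⟩
  · have := Smi.key H hH h0 lam hlam l ρ h1 h2
    unfold Am
    rw [hsc, hsc, Real.log_div]
    · exact this
    · linarith [hone (30 * (lam * 16 ^ l)) (by positivity)]
    · linarith [hone (ρ * (lam * 16 ^ l)) (by positivity)]
  · have hG : ∀ l : ℕ, H (30 * (lam * 16 ^ l)) ≤ H (30 * (lam * 16 ^ (l + 1))) := by
      intro l
      have : 0 < lam * 16 ^ l := by positivity
      apply hH _ _ (by positivity)
      rw [pow_succ]; nlinarith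
    have hI := Smi.II_nonneg (fun l => H (30 * (lam * 16 ^ l))) (h0 _ (by positivity)) hG J
    have h1 := Smi.II_sum (fun l => H (30 * (lam * 16 ^ l))) J
    rw [sum_range_succ] at h1
    have h2 := hk' (30 * (lam * 16 ^ J)) (by positivity)
    linarith

end Crest.Agent.R314E
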