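import Crest.Agent.R314E.Defs
import Crest.Agent.KS.ELem

/-! Row 314 (E): sums over the scales. -/

set_option autoImplicit false

namespace Crest.Agent.R314E

open Finset Crest.Agent.KS
open scoped Classical

namespace Smq

theorem above (lam D : ℝ) (hlam : 0 < lam) (J : ℕ) :
    ∑ l ∈ range J, (if D ≤ lam * 16 ^ l then D / (lam * 16 ^ l) else 0) ≤ 16 / 15 := by
  have key : ∀ J, ∑ l ∈ range J, (if D ≤ lam * 16 ^ l then D / (lam * 16 ^ l) else 0) ≤
      max 0 (16 / 15 - 16 / 15 * (D / (lam * 16 ^ J))) ∨ D < 0 := by
    intro J
    rcases lt_or_ge D 0 with hD | hD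
    · exact Or.inr hD
    left
    induction J with
    | zero => simp
    | succ J ih =>
      rw [Finset.sum_range_succ]
      have hs : 0 < lam * 16 ^ J := by positivity
      have e : D / (lam * 16 ^ (J + 1)) = D / (lam * 16 ^ J) / 16 := by
        rw [pow_succ]; field_simp
      split_ifs with h
      · have h1 : D / (lam * 16 ^ J) ≤ 1 := (div_le_one hs).2 h
        rw [max_eq_right (by linarith)] at ih
        refine le_trans ?_ (le_max_right _ _)
        rw [e]
        linarith
      · push Not at h
        have h1 : 1 ≤ D / (lam * 16 ^ J) := (one_le_div hs).2 h.le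
        rw [max_eq_left (by linarith)] at ih
        rw [add_zero]
        exact ih.trans (le_max_left _ _)
  rcases lt_or_ge D 0 with hD | hD
  · refine le_trans (Finset.sum_nonpos fun l _ => ?_) (by norm_num)
    split_ifs
    · exact div_nonpos_of_nonpos_of_nonneg hD.le (by positivity)
    · exact le_rfl
  · rcases key J with h | h
    · refine h.trans (max_le (by norm_num) ?_)
      have : 0 ≤ D / (lam * 16 ^ J) := by positivity
      linarith
    · linarith

theorem below (lam D : ℝ) (hlam : 0 < lam) (hD : 0 ≤ D) (J : ℕ) :
    ∑ l ∈ range J, (if lam * 16 ^ l ≤ D then lam * 16 ^ l else 0) ≤ 16 / 15 * D := by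
  have key : ∀ J, ∑ l ∈ range J, (if lam * 16 ^ l ≤ D then lam * 16 ^ l else 0) ≤ 16 / 15 * D ∧
      ∑ l ∈ range J, (if lam * 16 ^ l ≤ D then lam * 16 ^ l else 0) ≤ lam * 16 ^ J / 15 := by
    intro J
    induction J with
    | zero =>
      simp only [range_zero, sum_empty]
      constructor <;> positivity
    | succ J ih =>
      rw [Finset.sum_range_succ]
      have hs : 0 < lam * 16 ^ J := by positivity
      have e : lam * 16 ^ (J + 1) = 16 * (lam * 16 ^ J) := by rw [pow_succ]; ring
      rw [e]
      split_ifs with h
      · constructor <;> linarith [ih.1, ih.2]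
      · constructor <;> linarith [ih.1, ih.2]
  exact (key J).1

end Smq

theorem SMQ_proof : SmqStmt := by
  intro k hk X _ _ lam hlam m0 ν r hD
  have hk' : (2 : ℝ) ≤ k := by exact_mod_cast hk
  have hp0 : ∀ x, 0 ≤ post m0 r x := by
    intro x
    unfold post
    have := hD.m0_nonneg x
    split_ifs <;> linarith
  have hpm : ∀ x, m0 x ≤ post m0 r x := by
    intro x
    unfold post
    split_ifs <;> linarith
  have hpr : 1 ≤ post m0 r r := by
    unfold post
    have := hD.m0_nonneg r
    rw [if_pos rfl]
    linarith
  have hptot : ∑ x, post m0 r x = ∑ x, m0 x + 1 := by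
    unfold post
    rw [Finset.sum_add_distrib, Finset.sum_ite_eq' univ r (fun _ => (1 : ℝ)), if_pos (mem_univ _)]
  have hW : ∀ R : ℝ, W dist (post m0 r) r R =
      ∑ z ∈ univ.filter (fun z => dist r z ≤ R), post m0 r z := by
    intro R
    unfold W cut
    rw [Finset.sum_filter]
  have hW1 : ∀ R : ℝ, 0 ≤ R → 1 ≤ W dist (post m0 r) r R := by
    intro R hR
    rw [hW]
    refine hpr.trans (Finset.single_le_sum (f := post m0 r) (fun z _ => hp0 z) ?_)
    simp [hR]
  have hL1 : 1 ≤ Real.log (k + 1) := by
    rw [Real.le_log_iff_exp_le (by positivity)]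
    have := Real.exp_one_lt_d9
    linarith
  have h1 : ∑ x, post m0 r x / W dist (post m0 r) r (dist r x) ≤ 2 * Real.log (k + 1) := by
    have h := ELem.sum_div_cum (fun z => dist r z) (post m0 r) hp0 0 1 one_pos univ
      (by rw [← hW]; exact hW1 0 le_rfl)
    have h2 : ∀ x, W dist (post m0 r) r (dist r x) =
        ∑ z ∈ univ.filter (fun z => dist r z ≤ max (dist r x) 0), post m0 r z := by
      intro x
      rw [hW, max_eq_left dist_nonneg]
    simp only [h2]
    refine h.trans ?_
    have h3 : Real.log (∑ x, post m0 r x) ≤ Real.log (k + 1) := by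
      apply Real.log_le_log
      · rw [hptot]
        have := Finset.sum_nonneg (s := univ) fun x _ => hD.m0_nonneg x
        linarith
      · rw [hptot]
        have := hD.tot
        linarith
    rw [Real.log_one]
    linarith
  refine ⟨h1, ?_, ?_, ?_⟩
  · intro J
    have h2 : ∀ l, Yr (dsc lam l) m0 r ≤ ∑ x, post m0 r x / W dist (post m0 r) r (dist r x) *
        (30 * if dist r x / 30 ≤ lam * 16 ^ l then dist r x / 30 / (lam * 16 ^ l) else 0) := by
      intro l
      have hs : 0 < lam * 16 ^ l := by positivity
      unfold Yr
      rw [Finset.sum_div]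
      refine Finset.sum_le_sum fun x _ => ?_
      have hiff : dsc lam l r x ≤ 30 ↔ dist r x / 30 ≤ lam * 16 ^ l := by
        unfold dsc
        rw [div_le_iff₀ hs, div_le_iff₀ (by norm_num), mul_comm]
      have hWx := hW1 (dist r x) dist_nonneg
      by_cases hx : dsc lam l r x ≤ 30
      · rw [if_pos hx, if_pos (hiff.1 hx)]
        have h3 : W dist (post m0 r) r (dist r x) ≤ Am (dsc lam l) m0 r := by
          unfold Am W cut
          refine Finset.sum_le_sum fun z _ => ?_
          by_cases hz : dist r z ≤ dist r x
          · have hz' : dsc lam l r z ≤ 30 := by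
              refine le_trans ?_ hx
              unfold dsc
              exact div_le_div_of_nonneg_right hz hs.le
            rw [if_pos hz, if_pos hz']
          · rw [if_neg hz]
            split_ifs
            · exact hp0 z
            · exact le_rfl
        have h4 : 30 * (dist r x / 30 / (lam * 16 ^ l)) = dsc lam l r x := by
          unfold dsc
          field_simp
        have h5 : 0 ≤ dsc lam l r x := by unfold dsc; positivity
        rw [h4, mul_div_right_comm]
        apply mul_le_mul_of_nonneg_right _ h5
        exact div_le_div₀ (hp0 x) (hpm x) (by linarith) h3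
      · rw [if_neg hx, if_neg (fun h => hx (hiff.2 h))]
        simp
    calc ∑ l ∈ range J, Yr (dsc lam l) m0 r
        ≤ ∑ l ∈ range J, ∑ x, post m0 r x / W dist (post m0 r) r (dist r x) *
          (30 * if dist r x / 30 ≤ lam * 16 ^ l then dist r x / 30 / (lam * 16 ^ l) else 0) :=
          Finset.sum_le_sum fun l _ => h2 l
      _ = ∑ x, post m0 r x / W dist (post m0 r) r (dist r x) * (30 * ∑ l ∈ range J,
          if dist r x / 30 ≤ lam * 16 ^ l then dist r x / 30 / (lam * 16 ^ l) else 0) := by
          rw [Finset.sum_comm]
          refine Finset.sum_congr rfl fun x _ => ?_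
          rw [Finset.mul_sum, Finset.mul_sum]
      _ ≤ ∑ x, post m0 r x / W dist (post m0 r) r (dist r x) * 32 := by
          refine Finset.sum_le_sum fun x _ => ?_
          have hWx := hW1 (dist r x) dist_nonneg
          apply mul_le_mul_of_nonneg_left _ (div_nonneg (hp0 x) (by linarith))
          have := Smq.above lam (dist r x / 30) hlam J
          linarith
      _ ≤ 64 * Real.log (k + 1) := by
          rw [← Finset.sum_mul]
          linarith
  · intro J
    have h2 : ∀ l, lam * 16 ^ l * D2 (dsc lam l) ν r ≤ ∑ x, ν x *
        ((if lam * 16 ^ l ≤ dist r x then lam * 16 ^ l else 0) +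
          dist r x * if dist r x ≤ lam * 16 ^ l then dist r x / (lam * 16 ^ l) else 0) := by
      intro l
      have hs : 0 < lam * 16 ^ l := by positivity
      unfold D2
      rw [Finset.mul_sum]
      refine Finset.sum_le_sum fun x _ => ?_
      rw [mul_left_comm]
      apply mul_le_mul_of_nonneg_left _ (hD.ν_nonneg x)
      unfold dsc
      have hd : 0 ≤ dist r x := dist_nonneg
      rcases le_total (dist r x) (lam * 16 ^ l) with h | h
      · rw [min_eq_left ((div_le_one hs).2 h), if_pos h]
        have e : lam * 16 ^ l * (dist r x / (lam * 16 ^ l)) ^ 2 =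
            dist r x * (dist r x / (lam * 16 ^ l)) := by
          field_simp
        rw [e]
        split_ifs <;> linarith
      · rw [min_eq_right ((one_le_div hs).2 h), if_pos h]
        have : 0 ≤ dist r x * if dist r x ≤ lam * 16 ^ l then dist r x / (lam * 16 ^ l) else 0 := by
          split_ifs <;> positivity
        linarith
    calc ∑ l ∈ range J, lam * 16 ^ l * D2 (dsc lam l) ν r
        ≤ ∑ l ∈ range J, ∑ x, ν x * ((if lam * 16 ^ l ≤ dist r x then lam * 16 ^ l else 0) +
          dist r x * if dist r x ≤ lam * 16 ^ l then dist r x / (lam * 16 ^ l) else 0) :=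
          Finset.sum_le_sum fun l _ => h2 l
      _ = ∑ x, ν x * ((∑ l ∈ range J, if lam * 16 ^ l ≤ dist r x then lam * 16 ^ l else 0) +
          dist r x * ∑ l ∈ range J,
            if dist r x ≤ lam * 16 ^ l then dist r x / (lam * 16 ^ l) else 0) := by
          rw [Finset.sum_comm]
          refine Finset.sum_congr rfl fun x _ => ?_
          rw [← Finset.mul_sum, Finset.sum_add_distrib, Finset.mul_sum]
      _ ≤ ∑ x, ν x * (3 * dist r x) := by
          refine Finset.sum_le_sum fun x _ => ?_
          apply mul_le_mul_of_nonneg_left _ (hD.ν_nonneg x)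
          have hd : 0 ≤ dist r x := dist_nonneg
          have a1 := Smq.below lam (dist r x) hlam hd J
          have a2 := mul_le_mul_of_nonneg_left (Smq.above lam (dist r x) hlam J) hd
          linarith
      _ = 3 * ∑ x, ν x * dist r x := by
          rw [Finset.mul_sum]
          exact Finset.sum_congr rfl fun x _ => by ring
  · intro l
    have hs : 0 < lam * 16 ^ l := by positivity
    unfold D1
    rw [Finset.mul_sum]
    refine Finset.sum_le_sum fun x _ => ?_
    rw [mul_left_comm]
    apply mul_le_mul_of_nonneg_left _ (hD.ν_nonneg x)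
    unfold dsc
    calc lam * 16 ^ l * min (dist r x / (lam * 16 ^ l)) 1
        ≤ lam * 16 ^ l * (dist r x / (lam * 16 ^ l)) :=
          mul_le_mul_of_nonneg_left (min_le_left _ _) hs.le
      _ = dist r x := by field_simp

end Crest.Agent.R314E
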