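import Crest.Agent.R314E.Defs

/-! Row 314 (E): the step at one scale. -/

set_option autoImplicit false

namespace Crest.Agent.R314E

open Finset Crest.Agent.KS
open scoped Classical

namespace STP

variable {X : Type} [Fintype X] {d : X → X → ℝ}

omit [Fintype X] in
theorem d_nonneg (hd : IsM d) (x y : X) : 0 ≤ d x y := by
  have h1 := hd.tri x y x
  rw [hd.self, hd.symm y x] at h1
  linarith

theorem one_le_Am (hd : IsM d) {k : ℕ} {m0 ν : X → ℝ} (h : Dat k m0 ν) (r : X) :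
    1 ≤ Am d m0 r := by
  unfold Am W
  have h1 : cut d (post m0 r) r 30 r ≤ ∑ z, cut d (post m0 r) r 30 z :=
    single_le_sum (f := cut d (post m0 r) r 30) (fun z _ => by
      have := h.m0_nonneg z
      unfold cut post
      split_ifs <;> linarith) (mem_univ r)
  have h2 : cut d (post m0 r) r 30 r = m0 r + 1 := by
    simp [cut, post, hd.self]
  linarith [h.m0_nonneg r]

theorem D1_sq_le {k : ℕ} {m0 ν : X → ℝ} (h : Dat k m0 ν) (r : X) : D1 d ν r ^ 2 ≤ D2 d ν r := by
  have h1 : 0 ≤ ∑ x, ν x * (min (d r x) 1 - D1 d ν r) ^ 2 :=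
    sum_nonneg fun x _ => mul_nonneg (h.ν_nonneg x) (sq_nonneg _)
  have h2 : ∑ x, ν x * (min (d r x) 1 - D1 d ν r) ^ 2 =
      D2 d ν r - 2 * D1 d ν r * D1 d ν r + D1 d ν r ^ 2 * ∑ x, ν x := by
    conv_rhs => rw [D2, mul_sum]
    nth_rewrite 3 [D1]
    rw [mul_sum, ← sum_sub_distrib, ← sum_add_distrib]
    exact sum_congr rfl fun x _ => by ring
  rw [h2, h.ν_sum] at h1
  nlinarith

omit [Fintype X] in
theorem shift_self {e : ℝ} (he : 0 ≤ e) (r : X) (c : Option X → X → ℝ) : Shift d e r c c := by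
  intro h x x' _ _ y
  rw [sub_self, abs_zero]
  split_ifs
  exacts [he, le_rfl]

omit [Fintype X] in
theorem shift_mono {e : ℝ} (he : 0 ≤ e) {r : X} {c c' : Option X → X → ℝ} (h : Shift d 0 r c c') :
    Shift d e r c c' := by
  intro a x x' h1 h2 y
  have := h a x x' h1 h2 y
  split_ifs at this ⊢
  · exact this.trans he
  · exact this

end STP

open STP in
theorem STP_proof (hBas : BasStmt) (hNl : NlStmt) (hCr : CrStmt) (hMv : MvStmt) : StpStmt := by
  obtain ⟨C1, hC1, hNl⟩ := hNl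
  obtain ⟨C2, hC2, hMv⟩ := hMv
  refine ⟨8193 * C1 + 32 + C2, by positivity, ?_⟩
  intro k hk X _ d N hd hG m0 ν r c μ hD hc hμ
  have hL : 1 ≤ Real.log (k + 1) := by
    have h3 : (3 : ℝ) ≤ k + 1 := by exact_mod_cast (by omega : 3 ≤ k + 1)
    have : Real.exp 1 ≤ k + 1 := by linarith [Real.exp_one_lt_d9]
    exact (Real.le_log_iff_exp_le (by linarith)).2 this
  have hA := one_le_Am hd hD r
  have hterm : ∀ x, 0 ≤ ν x * min (d r x) 1 := fun x =>
    mul_nonneg (hD.ν_nonneg x) (le_min (d_nonneg hd r x) zero_le_one)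
  have hD1 : 0 ≤ D1 d ν r := sum_nonneg fun x _ => hterm x
  have hsq := D1_sq_le (d := d) hD r
  have hD2 : 0 ≤ D2 d ν r := (sq_nonneg _).trans hsq
  have hLD : D2 d ν r ≤ Real.log (k + 1) * D2 d ν r := le_mul_of_one_le_left hD2 hL
  have hY : 0 ≤ Yr d m0 r := by
    refine div_nonneg (sum_nonneg fun x _ => ?_) (by linarith)
    split_ifs
    exacts [mul_nonneg (hD.m0_nonneg x) (d_nonneg hd r x), le_rfl]
  have he : 0 ≤ 4 * D1 d ν r / Am d m0 r := div_nonneg (by linarith) (by linarith)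
  have hI : ∀ I, IsI d m0 r I → 0 ≤ I := fun I h => by
    have := h 30 (by norm_num) le_rfl
    change _ * Real.log (Am d m0 r / Am d m0 r) ≤ I at this
    rwa [div_self (by linarith), Real.log_one, mul_zero] at this
  rcases hD1.eq_or_lt with h0 | hpos
  · refine ⟨c, μ, hc, hμ, shift_self he r c, fun I hI' => ?_⟩
    obtain ⟨-, hT, -⟩ := hBas X d N hd hG.1
    have hcost : ∀ x, cost d N c μ x c μ x = 0 := fun x => by
      simp [cost, cH, (hT μ hμ x).2.2.1]
    have hν : ∀ x, x ≠ r → ν x = 0 := fun x hx => by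
      have h1 := (sum_eq_zero_iff_of_nonneg (fun x _ => hterm x)).1 h0.symm x (mem_univ x)
      have h2 : (0 : ℝ) < 1 / (N : ℝ) := by
        have : (1 : ℝ) ≤ N := by exact_mod_cast hG.1
        positivity
      have h3 : 0 < min (d r x) 1 := lt_min (h2.trans_le (hG.2 r x hx.symm)) one_pos
      exact (mul_eq_zero.1 h1).resolve_right h3.ne'
    have hnet : net d N m0 ν r c μ c μ = 0 := by
      unfold net
      rw [sum_eq_zero fun x _ => by rw [hcost]; ring, sum_eq_zero, add_zero]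
      intro x _
      by_cases hx : x = r
      · rw [hx, hcost]; ring
      · rw [hν x hx, zero_mul]
    rw [hnet]
    have := hI I hI'
    positivity
  by_cases hbig : 1 / 8192 < D1 d ν r ∨ 1 / 8192 < Yr d m0 r
  · obtain ⟨μ', hμ', hnet⟩ := hNl k hk X d N hd hG m0 ν r c μ hD hc hμ hpos
    refine ⟨c, μ', hc, hμ', shift_self he r c, fun I hI' => (hnet I hI').trans ?_⟩
    have hI0 := hI I hI'
    have h1 : 0 ≤ D1 d ν r * I := mul_nonneg hD1 hI0
    have h2 : 0 ≤ D1 d ν r * Yr d m0 r := mul_nonneg hD1 hY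
    have h3 : D1 d ν r ≤ 8192 * (D1 d ν r * Yr d m0 r + Real.log (k + 1) * D2 d ν r) := by
      rcases hbig with h | h <;> nlinarith
    have h4 : D1 d ν r * (1 + I) + Real.log (k + 1) * D2 d ν r ≤
        8193 * (D1 d ν r * (I + Yr d m0 r) + Real.log (k + 1) * D2 d ν r) := by nlinarith
    have h5 := mul_le_mul_of_nonneg_left h4 hC1
    have h6 : 0 ≤ (32 + C2) * (D1 d ν r * (I + Yr d m0 r) + Real.log (k + 1) * D2 d ν r) := by
      positivity
    nlinarith
  push Not at hbig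
  have hR : ∀ I, IsI d m0 r I → D1 d ν r * Yr d m0 r + D2 d ν r ≤
      D1 d ν r * (I + Yr d m0 r) + Real.log (k + 1) * D2 d ν r := fun I h => by
    nlinarith [mul_nonneg hD1 (hI I h)]
  have h2 : 0 ≤ D1 d ν r * Yr d m0 r := mul_nonneg hD1 hY
  by_cases hfar : ∀ h, 1 / 32 < c h r
  · obtain ⟨c', μ', h1, h3, h4, h5⟩ := hCr k X d N hd hG.1 m0 ν r c μ hD hc hμ hbig.1 hbig.2 hfar
    refine ⟨c', μ', h1, h3, shift_mono he h4, fun I hI' => h5.trans ?_⟩
    have h6 := hR I hI'
    have h7 : 0 ≤ (8193 * C1 + C2) *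
        (D1 d ν r * (I + Yr d m0 r) + Real.log (k + 1) * D2 d ν r) :=
      mul_nonneg (by positivity) (by linarith)
    nlinarith
  · push Not at hfar
    obtain ⟨h₀, hh⟩ := hfar
    obtain ⟨c', μ', h1, h3, h4, h5⟩ :=
      hMv k X d N hd hG.1 m0 ν r c μ h₀ hD hc hμ hpos (by linarith [hbig.1]) hh
    refine ⟨c', μ', h1, h3, h4, fun I hI' => h5.trans ?_⟩
    have h6 := mul_le_mul_of_nonneg_left (hR I hI') hC2
    have h7 : 0 ≤ (8193 * C1 + 32) *
        (D1 d ν r * (I + Yr d m0 r) + Real.log (k + 1) * D2 d ν r) :=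
      mul_nonneg (by positivity) (by linarith [hR I hI'])
    nlinarith

end Crest.Agent.R314E
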