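import Crest.Agent.R314E.Defs

/-! Row 314, part E: the states along the time, the tower property and the telescoping sum. -/

set_option autoImplicit false

namespace Crest.Agent.R314E

open Finset Crest.Agent.KS
open scoped Classical

namespace TIM

/-- the states -/
def st {S Ω D : Type} (F : S → D → S) (u₀ : S) (e : ℕ → Ω → D) : ℕ → Ω → S
  | 0 => fun _ => u₀
  | t + 1 => fun ω => F (st F u₀ e t ω) (e t ω)

theorem st_ad {S Ω D : Type} [Fintype Ω] (P : Bay Ω) (F : S → D → S) (u₀ : S) (e : ℕ → Ω → D)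
    (he : ∀ t, P.Ad (t + 1) (e t)) : ∀ t, P.Ad t (st F u₀ e t) := by
  intro t
  induction t with
  | zero => intro a b _; rfl
  | succ t ih =>
    intro a b hab
    simp only [st]
    rw [he t a b hab, ih a b (P.mono t a b hab)]

theorem req_ad {X Ω : Type} [Fintype Ω] (P : Bay Ω) (σ : Ω → ℕ → X) (h : Pref P σ) (t : ℕ) :
    P.Ad (t + 1) (fun ω => σ ω t) := by
  intro a b hab
  have h1 := (h (t + 1) a b).1 hab
  rw [pre_succ, pre_succ] at h1
  have h2 := (List.append_inj' h1 rfl).2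
  simpa using h2

theorem path {X : Type} [Fintype X] {k : ℕ} (p : Fin k → X) (j : Fin k) (r : X)
    (H : X → X → ℝ) :
    ∑ i, H (p i) (Function.update p j r i) =
      ∑ x, (∑ i, if i ≠ j ∧ p i = x then (1 : ℝ) else 0) * H x x +
        ∑ x, (if p j = x then (1 : ℝ) else 0) * H x r := by
  have e1 : ∑ x, (if p j = x then (1 : ℝ) else 0) * H x r = H (p j) r := by
    simp
  have e2 : ∑ x, (∑ i, if i ≠ j ∧ p i = x then (1 : ℝ) else 0) * H x x =
      ∑ i, if i ≠ j then H (p i) (p i) else 0 := by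
    simp only [Finset.sum_mul]
    rw [Finset.sum_comm]
    refine Finset.sum_congr rfl fun i _ => ?_
    by_cases h : i = j
    · simp [h]
    · simp [h]
  rw [e1, e2, ← Finset.add_sum_erase univ _ (mem_univ j),
    ← Finset.add_sum_erase univ (fun i => if i ≠ j then H (p i) (p i) else 0) (mem_univ j)]
  simp only [Function.update_self, ne_eq, not_true_eq_false, if_false, zero_add]
  rw [add_comm]
  congr 1
  refine Finset.sum_congr rfl fun i hi => ?_
  have h := (Finset.mem_erase.1 hi).1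
  rw [if_pos h, Function.update_of_ne h]

theorem cnt_sum {X : Type} [Fintype X] {k : ℕ} (p : Fin k → X) (j : Fin k) :
    ∑ x, (∑ i, if i ≠ j ∧ p i = x then (1 : ℝ) else 0) = k - 1 := by
  have h := path p j (p j) (fun _ _ => (1 : ℝ))
  simp only [mul_one] at h
  have e1 : ∑ x, (if p j = x then (1 : ℝ) else 0) = 1 := by simp
  have e2 : ∑ _i : Fin k, (1 : ℝ) = k := by simp
  rw [e1, e2] at h
  linarith

end TIM

theorem TIM_proof (hBay : KS.BayStmt) : TimStmt := by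
  intro k X _ _ S ok R Θ κ K b u₀ hu₀ hΘ hΘ₀ hstep s n Ω _ P σ j hP
  obtain ⟨hEx, hExS, hco, hcoS, hcoA, htow, hAdm⟩ := hBay Ω P
  have hF : ∀ (u : S) (e : (X → ℝ) × (X → ℝ) × X), ∃ u' : S, ok u → Dat k e.1 e.2.1 →
      ok u' ∧ R u u' ∧ ∑ x, e.1 x * (κ u x u' x + Θ u' x - Θ u x) +
        ∑ x, e.2.1 x * (κ u x u' e.2.2 + Θ u' e.2.2 - Θ u x) ≤
          K * ∑ x, e.2.1 x * dist e.2.2 x := by
    intro u e
    by_cases h : ok u ∧ Dat k e.1 e.2.1
    · obtain ⟨u', h'⟩ := hstep u h.1 e.1 e.2.1 e.2.2 h.2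
      exact ⟨u', fun _ _ => h'⟩
    · exact ⟨u, fun h1 h2 => absurd ⟨h1, h2⟩ h⟩
  choose F hF using hF
  set cf : ℕ → Ω → Fin k → X := fun t ω => optCfg s (σ ω) (j ω) t with hcf
  set c0 : ℕ → Ω → X → ℝ :=
    fun t ω x => ∑ i, if i ≠ j ω t ∧ cf t ω i = x then (1 : ℝ) else 0 with hc0
  set a0 : ℕ → Ω → X → ℝ := fun t ω x => if cf t ω (j ω t) = x then (1 : ℝ) else 0 with ha0
  set e : ℕ → Ω → (X → ℝ) × (X → ℝ) × X := fun t ω =>
    (fun x => P.cond (t + 1) (fun b => c0 t b x) ω,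
      fun x => P.cond (t + 1) (fun b => a0 t b x) ω, σ ω t) with he
  have hreq := TIM.req_ad P σ hP
  have heA : ∀ t, P.Ad (t + 1) (e t) := by
    intro t a b hab
    have h1 : σ a t = σ b t := hreq t a b hab
    simp only [he]
    rw [h1]
    congr 1
    · funext x; exact hcoA (t + 1) _ a b hab
    · congr 1
      funext x; exact hcoA (t + 1) _ a b hab
  have hnn : ∀ t (f : Ω → ℝ) ω, (∀ b, 0 ≤ f b) → 0 ≤ P.cond t f ω := by
    intro t f ω hf
    have h1 := (hco t (fun _ => 0) f 0 ω).2.2.2.1 (fun b _ => hf b)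
    rw [(hco t f f 0 ω).2.2.1] at h1
    exact h1
  have hDat : ∀ t ω, Dat k (e t ω).1 (e t ω).2.1 := by
    intro t ω
    refine ⟨fun x => hnn _ _ _ fun b => Finset.sum_nonneg fun i _ => ?_,
      fun x => hnn _ _ _ fun b => ?_, ?_, ?_⟩
    · split_ifs <;> norm_num
    · simp only [ha0]; split_ifs <;> norm_num
    · show ∑ x, P.cond (t + 1) (fun b => a0 t b x) ω = 1
      rw [← hcoS X univ (fun x b => a0 t b x)]
      have : (fun b => ∑ x, a0 t b x) = fun _ => (1 : ℝ) := by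
        funext b; simp [ha0]
      rw [this]
      exact (hco _ (fun _ => 0) (fun _ => 0) 1 ω).2.2.1
    · show ∑ x, P.cond (t + 1) (fun b => c0 t b x) ω + 1 ≤ k
      rw [← hcoS X univ (fun x b => c0 t b x)]
      have : (fun b => ∑ x, c0 t b x) = fun _ => (k : ℝ) - 1 := by
        funext b; exact TIM.cnt_sum _ _
      rw [this, (hco _ (fun _ => 0) (fun _ => 0) _ ω).2.2.1]
      linarith
  set u := TIM.st F u₀ e with hu
  have huA : ∀ t, P.Ad t (u t) := TIM.st_ad P F u₀ e heA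
  have hok : ∀ t ω, ok (u t ω) := by
    intro t ω
    induction t with
    | zero => exact hu₀
    | succ t ih => exact (hF (u t ω) (e t ω) ih (hDat t ω)).1
  refine ⟨u, huA, fun t ω => ⟨hok t ω, (hF (u t ω) (e t ω) (hok t ω) (hDat t ω)).2.1⟩, ?_⟩
  have htw : ∀ t (f G : Ω → X → ℝ), P.Ad t G →
      P.Ex (fun ω => ∑ x, P.cond t (fun b => f b x) ω * G ω x) =
        P.Ex (fun ω => ∑ x, f ω x * G ω x) := by
    intro t f G hG
    rw [hExS X univ (fun x ω => P.cond t (fun b => f b x) ω * G ω x),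
      hExS X univ (fun x ω => f ω x * G ω x)]
    refine Finset.sum_congr rfl fun x _ => ?_
    have h := htow t (fun b => f b x) (fun ω => G ω x) (fun a b hab => by
      show G a x = G b x
      rw [hG a b hab])
    simp only [mul_comm (G _ x)] at h
    exact h
  set Φ : ℕ → Ω → ℝ := fun t ω => ∑ i, Θ (u t ω) (cf t ω i) with hΦ
  have hone : ∀ t, P.Ex (fun ω => ∑ i, κ (u t ω) (cf t ω i) (u (t + 1) ω) (cf (t + 1) ω i)) +
      (P.Ex (Φ (t + 1)) - P.Ex (Φ t)) ≤ K * P.Ex (fun ω => dist (cf t ω (j ω t)) (σ ω t)) := by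
    intro t
    have hu1 : P.Ad (t + 1) (u t) := hAdm S t (t + 1) _ (Nat.le_succ t) (huA t)
    have hA : P.Ad (t + 1) (fun ω x =>
        κ (u t ω) x (u (t + 1) ω) x + Θ (u (t + 1) ω) x - Θ (u t ω) x) := by
      intro a b hab
      funext x
      beta_reduce
      rw [hu1 a b hab, huA (t + 1) a b hab]
    have hB : P.Ad (t + 1) (fun ω x =>
        κ (u t ω) x (u (t + 1) ω) (σ ω t) + Θ (u (t + 1) ω) (σ ω t) - Θ (u t ω) x) := by
      intro a b hab
      funext x
      have h1 : σ a t = σ b t := hreq t a b hab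
      beta_reduce
      rw [hu1 a b hab, huA (t + 1) a b hab, h1]
    have hD : P.Ad (t + 1) (fun ω x => dist (σ ω t) x) := by
      intro a b hab
      funext x
      have h1 : σ a t = σ b t := hreq t a b hab
      beta_reduce
      rw [h1]
    have e1 := htw (t + 1) (c0 t) _ hA
    have e2 := htw (t + 1) (a0 t) _ hB
    have e3 := htw (t + 1) (a0 t) _ hD
    have e4 : (fun ω => ∑ x, a0 t ω x * dist (σ ω t) x) =
        fun ω => dist (cf t ω (j ω t)) (σ ω t) := by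
      funext ω
      simp [ha0, dist_comm]
    rw [e4] at e3
    have e5 : P.Ex (fun ω => ∑ i, κ (u t ω) (cf t ω i) (u (t + 1) ω) (cf (t + 1) ω i)) +
        (P.Ex (Φ (t + 1)) - P.Ex (Φ t)) =
        P.Ex (fun ω => ∑ x, c0 t ω x *
          (κ (u t ω) x (u (t + 1) ω) x + Θ (u (t + 1) ω) x - Θ (u t ω) x)) +
        P.Ex (fun ω => ∑ x, a0 t ω x *
          (κ (u t ω) x (u (t + 1) ω) (σ ω t) + Θ (u (t + 1) ω) (σ ω t) - Θ (u t ω) x)) := by
      rw [← (hEx _ _ 0).1, sub_eq_add_neg, ← neg_one_mul, ← (hEx (Φ t) (Φ t) (-1)).2.1,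
        ← (hEx _ _ 0).1, ← (hEx _ _ 0).1]
      congr 1
      funext ω
      have h := TIM.path (cf t ω) (j ω t) (σ ω t)
        (fun x x' => κ (u t ω) x (u (t + 1) ω) x' + Θ (u (t + 1) ω) x' - Θ (u t ω) x)
      have e6 : Function.update (cf t ω) (j ω t) (σ ω t) = cf (t + 1) ω := rfl
      rw [e6] at h
      rw [← h, Finset.sum_sub_distrib, Finset.sum_add_distrib]
      simp only [hΦ]
      ring
    rw [e5, ← e1, ← e2, ← e3, ← (hEx _ _ 0).1, ← (hEx _ (fun _ => 0) K).2.1]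
    exact (hEx _ _ 0).2.2.2 fun ω => (hF (u t ω) (e t ω) (hok t ω) (hDat t ω)).2.2
  have hsum := Finset.sum_le_sum (s := range n) fun t _ => hone t
  rw [Finset.sum_add_distrib, Finset.sum_range_sub (fun t => P.Ex (Φ t)), ← Finset.mul_sum,
    ← hExS ℕ (range n) (fun t ω => dist (cf t ω (j ω t)) (σ ω t)),
    ← hExS ℕ (range n)
      (fun t ω => ∑ i, κ (u t ω) (cf t ω i) (u (t + 1) ω) (cf (t + 1) ω i))] at hsum
  have h0 : P.Ex (Φ 0) ≤ k * b := by
    rw [← (hEx (Φ 0) (Φ 0) (k * b)).2.2.1]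
    refine (hEx _ _ 0).2.2.2 fun ω => ?_
    calc Φ 0 ω ≤ ∑ _i : Fin k, b := Finset.sum_le_sum fun i _ => hΘ₀ _
      _ = k * b := by simp
  have hn : -(k * b) ≤ P.Ex (Φ n) := by
    rw [← (hEx (Φ 0) (Φ 0) (-(k * b))).2.2.1]
    refine (hEx _ _ 0).2.2.2 fun ω => ?_
    calc -((k : ℝ) * b) = ∑ _i : Fin k, -b := by simp
      _ ≤ Φ n ω := Finset.sum_le_sum fun i _ => hΘ _ _ (hok n ω)
  show P.Ex (fun ω => ∑ t ∈ range n, ∑ i, κ (u t ω) (cf t ω i) (u (t + 1) ω) (cf (t + 1) ω i)) ≤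
    K * P.Ex (fun ω => ∑ t ∈ range n, dist (cf t ω (j ω t)) (σ ω t)) + 2 * k * b
  linarith

end Crest.Agent.R314E
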